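import Crest.Agent.X262.PD.Hd
import Crest.Agent.X262.Hb.Pnt
import Crest.Agent.X262.Am12.Main

/-!
# Row 262, road B, PD (helper97): `PtStmt` from `Hb.pt_dgc`
-/

set_option autoImplicit false
set_option linter.unusedSectionVars false

noncomputable section

namespace Crest.Agent.X262.PD.Dg

open Crest.Agent.X277 Crest.Agent.X277.BD Crest.Agent.X262.Hb Crest.Agent.X262.Vb
open Crest.Agent.X262.Node22 (scl)

variable {J : Type} [Fintype J] [DecidableEq J] {io : J → Type} [∀ j, Fintype (io j)]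
  [∀ j, DecidableEq (io j)] {A : Type} [Fintype A] {B : Th} {T : Tgt io A}
  {E F : Type} [Field E] [Algebra ℂ E] [Algebra.EssFiniteType ℂ E] [Field F] [Algebra ℂ F]
  [Algebra.EssFiniteType ℂ F] {Ψ : MFam B io (Fin 2)} {w y y' : Pnt io E}

theorem vec_scl (c c' : J → E) (w y : Pnt io E) :
    (fun q j i => ![c, c'] q j * ![w, y] q j i) = ![scl c w, scl c' y] :=
  _root_.funext (Fin.forall_fin_two.2 ⟨rfl, rfl⟩)

theorem mcls_red (hΨ : MCls B T Ψ) (p : LP E F) (h : Prim p.V w) (h' : Prim p.V y) (hO : T.On w)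
    (hO' : T.On y) : B.pb p (Ψ E ![w, y]) = Ψ F ![redP p.toPl w, redP p.toPl y] := by
  have e : (fun q => redP p.toPl (![w, y] q)) = ![redP p.toPl w, redP p.toPl y] :=
    _root_.funext (Fin.forall_fin_two.2 ⟨rfl, rfl⟩)
  rw [hΨ.nat E F p ![w, y] (Fin.forall_fin_two.2 ⟨h, h'⟩) (Fin.forall_fin_two.2 ⟨hO, hO'⟩), e]

theorem mcls_scl (hΨ : MCls B T Ψ) {c c' : J → E} (hc : ∀ j, c j ≠ 0) (hc' : ∀ j, c' j ≠ 0)
    (h : NZ w) (h' : NZ y) (hO : T.On w) (hO' : T.On y) :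
    Ψ E ![scl c w, scl c' y] = Ψ E ![w, y] := by
  rw [← vec_scl]
  exact hΨ.scl E _ _ (Fin.forall_fin_two.2 ⟨hc, hc'⟩) (Fin.forall_fin_two.2 ⟨h, h'⟩)
    (Fin.forall_fin_two.2 ⟨hO, hO'⟩)

theorem mcls_meet (hΨ : MCls B T Ψ) (p : LP E F) (hw : NZ w) (h : NZ y) (h' : NZ y') (hOw : T.On w)
    (hO : T.On y) (hO' : T.On y') (hm : Meet p.V y y') :
    B.pb p (Ψ E ![w, y']) = B.pb p (Ψ E ![w, y]) := by
  obtain ⟨c, c', hc, hc', h1, h2, e⟩ := hm.exists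
  obtain ⟨d, hd, h3⟩ := exists_prim hw p.V
  rw [← mcls_scl hΨ hd hc' hw h' hOw hO', ← mcls_scl hΨ hd hc hw h hOw hO,
    mcls_red hΨ p h3 h2 (Node22.on_scl T hOw _) (Node22.on_scl T hO' _),
    mcls_red hΨ p h3 h1 (Node22.on_scl T hOw _) (Node22.on_scl T hO _), e]

theorem mcls_hom (hΨ : MCls B T Ψ) (α : E →ₐ[ℂ] F) (h : NZ w) (h' : NZ y) (hO : T.On w)
    (hO' : T.On y) : B.pb (LP.hom α) (Ψ E ![w, y]) = Ψ F ![mpt α w, mpt α y] := by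
  rw [mcls_red hΨ _ (prim_hom α h) (prim_hom α h') hO hO', redP_hom, redP_hom]
  rfl

/-- **PT** -/
theorem ptStmt : PtStmt := by
  intro B hB J _ _ io _ _ A _ T c hS K _ _ _ y₀ g F L _ _ _ _ _ _ β γ hP Ψ hΨ y₁ w n₁ o₁ nw ow x
  rw [mul_comm (B.pb _ x), mul_assoc]
  refine pt_dgc hB hS g (Am12.isPF_of_prd hP) n₁ o₁ _ _ fun E _ _ _ p hm => ?_
  rw [map_mul (B.pb (LP.hom β)), mcls_hom hΨ β nw n₁ ow o₁, map_mul, map_mul,
    mcls_meet hΨ p (nz_mpt β nw) (nz_mpt β n₁) (nz_mpt γ g.nz) (on_mpt β ow) (on_mpt β o₁)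
      (on_mpt γ g.on) hm]

end Crest.Agent.X262.PD.Dg
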