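import Crest.Agent.X262.Hb.Bas
import Crest.Agent.X262.Wd54.Gx

/-!
# Row 262, road B, PD (helper97): calculus of product fields

* `exists_prd` : the product field of two finitely generated fields exists;
* `Prd.symm`, `dim_le`, `essFT_sup`;
* `cps a b`    : the compositum of the images, `inl a b`, `inr a b` the two embeddings;
* `prd_split`  : `(A B)(C D)` inside a field of the right dimension.
-/

set_option autoImplicit false
set_option linter.unusedSectionVars false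

noncomputable section

namespace Crest.Agent.X262.PD.Pr

open Crest.Agent.X277 Crest.Agent.X277.BD Crest.Agent.X277.Pst Crest.Agent.X277.BD.Cyc
open Crest.Agent.X262.Hb
open Crest.Agent.R274.Prod1_134 Set

variable {A B C D N : Type} [Field A] [Algebra ℂ A] [Field B] [Algebra ℂ B] [Field C]
  [Algebra ℂ C] [Field D] [Algebra ℂ D] [Field N] [Algebra ℂ N]

theorem sup_eq (a : A →ₐ[ℂ] N) (b : B →ₐ[ℂ] N) :
    a.fieldRange ⊔ b.fieldRange = IntermediateField.adjoin ℂ (range a ∪ range b) := by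
  rw [IntermediateField.adjoin_union, ← AlgHom.coe_fieldRange, ← AlgHom.coe_fieldRange,
    IntermediateField.adjoin_self, IntermediateField.adjoin_self]

theorem symm {a : A →ₐ[ℂ] N} {b : B →ₐ[ℂ] N} (h : Prd a b) : Prd b a :=
  ⟨h.1.trans (add_comm _ _), (sup_comm _ _).trans h.2⟩

section FG

variable [Algebra.EssFiniteType ℂ A] [Algebra.EssFiniteType ℂ B]

variable (A B) in
theorem exists_prd : ∃ (L : Type) (_ : Field L) (_ : Algebra ℂ L) (_ : Algebra.EssFiniteType ℂ L)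
    (a : A →ₐ[ℂ] L) (b : B →ₐ[ℂ] L), Prd a b :=
  ⟨PF ℂ A B, inferInstance, inferInstance, Wd.essFT_pf (isPF ℂ A B), pα ℂ A B, pβ ℂ A B,
    Wd.dim_pf (isPF ℂ A B), (sup_eq _ _).trans (isPF ℂ A B).adjoin_eq⟩

theorem essFT_sup {a : A →ₐ[ℂ] N} {b : B →ₐ[ℂ] N} (h : a.fieldRange ⊔ b.fieldRange = ⊤) :
    Algebra.EssFiniteType ℂ N := by
  classical
  obtain ⟨s, hs⟩ := IntermediateField.fg_top_iff.2 ‹Algebra.EssFiniteType ℂ A›
  obtain ⟨t, ht⟩ := IntermediateField.fg_top_iff.2 ‹Algebra.EssFiniteType ℂ B›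
  refine IntermediateField.fg_top_iff.1 ⟨s.image a ∪ t.image b, eq_top_iff.2 ?_⟩
  rw [← h, sup_le_iff]
  constructor
  · rw [AlgHom.fieldRange_eq_map, ← hs, IntermediateField.adjoin_map]
    exact IntermediateField.adjoin.mono ℂ _ _ (by simp)
  · rw [AlgHom.fieldRange_eq_map, ← ht, IntermediateField.adjoin_map]
    exact IntermediateField.adjoin.mono ℂ _ _ (by simp)

theorem dim_le {a : A →ₐ[ℂ] N} {b : B →ₐ[ℂ] N} (h : a.fieldRange ⊔ b.fieldRange = ⊤) :
    dim ℂ N ≤ dim ℂ A + dim ℂ B := by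
  have := essFT_sup h
  obtain ⟨s, hs⟩ := Wd.exists_tb ℂ A
  obtain ⟨t, ht⟩ := Wd.exists_tb ℂ B
  let u : Fin (dim ℂ A) ⊕ Fin (dim ℂ B) → N := Sum.elim (a ∘ s) (b ∘ t)
  have h1 : Algebra.IsAlgebraic (Algebra.adjoin ℂ (range u)) N := ⟨fun x => by
    have hx : x ∈ IntermediateField.adjoin ℂ (range a ∪ range b) := by
      rw [← sup_eq, h]
      exact IntermediateField.mem_top
    induction hx using IntermediateField.adjoin_induction with
    | mem x hx =>
      rcases hx with ⟨x, rfl⟩ | ⟨x, rfl⟩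
      · exact Wd.isAlg_map a a.injective (by
          rintro _ ⟨_, ⟨i, rfl⟩, rfl⟩
          exact Algebra.subset_adjoin ⟨Sum.inl i, rfl⟩) (hs.isAlgebraic.1 x)
      · exact Wd.isAlg_map b b.injective (by
          rintro _ ⟨_, ⟨i, rfl⟩, rfl⟩
          exact Algebra.subset_adjoin ⟨Sum.inr i, rfl⟩) (ht.isAlgebraic.1 x)
    | algebraMap c =>
      exact isAlgebraic_algebraMap (⟨_, algebraMap_mem _ c⟩ : Algebra.adjoin ℂ (range u))
    | add x y _ _ hx hy => exact hx.add hy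
    | inv x _ hx => exact hx.inv
    | mul x y _ _ hx hy => exact hx.mul hy⟩
  have h2 := (Algebra.IsAlgebraic.trdeg_le_cardinalMk ℂ (range u)).trans Cardinal.mk_range_le
  rw [trdeg_eq_dim] at h2
  simp only [Cardinal.mk_sum, Cardinal.mk_fin, Cardinal.lift_natCast] at h2
  exact_mod_cast h2

end FG

/-- the compositum of the images -/
def cps (a : A →ₐ[ℂ] N) (b : B →ₐ[ℂ] N) : IntermediateField ℂ N := a.fieldRange ⊔ b.fieldRange

/-- the first field in the compositum -/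
def inl (a : A →ₐ[ℂ] N) (b : B →ₐ[ℂ] N) : A →ₐ[ℂ] cps a b :=
  a.codRestrict (cps a b).toSubalgebra fun x => le_sup_left (a := a.fieldRange) ⟨x, rfl⟩

/-- the second field in the compositum -/
def inr (a : A →ₐ[ℂ] N) (b : B →ₐ[ℂ] N) : B →ₐ[ℂ] cps a b :=
  b.codRestrict (cps a b).toSubalgebra fun x => le_sup_right (b := b.fieldRange) ⟨x, rfl⟩

theorem val_inl (a : A →ₐ[ℂ] N) (b : B →ₐ[ℂ] N) : (cps a b).val.comp (inl a b) = a := rfl

theorem val_inr (a : A →ₐ[ℂ] N) (b : B →ₐ[ℂ] N) : (cps a b).val.comp (inr a b) = b := rfl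

theorem sup_cps (a : A →ₐ[ℂ] N) (b : B →ₐ[ℂ] N) :
    (inl a b).fieldRange ⊔ (inr a b).fieldRange = ⊤ := by
  apply IntermediateField.map_injective (cps a b).val
  rw [IntermediateField.map_sup, AlgHom.map_fieldRange, AlgHom.map_fieldRange, val_inl, val_inr,
    ← AlgHom.fieldRange_eq_map, IntermediateField.fieldRange_val]
  rfl

variable [Algebra.EssFiniteType ℂ A] [Algebra.EssFiniteType ℂ B] [Algebra.EssFiniteType ℂ C]
  [Algebra.EssFiniteType ℂ D]

instance essFT_cps (a : A →ₐ[ℂ] N) (b : B →ₐ[ℂ] N) : Algebra.EssFiniteType ℂ (cps a b) :=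
  essFT_sup (sup_cps a b)

theorem prd_split {a : A →ₐ[ℂ] N} {b : B →ₐ[ℂ] N} {c : C →ₐ[ℂ] N} {d : D →ₐ[ℂ] N}
    (h1 : dim ℂ N = dim ℂ A + dim ℂ B + (dim ℂ C + dim ℂ D)) (h2 : cps a b ⊔ cps c d = ⊤) :
    Prd (inl a b) (inr a b) ∧ Prd (inl c d) (inr c d) ∧ Prd (cps a b).val (cps c d).val := by
  have h3 : (cps a b).val.fieldRange ⊔ (cps c d).val.fieldRange = ⊤ := by
    rwa [IntermediateField.fieldRange_val, IntermediateField.fieldRange_val]
  have h4 := dim_le (sup_cps a b)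
  have h5 := dim_le (sup_cps c d)
  have h6 := dim_le h3
  exact ⟨⟨by omega, sup_cps a b⟩, ⟨by omega, sup_cps c d⟩, by omega, h3⟩

end Crest.Agent.X262.PD.Pr
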