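import Crest.Agent.X262.PD.Th
import Crest.Agent.R208.CM3b

/-!
# Row 262, PD (helper97): the cohomology of projective space

* `LinF X Q` : a field of complex lines, `eL Q` its Euler form, `LinF.gysin`, `LinF.low`;
* `sph_exact` : the cohomology of an odd sphere;  `pn_forms`;
* `hodd_pn`, `th_pn`, `th_kunp`.
-/

set_option autoImplicit false
set_option linter.unusedSectionVars false
set_option linter.style.haveILetI false

open Set Module
open scoped ContDiff ComplexConjugate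
open Crest.Agent.R208 Crest.Agent.R208.F Crest.Agent.R208.FI Crest.Agent.R208.T
open Crest.Agent.R208.CW (SMap integ)
open Crest.Agent.R208.CM (MM RI jj PL WL rcL)
open Crest.Agent.R257.PN_835 (pm nsq nsq_pos pm_smul PN)
open Crest.Agent.X277 Crest.Agent.X277.Lef Crest.Agent.X277.AN.G1 Crest.Agent.X277.BD
open Crest.Agent.X262.Man

noncomputable section

namespace Crest.Agent.X262.PD

section taut

variable {E : Type} [NormedAddCommGroup E] [NormedSpace ℝ E] [FiniteDimensional ℝ E]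
  {X : Set E} {m d j : ℕ} {Q : E → MM m} {b : E → Ext E}

/-- a field of complex lines -/
structure LinF (X : Set E) (Q : E → MM m) : Prop where
  sm : ∀ x ∈ X, ContDiffAt ℝ ∞ Q x
  ex : ∀ x ∈ X, ∃ z : Fin m → ℂ, ∑ a, ‖z a‖ ^ 2 = 1 ∧ Q x = jj id z

/-- the Euler form -/
def eL (Q : E → MM m) : E → Ext E := eR (ι := Unit) (fun x => PL (Q x)) fun x => WL (Q x)

/-- the circle bundle -/
abbrev SL (X : Set E) (Q : E → MM m) : Set (E × EuclideanSpace ℝ (RI m)) :=
  Sph X fun x => PL (Q x)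

theorem hom_eL : Hom 2 (eL Q) := fun x => (degC_ef (ι := Unit) _ _ x).1

namespace LinF

variable (h : LinF X Q)
include h

theorem or : OR (ι := Unit) X (fun x => PL (Q x)) fun x => WL (Q x) := by
  refine ⟨fun x hx => CM.contDiff_PL.contDiffAt.comp x (h.sm x hx),
    fun x hx I => (CM.contDiff_WL I).contDiffAt.comp x (h.sm x hx), fun x hx => ?_⟩
  obtain ⟨z, hz, e⟩ := h.ex x hx
  rw [e]
  refine ⟨CM.fm z, CM.fm_tr_mul hz, fun v i => ?_, fun I => CM.WL_jj (g := id) z I⟩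
  rw [PL, mE_apply, CM.Pm_jj]
  rfl

theorem ec : EC X (eL Q) := by
  obtain ⟨⟨h1, h2, h3⟩, -⟩ := mem_Z_iff.1 (CW.ef_mem_Z (OR.of h.or))
  exact ⟨h1, h2, h3⟩

theorem gysin (hX : Sub d X) (hc : IsPreconnected X) (sb : Sm X b) (cb : Cl X b)
    (hb : Hom (j + 2) b) (h0 : Coh (SL X Q) (pull Prod.fst b) 0) :
    ∃ c, Sm X c ∧ Cl X c ∧ Hom j c ∧ Coh X b (c * eL Q) :=
  gysin_all hX hc h.or sb cb (by simpa using hb) h0

theorem low (hX : Sub d X) (hc : IsPreconnected X) (sb : Sm X b) (cb : Cl X b)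
    (hb : Hom j b) (hj : j < 2) (h0 : Coh (SL X Q) (pull Prod.fst b) 0) : Coh X b 0 :=
  gysin_low_all hX hc h.or sb cb hb (by simpa using hj) h0

theorem exists_smul {x : E × EuclideanSpace ℝ (RI m)} (hx : x ∈ SL X Q) :
    ∃ (z : Fin m → ℂ) (w : ℂ), ∑ a, ‖z a‖ ^ 2 = 1 ∧ Q x.1 = jj id z ∧ w ≠ 0 ∧
      x.2 = rcL m (w • z) := by
  obtain ⟨z, hz, e⟩ := h.ex x.1 hx.1.1
  have h1 : PL (Q x.1) x.2 = x.2 := hx.1.2
  rw [e, CM.PL_jj_apply] at h1
  refine ⟨z, _, hz, e, fun h0 => ?_, h1.symm⟩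
  rw [h0, zero_smul, map_zero] at h1
  simpa [← h1] using hx.2

/-- the cohomology of the base of a circle bundle whose total space is a sphere -/
theorem forms (hX : Sub d X) (hc : IsPreconnected X) {J : ℕ}
    (hS : ∀ j b, 0 < j → j < J → Sm X b → Cl X b → Hom j b → Coh (SL X Q) (pull Prod.fst b) 0)
    (hj : j < J) (sb : Sm X b) (cb : Cl X b) (hb : Hom j b) :
    ∃ r : ℝ, (Odd j → r = 0) ∧ Coh X b (r • eL Q ^ (j / 2)) := by
  induction j using Nat.twoStepInduction generalizing b with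
  | zero =>
    obtain ⟨r, hr⟩ := const_of_closed hX hc sb cb hb
    exact ⟨r, by simp, Coh.of_eqv (Eqv.of_eq fun x hx => by
      simp [hr x hx, Algebra.algebraMap_eq_smul_one])⟩
  | one => exact ⟨0, fun _ => rfl, by
      simpa using h.low hX hc sb cb hb one_lt_two (hS _ _ one_pos hj sb cb hb)⟩
  | more j ih _ =>
    obtain ⟨c, sc, cc, dc, h1⟩ := h.gysin hX hc sb cb hb (hS _ _ (by omega) hj sb cb hb)
    obtain ⟨r, h2, h3⟩ := ih (by omega) sc cc dc
    refine ⟨r, fun ho => h2 (by simpa [Nat.odd_add] using ho), h1.trans ?_⟩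
    rw [Nat.add_div_right _ two_pos, pow_succ, ← smul_mul_assoc]
    exact h3.mul_right h.ec.sm h.ec.cl

end LinF

/-- the unit sphere -/
abbrev S0 (m : ℕ) : Set (ℝ × EuclideanSpace ℝ (RI m)) := Sph {0} fun _ => 1

theorem sph_exact {b : ℝ × EuclideanSpace ℝ (RI (m + 1)) → Ext _} (h0 : 0 < j)
    (hj : j < 2 * m + 1) (sb : Sm (S0 (m + 1)) b) (cb : Cl (S0 (m + 1)) b) (hb : Hom j b) :
    Coh (S0 (m + 1)) b 0 := by
  have h1 : OR (ι := Fin (m + 1)) ({0} : Set ℝ)
      (fun _ => (1 : EuclideanSpace ℝ (RI (m + 1)) →L[ℝ] _))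
      fun _ I => ((1 : Matrix (RI (m + 1)) (RI (m + 1)) ℝ).submatrix I id).det :=
    ⟨fun _ _ => contDiffAt_const, fun _ _ _ => contDiffAt_const, fun _ _ =>
      ⟨1, by simp, fun v i => by simp [Matrix.one_apply], fun _ => rfl⟩⟩
  obtain ⟨c, -, -, dc, h2⟩ := sph_low_all (Van.sub_singleton 0) isPreconnected_singleton h1
    (by rw [Fintype.card_fin]; omega) sb cb hb
  have h3 := (Coh.of_eqv (resZero_iff.1 (resZero_of_hom (Van.sub_singleton 0) dc h0))).pull
    (smap_fstS (P := fun _ => (1 : EuclideanSpace ℝ (RI (m + 1)) →L[ℝ] _)))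
  rw [pull_zero'] at h3
  exact h2.trans h3

/-- complex coordinates -/
def cxL {m : ℕ} (v : EuclideanSpace ℝ (RI m)) (a : Fin m) : ℂ := v (a, 0) + v (a, 1) * Complex.I

theorem cxL_rcL (z : Fin m → ℂ) : cxL (rcL m z) = z := funext fun a => by
  rw [cxL, CM.rcL_zero_apply, CM.rcL_one_apply, Complex.re_add_im]

theorem rcL_cxL (v : EuclideanSpace ℝ (RI m)) : rcL m (cxL v) = v := by
  ext ⟨a, s⟩
  fin_cases s
  · simpa [cxL] using CM.rcL_zero_apply (cxL v) a
  · simpa [cxL] using CM.rcL_one_apply (cxL v) a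

theorem contDiff_cxL (a : Fin m) : ContDiff ℝ ∞ fun v : EuclideanSpace ℝ (RI m) => cxL v a :=
  have h (p : RI m) : ContDiff ℝ ∞ fun v : EuclideanSpace ℝ (RI m) => (v p : ℂ) :=
    Complex.ofRealCLM.contDiff.comp (EuclideanSpace.proj p : _ →L[ℝ] ℝ).contDiff
  (h _).add ((h _).mul contDiff_const)

theorem cxL_ne {v : EuclideanSpace ℝ (RI m)} (hv : ‖v‖ = 1) : cxL v ≠ 0 := fun h => by
  rw [← rcL_cxL v, h, map_zero, norm_zero] at hv
  exact zero_ne_one hv

theorem pm_unit {z : Fin (m + 1) → ℂ} (hz : ∑ a, ‖z a‖ ^ 2 = 1) : pm z = jj id z := by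
  ext a b
  rw [R257.PN_835.pm_apply, show nsq z = 1 from hz]
  simp [jj]

end taut

section pn

variable {F : Type} [Field F] [Algebra ℂ F] {P : PModel ℂ F}

theorem dim_le (P : PModel ℂ F) : dim ℂ F ≤ P.N := by
  obtain ⟨x⟩ : Nonempty (Pts P) := inferInstance
  obtain ⟨α, hx⟩ := (an P).A.cover x
  obtain ⟨i, hi⟩ := exists_pat x
  have h := LinearMap.finrank_le_finrank_of_injective (f := LinearMap.pi fun j : Fin P.N =>
    (fderiv ℂ ((an P).rd α (AN.G1.ev (P.y (i.succAbove j) / P.y i))) ((an P).A.e α x)).toLinearMap)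
    ((injective_iff_map_eq_zero _).2 fun w hw => AnP.eq_zero_of_dv hx hi fun j => by
      rcases Fin.eq_self_or_eq_succAbove i j with rfl | ⟨j, rfl⟩
      · rw [div_self (P.y_ne j), ← map_one (algebraMap ℂ F), AnP.dv_alg]
      · exact congrFun hw j)
  simpa using h

theorem linF_XP (P : PModel ℂ F) : LinF (XP P) toM := by
  refine ⟨fun x _ => contDiffAt_pi.2 fun a => contDiffAt_pi.2 fun b =>
    (contDiff_entry (a, b)).contDiffAt, ?_⟩
  rintro _ ⟨x, rfl⟩
  obtain ⟨z, h1, h2⟩ := R257.PN_835.exists_unit x.val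
  exact ⟨z, h1, h2.symm.trans (pm_unit h1)⟩

theorem aeval_div_hom {σ : Type*} {p : MvPolynomial σ ℂ} {d : ℕ} (h : p.IsHomogeneous d)
    (v : σ → F) (c : F) :
    MvPolynomial.aeval (fun j => v j / c) p = MvPolynomial.aeval v p / c ^ d := by
  classical
  rw [MvPolynomial.aeval_def, MvPolynomial.aeval_def, MvPolynomial.eval₂_eq, MvPolynomial.eval₂_eq,
    Finset.sum_div]
  refine Finset.sum_congr rfl fun e he => ?_
  have h1 : ∑ i ∈ e.support, e i = d := by
    rw [← h (MvPolynomial.mem_support_iff.1 he), Finsupp.weight_apply, Finsupp.sum]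
    simp
  simp only [div_pow, Finset.prod_div_distrib, Finset.prod_pow_eq_pow_sum, h1]
  ring

variable (hP : ∀ (m : ℕ) (q : MvPolynomial (Fin (P.N + 1)) ℂ), q.IsHomogeneous m →
  MvPolynomial.aeval P.y q = 0 → q = 0)
include hP

open MvPolynomial in
theorem mem_ptSet (x : PN P.N) : x ∈ ptSet P := fun i hi q hq => by
  have h1 : (∑ e ∈ Finset.range (q.totalDegree + 1),
      X i ^ (q.totalDegree - e) * homogeneousComponent e q).IsHomogeneous q.totalDegree := by
    refine IsHomogeneous.sum _ _ _ fun e he => ?_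
    have h1 := ((isHomogeneous_X ℂ i).pow (q.totalDegree - e)).mul
      (homogeneousComponent_isHomogeneous e q)
    rwa [one_mul, Nat.sub_add_cancel (Nat.lt_succ_iff.1 (Finset.mem_range.1 he))] at h1
  have h2 {B : Type} [Field B] [Algebra ℂ B] {v : Fin (P.N + 1) → B} (hv : v i = 1) :
      aeval v (∑ e ∈ Finset.range (q.totalDegree + 1),
        X i ^ (q.totalDegree - e) * homogeneousComponent e q) = aeval v q := by
    conv_rhs => rw [← sum_homogeneousComponent q]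
    simp [hv]
  have h3 := aeval_div_hom h1 P.y (P.y i)
  rw [h2 (div_self (P.y_ne i)), hq, eq_comm, div_eq_zero_iff, or_iff_left (pow_ne_zero _ (P.y_ne i))]
    at h3
  have h4 := h2 (R257.PN_835.lft_self hi)
  rw [hP _ _ h1 h3, map_zero] at h4
  exact h4.symm

theorem pm_mem {z : Fin (P.N + 1) → ℂ} (hz : z ≠ 0) : ofM (pm z) ∈ XP P :=
  ⟨⟨R257.PN_835.cls z hz, mem_ptSet hP _⟩, rfl⟩

theorem pn_forms {j : ℕ} {b : Hm P.N → Ext (Hm P.N)} (sb : Sm (XP P) b) (cb : Cl (XP P) b)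
    (hb : Hom j b) : ∃ r : ℝ, (Odd j → r = 0) ∧ Coh (XP P) b (r • eL toM ^ (j / 2)) := by
  rcases lt_or_ge j (2 * P.N + 1) with hj | hj
  swap
  · refine ⟨0, fun _ => rfl, Coh.of_eqv ?_⟩
    rw [zero_smul]
    exact resZero_iff.1 (resZero_of_hom (subP P) hb (by have := dim_le P; omega))
  refine (linF_XP P).forms (subP P) (isConnected_XP P).isPreconnected (fun j b h0 hj sb cb hb => ?_)
    hj sb cb hb
  have hg : SMap (S0 (P.N + 1)) (XP P) fun x => ofM (pm (cxL x.2)) :=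
    ⟨fun x hx => (contDiffAt_piLp 2).2 fun p => contDiffAt_pm
      (fun k => (contDiff_cxL k).contDiffAt.comp x contDiffAt_snd) (cxL_ne hx.2) p.1 p.2,
      fun x hx => pm_mem hP (cxL_ne hx.2)⟩
  have hh : SMap (SL (XP P) toM) (S0 (P.N + 1)) fun x => (0, x.2) :=
    ⟨fun x _ => contDiffAt_const.prodMk contDiffAt_snd, fun x hx => ⟨⟨rfl, rfl⟩, hx.2⟩⟩
  have h1 := (sph_exact h0 hj (sb.pull hg) (cb.pull hg sb) hb.pull).pull hh
  rw [pull_zero'] at h1
  refine (Coh.of_eqv (eqv_pull_pull hh hg smap_fstS (fun x hx => ?_) b)).symm.trans h1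
  obtain ⟨z, w, h2, h3, h4, h5⟩ := (linF_XP P).exists_smul hx
  rw [h5, cxL_rcL, pm_smul h4, pm_unit h2, ← h3]
  rfl

theorem hodd_pn : Hodd (XP P) := hodd_of (subP P) fun j hj _ u su cu hu => by
  obtain ⟨r, h1, h2⟩ := pn_forms hP su cu hu
  rwa [h1 hj, zero_smul] at h2

theorem dgP_pn (k : ℕ) : dgP P k ≤ Submodule.span ℂ {rcl (linF_XP P).ec ^ k} := fun c hc => by
  have h1 : ∀ a (ha : EC (XP P) a), Hom (2 * k) a →
      rcl ha ∈ Submodule.span ℂ {rcl (linF_XP P).ec ^ k} := fun a ha da => by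
    obtain ⟨r, -, h⟩ := pn_forms hP ha.sm ha.cl da
    rw [Nat.mul_div_cancel_left k two_pos] at h
    rw [rcl_congr ha (((linF_XP P).ec.pow k).smul r) h, rcl_smul _ ((linF_XP P).ec.pow k),
      rcl_pow (linF_XP P).ec]
    exact Submodule.smul_mem _ _ (Submodule.mem_span_singleton_self _)
  obtain ⟨a, b, ha, hb, da, db, rfl⟩ := exists_rcl_HD hc
  exact add_mem (h1 a ha da) (Submodule.smul_mem _ _ (h1 b hb db))

end pn

section th

open Crest.Agent.X262.Coh

variable (typ : ∀ X : SV, ℕ → ℕ → Submodule ℂ (HP X.P)) (c1 : ∀ X : SV, BD ℂ X.F → HP X.P)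
  (Lam : ∀ X : SV, AddSubgroup (HP X.P))

theorem th_pn (hM : (thOf typ c1 Lam).MAN) : (thOf typ c1 Lam).PN := fun X hX k => by
  refine le_antisymm (fun a ha => ?_) ((Submodule.span_singleton_le_iff_mem _ _).2 (hM.hc_pow X k))
  rcases lt_or_ge X.dim k with hk | hk
  · rw [hM.dg_gt X hk] at ha
    exact ha ▸ zero_mem _
  obtain ⟨r, hr⟩ := Submodule.mem_span_singleton.1 (dgP_pn hX k (hM.hc_pow X k))
  obtain ⟨s, rfl⟩ := Submodule.mem_span_singleton.1 (dgP_pn hX k ha)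
  have h0 : r ≠ 0 := by
    rintro rfl
    have h1 := hM.itg_hc X
    rw [← Nat.add_sub_cancel' hk, pow_add, ← hr, zero_smul, zero_mul, map_zero] at h1
    exact X.dgr_ne h1.symm
  exact Submodule.mem_span_singleton.2 ⟨s / r, by rw [← hr, smul_smul, div_mul_cancel₀ _ h0]⟩

theorem th_kunp (X Y : SV) (hX : ∀ (m : ℕ) (q : MvPolynomial (Fin (X.P.N + 1)) ℂ),
    q.IsHomogeneous m → MvPolynomial.aeval X.P.y q = 0 → q = 0) (z : HP (Y.prod X).P) :
    z ∈ Submodule.span ℂ {z | ∃ a b, z = pullH (fst Y X) a * pullH (snd Y X) b} :=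
  th_span (Or.inr (hodd_pn hX)) z

end th

end Crest.Agent.X262.PD
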