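import Crest.Agent.X262.PD.Cpt

/-!
# Row 262, PD (helper97): Poincare duality

* `pd_loc` : a form on `X ∩ U` which kills the closed test forms supported in `U` is exact near any
  compact `K ⊆ U`;  `pd_inj` : the global version;
* `pd_surj` : a functional on closed forms which kills the exact ones is `φ ↦ ∫ a ∧ φ`.
-/

set_option autoImplicit false
set_option linter.unusedSectionVars false

open MeasureTheory Set Filter Topology Module
open scoped ContDiff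
open Crest.Agent.R208 Crest.Agent.R208.F Crest.Agent.R208.FI Crest.Agent.R208.T
open Crest.Agent.R208.CW (SMap)

noncomputable section

namespace Crest.Agent.X262.PD

universe u

variable {E : Type u} [NormedAddCommGroup E] [NormedSpace ℝ E] [FiniteDimensional ℝ E]
  {n : ℕ} {X U O : Set E} {o a b φ ψ : E → Ext E} {f : Eu n → E} {W : Set (Eu n)} {ℓ : E → Eu n}

/-- the Poincare lemma on a convex patch -/
theorem coh_const (h : Loc X f W O ℓ) (hW : Convex ℝ W) (hne : W.Nonempty) (sa : Sm (X ∩ O) a)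
    (ca : Cl (X ∩ O) a) : ∃ κ : ℝ, Coh (X ∩ O) a fun _ => algebraMap ℝ (Ext E) κ := by
  obtain ⟨u₀, hu₀⟩ := hne
  have hm : ∀ x ∈ X ∩ O, ∀ t ∈ Icc (0 : ℝ) 1, (1 - t) • u₀ + t • ℓ x ∈ W := fun x hx t ht =>
    hW hu₀ (h.maps x hx.2) (sub_nonneg.2 ht.2) ht.1 (sub_add_cancel _ _)
  have h1 := coh_homotopy (X := X ∩ O) (Y := X ∩ O)
    (Fh := fun p : E × ℝ => f ((1 - p.2) • u₀ + p.2 • ℓ p.1)) (w := a)
    (fun x hx t ht => (h.fC' (hm x hx t ht)).comp (x, t) (ContDiffAt.add (by fun_prop)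
      (contDiffAt_snd.smul ((h.lC' hx.2).comp (x, t) contDiffAt_fst))))
    (fun x hx t ht => h.mem (hm x hx t ht)) sa ca
  simp only [sub_self, zero_smul, one_smul, zero_add, sub_zero, add_zero] at h1
  refine ⟨evA E 0 (a (f u₀)) Fin.elim0, Coh.trans (Coh.of_eqv ?_) (h1.trans (Coh.of_eqv ?_))⟩
  · refine (Eqv.of_eq fun x _ => (pull_id a x).symm).trans (eqv_pull_of_eq a
      (fun _ _ => differentiableAt_id) (fun x hx => ?_) fun x hx => (h.right_inv hx.1 hx.2).symm)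
    exact ((h.fC' (h.maps x hx.2)).comp x (h.lC' hx.2)).differentiableAt (by simp)
  · refine Eqv.of_eq fun x _ => ?_
    rw [pull, fderiv_fun_const, ← pb_zero_eq]
    rfl

variable (X) in
/-- restriction to the tangent spaces -/
def res : (E → Ext E) →ₗ[ℝ] ((x : X) → Ext (Tan X (x : E))) where
  toFun a x := pb (Tan X (x : E)).subtype (a x)
  map_add' _ _ := funext fun _ => map_add _ _ _
  map_smul' r a := funext fun x => map_smul (pb (Tan X (x : E)).subtype) r (a x)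

theorem res_apply (a : E → Ext E) (x : X) : res X a x = pb (Tan X (x : E)).subtype (a x) := rfl

theorem res_eq_iff : res X a = res X b ↔ Eqv X a b := by
  refine ⟨fun h => eqv_iff.2 fun x hx => ?_, fun h => funext fun x => ?_⟩
  · have := congrFun h ⟨x, hx⟩
    rwa [res_apply, res_apply] at this
  · rw [res_apply, res_apply]
    exact eqv_iff.1 h x x.2

variable (X U) in
/-- the space of test forms -/
def CsS : Submodule ℝ (E → Ext E) where
  carrier := {φ | Cs X U φ}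
  add_mem' := Cs.add
  zero_mem' := Cs.zero
  smul_mem' r _ h := h.smul r

variable (X U) in
/-- the differential on test forms -/
def dS : CsS X U →ₗ[ℝ] ((x : X) → Ext (Tan X (x : E))) where
  toFun φ := res X (d φ.1)
  map_add' φ ψ := by
    rw [← map_add]
    exact res_eq_iff.2 (d_add_eqv φ.2.sm ψ.2.sm)
  map_smul' r φ := by
    rw [RingHom.id_apply, ← map_smul]
    exact res_eq_iff.2 (d_smul_eqv r φ.2.sm)

/-- functionals which are linear on test forms -/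
structure Lin (X U : Set E) (T : (E → Ext E) → ℝ) : Prop where
  add : ∀ φ ψ, Cs X U φ → Cs X U ψ → T (φ + ψ) = T φ + T ψ
  smul : ∀ (r : ℝ) φ, Cs X U φ → T (r • φ) = r * T φ
  eqv : ∀ φ ψ, Cs X U φ → Cs X U ψ → Eqv X φ ψ → T φ = T ψ

theorem Lin.zero {T : (E → Ext E) → ℝ} (h : Lin X U T) : T 0 = 0 := by
  have := h.smul 0 0 Cs.zero
  rwa [zero_smul, zero_mul] at this

theorem Lin.resZero {T : (E → Ext E) → ℝ} (h : Lin X U T) (hφ : Cs X U φ) (h0 : ResZero X φ) :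
    T φ = 0 := (h.eqv _ _ hφ Cs.zero (resZero_iff.1 h0)).trans h.zero

theorem lin_J (hX : Clo n X) (ho : Ori n X o) (ha : Sm (X ∩ U) a) :
    Lin X U fun φ => J n X o (a * φ) :=
  ⟨fun φ ψ h1 h2 => by rw [mul_add, J_add' hX ho (h1.mul_left ha).sm (h2.mul_left ha).sm],
    fun r φ _ => by rw [mul_smul_comm, J_smul'],
    fun φ ψ _ _ h => J_eqv hX ((Eqv.refl a).mul h)⟩

/-- a functional which kills the closed test forms is a boundary -/
theorem Lin.exists_prim {T : (E → Ext E) → ℝ} (h : Lin X U T)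
    (h0 : ∀ φ, Cs X U φ → Cl X φ → T φ = 0) :
    ∃ S : (E → Ext E) → ℝ, Lin X U S ∧ ∀ φ, Cs X U φ → S (d φ) = T φ := by
  let T' : Module.Dual ℝ (CsS X U) :=
    { toFun := fun φ => T φ.1
      map_add' := fun φ ψ => h.add _ _ φ.2 ψ.2
      map_smul' := fun r φ => h.smul r _ φ.2 }
  have h1 : T' ∈ (LinearMap.ker (dS X U)).dualAnnihilator := by
    rw [Submodule.mem_dualAnnihilator]
    intro φ hφ
    refine h0 _ φ.2 (resZero_iff.2 (res_eq_iff.1 ?_))
    rw [map_zero]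
    exact hφ
  rw [← LinearMap.range_dualMap_eq_dualAnnihilator_ker] at h1
  obtain ⟨S, hS⟩ := h1
  refine ⟨fun φ => S (res X φ), ⟨fun φ ψ _ _ => by rw [map_add, map_add],
    fun r φ _ => by rw [map_smul, map_smul, smul_eq_mul],
    fun φ ψ _ _ h => by rw [res_eq_iff.2 h]⟩, fun φ hφ => ?_⟩
  exact LinearMap.congr_fun hS ⟨φ, hφ⟩

theorem fm_add (χ : E → ℝ) (φ ψ : E → Ext E) : fm χ (φ + ψ) = fm χ φ + fm χ ψ :=
  funext fun _ => smul_add _ _ _

theorem fm_smul (χ : E → ℝ) (r : ℝ) (φ : E → Ext E) : fm χ (r • φ) = r • fm χ φ :=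
  funext fun x => smul_comm (χ x) r (φ x)

theorem fm_one (χ : E → ℝ) (φ : E → Ext E) : fm χ φ + fm (fun x => 1 - χ x) φ = φ :=
  funext fun x => by simp only [Pi.add_apply, fm, ← add_smul, add_sub_cancel, one_smul]

theorem fm_mul (χ : E → ℝ) (a φ : E → Ext E) : fm χ a * φ = a * fm χ φ :=
  funext fun x => by simp only [Pi.mul_apply, fm, smul_mul_assoc, mul_smul_comm]

theorem eqv_fm (χ : E → ℝ) (h : Eqv X a b) : Eqv X (fm χ a) (fm χ b) :=
  eqv_iff.2 fun x hx => by rw [fm, fm, map_smul, map_smul, eqv_iff.1 h x hx]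

/-- currents modulo smooth forms -/
def cur (hX : Clo n X) (ho : Ori n X o) : Fine E ((E → Ext E) → ℝ) where
  Sm U :=
    { carrier := {T | Lin X U T}
      zero_mem' := ⟨fun _ _ _ _ => (add_zero _).symm, fun _ _ _ => (mul_zero _).symm,
        fun _ _ _ _ _ => rfl⟩
      add_mem' := fun {S T} hS hT =>
        ⟨fun φ ψ h1 h2 => by
            simp only [Pi.add_apply, hS.add φ ψ h1 h2, hT.add φ ψ h1 h2]; ring,
          fun r φ h => by simp only [Pi.add_apply, hS.smul r φ h, hT.smul r φ h]; ring,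
          fun φ ψ h1 h2 h => by simp only [Pi.add_apply, hS.eqv φ ψ h1 h2 h, hT.eqv φ ψ h1 h2 h]⟩
      neg_mem' := fun {S} hS =>
        ⟨fun φ ψ h1 h2 => by simp only [Pi.neg_apply, hS.add φ ψ h1 h2]; ring,
          fun r φ h => by simp only [Pi.neg_apply, hS.smul r φ h]; ring,
          fun φ ψ h1 h2 h => by simp only [Pi.neg_apply, hS.eqv φ ψ h1 h2 h]⟩ }
  Nu U :=
    { carrier := {T | ∃ a, Sm (X ∩ U) a ∧ ∀ φ, Cs X U φ → T φ = J n X o (a * φ)}
      zero_mem' := ⟨0, Sm.zero, fun φ _ => by rw [zero_mul, J_zero']; rfl⟩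
      add_mem' := by
        rintro S T ⟨a, h1, h2⟩ ⟨b, h3, h4⟩
        refine ⟨a + b, h1.add h3, fun φ hφ => ?_⟩
        rw [add_mul, J_add' hX ho (hφ.mul_left h1).sm (hφ.mul_left h3).sm, Pi.add_apply, h2 φ hφ,
          h4 φ hφ]
      neg_mem' := by
        rintro S ⟨a, h1, h2⟩
        refine ⟨-a, h1.neg, fun φ hφ => ?_⟩
        rw [neg_mul, J_neg', Pi.neg_apply, h2 φ hφ] }
  D T φ := T (d φ)
  mu χ T φ := T (fm χ φ)
  sm_mono hU T hT := ⟨fun φ ψ h1 h2 => hT.add φ ψ (h1.mono hU) (h2.mono hU),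
    fun r φ h => hT.smul r φ (h.mono hU),
    fun φ ψ h1 h2 h => hT.eqv φ ψ (h1.mono hU) (h2.mono hU) h⟩
  nu_mono hU := by
    rintro T ⟨a, h1, h2⟩
    exact ⟨a, h1.mono (inter_subset_inter_right _ hU), fun φ hφ => h2 φ (hφ.mono hU)⟩
  D_sm _ hT :=
    ⟨fun φ ψ h1 h2 => (hT.eqv _ _ (h1.add h2).d (h1.d.add h2.d) (d_add_eqv h1.sm h2.sm)).trans
        (hT.add _ _ h1.d h2.d),
      fun r φ h => (hT.eqv _ _ (h.smul r).d (h.d.smul r) (d_smul_eqv r h.sm)).trans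
        (hT.smul r _ h.d),
      fun φ ψ h1 h2 h => hT.eqv _ _ h1.d h2.d (h.d hX.sub h1.sm h2.sm)⟩
  D_nu := by
    rintro U T - - ⟨a, h1, h2⟩
    exact ⟨_, h1.d.inv, fun φ hφ => (h2 _ hφ.d).trans (J_parts hX ho h1 hφ)⟩
  D_sub _ _ _ := ⟨0, Sm.zero, fun φ _ => by
    rw [zero_mul, J_zero']
    exact sub_self _⟩
  DD := fun {U T} _ hT => ⟨0, Sm.zero, fun φ hφ => by
    rw [zero_mul, J_zero']
    exact Lin.resZero (T := T) hT hφ.d.d (d_d' hφ.sm)⟩
  mu_sm _ _ hχ hoff hT :=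
    ⟨fun φ ψ h1 h2 => by
        simp only [fm_add]
        exact hT.add _ _ (h1.fm hχ hoff) (h2.fm hχ hoff),
      fun r φ h => by
        simp only [fm_smul]
        exact hT.smul _ _ (h.fm hχ hoff),
      fun φ ψ h1 h2 h => hT.eqv _ _ (h1.fm hχ hoff) (h2.fm hχ hoff) (eqv_fm _ h)⟩
  mu_nu := by
    rintro U U' χ T - - hχ hoff - ⟨a, h1, h2⟩
    exact ⟨fm χ a, sm_fm_off hχ hoff h1, fun φ hφ => by
      rw [fm_mul]; exact h2 _ (hφ.fm hχ hoff)⟩
  mu_sub _ _ _ := rfl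
  mu_one := fun {U χ T} _ hχ hT => ⟨0, Sm.zero, fun φ hφ => by
    rw [zero_mul, J_zero']
    have := hT.add _ _ (hφ.fm hχ (Fine.off_self _ subset_rfl))
      (hφ.fm (contDiff_const.sub hχ) (Fine.off_self (fun x => 1 - χ x) subset_rfl))
    rw [fm_one] at this
    exact sub_eq_zero.2 this⟩
  nu_empty T hT := ⟨0, Sm.zero, fun φ hφ => by
    rw [zero_mul, J_zero']
    exact Lin.resZero (T := T) hT hφ
      (ResZero.of_zero fun x hx => (hφ.off x hx id).self_of_nhds)⟩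

theorem resZero_inv (h : ResZero X fun x => F.inv (a x)) : ResZero X a := fun x hx => by
  have := congrArg F.inv (h x hx)
  rwa [← pb_inv, F.inv_inv, map_zero] at this

theorem cur_base (hX : Clo n X) (ho : Ori n X o) : (cur hX ho).Base n X := by
  rintro f W O ℓ h hW hne T hT ⟨c, sc, hc⟩
  replace hT : Lin X O T := hT
  replace hc : ∀ φ, Cs X O φ → T (d φ) = J n X o (c * φ) := hc
  have cc : Cl (X ∩ O) c := resZero_inv (resZero_of_test hX ho h.oO sc.d.inv fun φ hφ => by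
    rw [← J_parts hX ho sc hφ, ← hc _ hφ.d]
    exact hT.resZero hφ.d.d (d_d' hφ.sm))
  obtain ⟨κ, γ, sγ, eγ⟩ := coh_const h hW hne sc cc
  obtain ⟨u₀, hu₀⟩ := hne
  obtain ⟨w, w1, w2, w3, -, -, w4⟩ := exists_bump_form hX ho (h.mem hu₀).1 h.oO (h.mem hu₀).2
  have c1 : Cs X O w := ⟨fun x _ => w1 x, fun x _ hx =>
    notMem_tsupport_iff_eventuallyEq.1 fun h' => hx (w3 h')⟩
  have c2 : Cl X w := resZero_d_of_isDeg hX fun x _ => Eventually.of_forall w2
  set a₀ : E → Ext E := -fun x => F.inv (γ x) with ha₀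
  have s0 : Sm (X ∩ O) a₀ := sγ.inv.neg
  have p0 : ∀ φ, Cs X O φ → J n X o (a₀ * d φ) = J n X o (d γ * φ) := fun φ hφ => by
    rw [J_parts hX ho s0 hφ]
    refine J_eqv hX (eqv_mul_cs h.oO (Eqv.of_eq fun x hx => ?_) hφ)
    rw [ha₀, d_neg', Pi.neg_apply, CW.d_inv (sγ.diff hx), neg_neg, F.inv_inv]
  have sk : ∀ r : ℝ, Sm (X ∩ O) fun _ => algebraMap ℝ (Ext E) r := fun _ _ _ => contDiffAt_const
  have jk : ∀ (r : ℝ) φ, J n X o ((fun _ => algebraMap ℝ (Ext E) r) * φ) = r * J n X o φ := by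
    intro r φ
    rw [← J_smul']
    exact J_congr' hX fun x _ => (Algebra.smul_def r (φ x)).symm
  have p1 : ∀ φ, Cs X O φ → T (d φ) - J n X o (a₀ * d φ) = κ * J n X o φ := fun φ hφ => by
    rw [hc φ hφ, p0 φ hφ, ← J_eqv hX (eqv_mul_cs h.oO eγ hφ), sub_mul,
      J_sub' hX ho (hφ.mul_left sc).sm (hφ.mul_left (sk κ)).sm, jk, sub_sub_cancel]
  have k0 : κ = 0 := by
    have := p1 w c1
    rw [hT.resZero c1.d c2, (lin_J hX ho s0).resZero c1.d c2, sub_zero, eq_comm,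
      mul_eq_zero] at this
    exact this.resolve_right w4.ne'
  set κ' : ℝ := (T w - J n X o (a₀ * w)) / J n X o w with hκ'
  have s1 : Sm (X ∩ O) (a₀ + fun _ => algebraMap ℝ (Ext E) κ') := s0.add (sk κ')
  have j1 : ∀ φ, Cs X O φ → J n X o ((a₀ + fun _ => algebraMap ℝ (Ext E) κ') * φ) =
      J n X o (a₀ * φ) + κ' * J n X o φ := fun φ hφ => by
    rw [add_mul, J_add' hX ho (hφ.mul_left s0).sm (hφ.mul_left (sk κ')).sm, jk]
  have L : Lin X O (T - fun φ => J n X o ((a₀ + fun _ => algebraMap ℝ (Ext E) κ') * φ)) :=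
    ((cur hX ho).Sm O).sub_mem hT (lin_J hX ho s1)
  obtain ⟨S, hS, hS'⟩ := L.exists_prim fun φ hφ cφ => by
    have q1 : Cs X O (φ - (J n X o φ / J n X o w) • w) := hφ.sub (c1.smul _)
    have q2 : Cl X (φ - (J n X o φ / J n X o w) • w) :=
      Cl.sub hφ.sm (c1.sm.smul _) cφ (Cl.smul _ c1.sm c2)
    obtain ⟨β, b1, b2⟩ := cpt_poincare hX ho h hW ⟨u₀, hu₀⟩ q1 q2 (by
      rw [J_sub' hX ho hφ.sm (c1.sm.smul _), J_smul', div_mul_cancel₀ _ w4.ne', sub_self])
    have e1 := L.eqv _ _ q1 b1.d b2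
    have e2 := L.add _ _ q1 (c1.smul (J n X o φ / J n X o w))
    rw [sub_add_cancel, e1, L.smul _ _ c1] at e2
    rw [e2]
    have e3 := p1 β b1
    simp only [Pi.sub_apply]
    rw [j1 _ b1.d, j1 _ c1, J_d' hX ho b1.sm, hκ', div_mul_cancel₀ _ w4.ne']
    rw [k0, zero_mul] at e3
    linear_combination e3
  refine ⟨S, hS, _, s1, fun φ hφ => ?_⟩
  have := hS' φ hφ
  simp only [Pi.sub_apply] at this ⊢
  change T φ - S (d φ) = _
  rw [this, sub_sub_cancel]

/-- **Poincare duality, relative form** -/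
theorem pd_loc (hX : Clo n X) (ho : Ori n X o) {K : Set E} (hK : IsCompact K) (hKX : K ⊆ X)
    (hU : IsOpen U) (hKU : K ⊆ U) (sa : Sm (X ∩ U) a)
    (h : ∀ φ, Cs X U φ → Cl X φ → J n X o (a * φ) = 0) :
    ∃ U', IsOpen U' ∧ K ⊆ U' ∧ U' ⊆ U ∧ Coh (X ∩ U') a 0 := by
  obtain ⟨T, hT, hT'⟩ := (lin_J hX ho sa).exists_prim h
  obtain ⟨U', o', k', u', S, hS, a', sa', h'⟩ := Fine.ex_compact hX.sub (cur_base hX ho) hK hKX U
    hU hKU T hT ⟨a, sa, hT'⟩
  replace hS : Lin X U' S := hS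
  refine ⟨U', o', k', u', -fun x => F.inv (a' x), sa'.inv.neg, ?_⟩
  rw [sub_zero]
  refine eqv_of_test hX ho o' (sa.mono (inter_subset_inter_right _ u')) sa'.inv.neg.d
    fun φ hφ => ?_
  have e1 : T (d φ) - S (d (d φ)) = J n X o (a' * d φ) := h' _ hφ.d
  rw [hS.resZero hφ.d.d (d_d' hφ.sm), sub_zero, hT' φ (hφ.mono u'), J_parts hX ho sa' hφ] at e1
  rw [e1]
  refine J_eqv hX (eqv_mul_cs o' (Eqv.of_eq fun x hx => ?_) hφ)
  rw [d_neg', Pi.neg_apply, CW.d_inv (sa'.diff hx), neg_neg]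

/-- **Poincare duality, injectivity** -/
theorem pd_inj (hX : Clo n X) (ho : Ori n X o) (sa : Sm X a)
    (h : ∀ φ, Sm X φ → Cl X φ → J n X o (a * φ) = 0) : Coh X a 0 := by
  obtain ⟨U', -, k', -, h'⟩ := pd_loc hX ho hX.compact subset_rfl isOpen_univ (subset_univ _)
    (sa.mono inter_subset_left) fun φ hφ => h φ hφ.sm
  rwa [inter_eq_left.2 k'] at h'

/-- **Poincare duality, surjectivity** -/
theorem pd_surj (hX : Clo n X) (ho : Ori n X o) {T : (E → Ext E) → ℝ} (hT : Lin X univ T)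
    (h : ∀ φ, Sm X φ → T (d φ) = 0) :
    ∃ a, Sm X a ∧ Cl X a ∧ ∀ φ, Sm X φ → Cl X φ → T φ = J n X o (a * φ) := by
  obtain ⟨U', o', k', -, S, hS, a, sa, h'⟩ := Fine.ex_compact hX.sub (cur_base hX ho) hX.compact
    subset_rfl univ isOpen_univ (subset_univ _) T hT
    ⟨0, Sm.zero, fun φ hφ => by rw [zero_mul, J_zero']; exact h φ hφ.sm⟩
  replace hS : Lin X U' S := hS
  replace h' : ∀ φ, Cs X U' φ → T φ - S (d φ) = J n X o (a * φ) := h'
  have e := inter_eq_left.2 k'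
  have ca : Cl (X ∩ U') a := resZero_inv (resZero_of_test hX ho o' sa.d.inv fun φ hφ => by
    rw [← J_parts hX ho sa hφ, ← h' _ hφ.d, h φ hφ.sm, hS.resZero hφ.d.d (d_d' hφ.sm), sub_zero])
  rw [e] at sa ca
  refine ⟨a, sa, ca, fun φ sφ cφ => ?_⟩
  rw [← h' φ (Cs.of_subset sφ k'), hS.resZero (Cs.of_subset sφ k').d cφ, sub_zero]

end Crest.Agent.X262.PD
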