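import Crest.Agent.X262.PD.Test
import Crest.Agent.R208.THD1

/-!
# Row 262, PD (helper97): the Poincare lemmas on convex coordinate patches
-/

set_option autoImplicit false
set_option linter.unusedSectionVars false

open MeasureTheory Set Filter Topology Module
open scoped ContDiff
open Crest.Agent.R208 Crest.Agent.R208.F Crest.Agent.R208.FI Crest.Agent.R208.T
open Crest.Agent.R208.CW (SMap)

noncomputable section

namespace Crest.Agent.X262.PD

section univ
variable {E : Type*} [NormedAddCommGroup E] [NormedSpace ℝ E] [FiniteDimensional ℝ E]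

theorem tan_univ (x : E) : Tan (univ : Set E) x = ⊤ := by
  refine eq_top_iff.2 fun v _ => ?_
  have h := mem_Tan_of_curve (X := (univ : Set E)) (γ := fun t : ℝ => x + t • v) (v := v) (t := 0)
    (by simpa using ((hasDerivAt_id (0 : ℝ)).smul_const v).const_add x)
    (Eventually.of_forall fun _ => mem_univ _)
  simpa using h

theorem eq_of_eqv_univ {a b : E → Ext E} (h : Eqv (univ : Set E) a b) : a = b := by
  funext x
  have h1 := eqv_iff.1 h x (mem_univ x)
  obtain ⟨π, hπ⟩ := (Tan (univ : Set E) x).subtype.exists_rightInverse_of_surjective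
    (by rw [Submodule.range_subtype, tan_univ])
  have h2 := congrArg (pb π) h1
  rwa [pb_comp, pb_comp, hπ, pb_id, pb_id] at h2

theorem inv_of_even {k : ℕ} (hk : Even k) {c : Ext E} (h : IsDeg k c) : F.inv c = c := by
  refine ext_evA fun q => ?_
  rw [evA_inv]
  by_cases hq : q = k
  · rw [hq, hk.neg_one_pow, one_smul]
  · rw [h q hq, smul_zero]

theorem inv_of_odd {k : ℕ} (hk : Odd k) {c : Ext E} (h : IsDeg k c) : F.inv c = -c := by
  refine ext_evA fun q => ?_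
  rw [evA_inv, map_neg]
  by_cases hq : q = k
  · rw [hq, hk.neg_one_pow]
    ext v
    simp
  · rw [h q hq, smul_zero, neg_zero]

theorem Hop_eq_zero' {G' : Type*} [NormedAddCommGroup G'] [NormedSpace ℝ G']
    [FiniteDimensional ℝ G'] {Fh : E × ℝ → G'} {a : G' → Ext G'} {z : E}
    (h : ∀ t ∈ Icc (0 : ℝ) 1, a (Fh (z, t)) = 0) : Hop Fh a z = 0 := by
  have h1 : Hop Fh a z = ∫ t in (0 : ℝ)..1, hopL (ContinuousLinearMap.inl ℝ E ℝ) ((0, 1) : E × ℝ)
    (F.pull Fh a (jv (ContinuousLinearMap.inl ℝ E ℝ) ((0, 1) : E × ℝ) (z, t))) := rfl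
  rw [h1]
  refine (intervalIntegral.integral_congr (g := fun _ => 0) fun t ht => ?_).trans
    intervalIntegral.integral_zero
  rw [uIcc_of_le zero_le_one] at ht
  simp only
  rw [jv_inl, pull_of_zero (h t ht), map_zero]

end univ

section flat
variable {H : Type} [NormedAddCommGroup H] [InnerProductSpace ℝ H] [FiniteDimensional ℝ H]
  [MeasurableSpace H] [BorelSpace H] (μ : Measure H) [μ.IsAddHaarMeasure]

/-- the top coefficient -/
def lam (c : Ext H) : ℝ := evA H (finrank ℝ H) c (Module.finBasis ℝ H)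

theorem cH_snd {H' : Type} [NormedAddCommGroup H'] [NormedSpace ℝ H'] [FiniteDimensional ℝ H']
    (A : H × H →L[ℝ] H') (hA : ∀ x, A (x, 0) = 0) (c : Ext H') :
    ∃ r : ℝ, cH (ContinuousLinearMap.inl ℝ H H) (ContinuousLinearMap.inr ℝ H H)
      (pb (A : H × H →ₗ[ℝ] H') c) = algebraMap ℝ (Ext H) r := by
  rw [cH_apply, iis_pb, pb_comp]
  have : (A : H × H →ₗ[ℝ] H') ∘ₗ ((ContinuousLinearMap.inl ℝ H H : H →L[ℝ] H × H) : H →ₗ[ℝ] H × H)
      = 0 := LinearMap.ext hA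
  rw [this, pb_zero_eq]
  exact ⟨_, rfl⟩

theorem pI_snd (A : H × H →L[ℝ] H) (hA : ∀ x, A (x, 0) = 0) (c : H → Ext H) :
    ∃ r : ℝ, ∀ x, pI μ (pull A c) x = algebraMap ℝ (Ext H) r := by
  choose r hr using fun h => cH_snd A hA (c (A (0, h)))
  refine ⟨∫ h, r h ∂μ, fun x => ?_⟩
  rw [pI_eq, Algebra.algebraMap_eq_smul_one, ← integral_smul_const]
  congr 1
  funext h
  have e : A (x, h) = A (0, h) := by
    rw [← add_zero x, ← zero_add h, ← Prod.mk_add_mk, map_add, hA, zero_add, zero_add]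
  rw [pull, A.fderiv, e, hr, Algebra.algebraMap_eq_smul_one]

/-- the normalising factor -/
def nn (t : ℝ) : ℝ := (1 - t) ^ 2 + t ^ 2

theorem nn_pos (t : ℝ) : 0 < nn t := by
  unfold nn
  nlinarith [sq_nonneg (2 * t - 1)]

/-- the homotopy from the identity to a rotation -/
def Ph (p : (H × H) × ℝ) : H × H :=
  ((nn p.2)⁻¹ • ((1 - p.2) • p.1.1 - p.2 • p.1.2), (nn p.2)⁻¹ • (p.2 • p.1.1 + (1 - p.2) • p.1.2))

theorem contDiff_Ph : ContDiff ℝ ∞ (Ph (H := H)) := by
  have h1 : ContDiff ℝ ∞ fun p : (H × H) × ℝ => (nn p.2)⁻¹ :=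
    ContDiff.inv (by unfold nn; fun_prop) fun p => (nn_pos _).ne'
  unfold Ph
  fun_prop

theorem Ph_fst (z : H × H) (t : ℝ) : z.1 = (1 - t) • (Ph (z, t)).1 + t • (Ph (z, t)).2 := by
  have h := (nn_pos t).ne'
  have : z.1 = (nn t)⁻¹ • (nn t • z.1) := (inv_smul_smul₀ h _).symm
  rw [this]
  simp only [Ph, nn]
  module

theorem Ph_snd (z : H × H) (t : ℝ) : z.2 = (1 - t) • (Ph (z, t)).2 - t • (Ph (z, t)).1 := by
  have h := (nn_pos t).ne'
  have : z.2 = (nn t)⁻¹ • (nn t • z.2) := (inv_smul_smul₀ h _).symm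
  rw [this]
  simp only [Ph, nn]
  module

set_option maxHeartbeats 1000000 in
/-- **the Poincare lemma with compact supports** in a convex set -/
theorem cpt_flat {W A B : Set H} (hW : Convex ℝ W) (hA : IsCompact A) (hB : IsCompact B)
    (hAW : A ⊆ W) (hBW : B ⊆ W) {b : H → Ext H} (sb : Sm univ b) (cb : Cl univ b)
    (b0 : ∀ x, x ∉ A → b x = 0) {τ : H → Ext H} (sτ : Sm univ τ) (dτ : Hom (finrank ℝ H) τ)
    (τ0 : ∀ x, x ∉ B → τ x = 0) :
    ∃ (L : H → Ext H) (C : Set H) (κ : ℝ), IsCompact C ∧ C ⊆ W ∧ Sm univ L ∧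
      (∀ x, x ∉ C → L x = 0) ∧ (∫ h, lam (τ h) ∂μ) • b - κ • τ = d L := by
  have cτ : Cl univ τ := fun x _ => by
    rw [(dτ.d x).eq_zero (Nat.lt_succ_self _), map_zero]
  obtain ⟨R₁, hR₁⟩ := hA.isBounded.exists_norm_le
  obtain ⟨R₂, hR₂⟩ := hB.isBounded.exists_norm_le
  set R := |R₁| + |R₂| with hR
  have uu : (univ : Set H) ×ˢ (univ : Set H) = univ := univ_prod_univ
  have m1 : SMap ((univ : Set H) ×ˢ (univ : Set H)) univ (Prod.fst : H × H → H) :=
    ⟨fun _ _ => contDiffAt_fst, fun _ _ => mem_univ _⟩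
  have m2 : SMap ((univ : Set H) ×ˢ (univ : Set H)) univ (Prod.snd : H × H → H) :=
    ⟨fun _ _ => contDiffAt_snd, fun _ _ => mem_univ _⟩
  let A' : H × H →L[ℝ] H := -ContinuousLinearMap.snd ℝ H H
  have m3 : SMap ((univ : Set H) ×ˢ (univ : Set H)) univ A' :=
    ⟨fun _ _ => A'.contDiff.contDiffAt, fun _ _ => mem_univ _⟩
  set Th : H × H → Ext (H × H) := pull Prod.snd τ * pull Prod.fst b with hTh
  have sTh : Sm (univ ×ˢ univ) Th := (sτ.pull m2).mul (sb.pull m1)
  have cTh : Cl (univ ×ˢ univ) Th :=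
    Cl.mul (sτ.pull m2) (sb.pull m1) (cτ.pull m2 sτ) (cb.pull m1 sb)
  have Th0 : ∀ z : H × H, Th z ≠ 0 → z.1 ∈ A ∧ z.2 ∈ B := fun z hz => by
    constructor
    · by_contra h
      exact hz (by rw [hTh, Pi.mul_apply, pull_of_zero (f := Prod.fst) (b0 _ h), mul_zero])
    · by_contra h
      exact hz (by rw [hTh, Pi.mul_apply, pull_of_zero (f := Prod.snd) (τ0 _ h), zero_mul])
  set C : Set H := (fun p : (H × H) × ℝ => (1 - p.2) • p.1.1 + p.2 • p.1.2) ''
    ((A ×ˢ B) ×ˢ Icc 0 1) with hC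
  have cC : IsCompact C := ((hA.prod hB).prod isCompact_Icc).image (by fun_prop)
  have hCW : C ⊆ W := by
    rintro _ ⟨p, ⟨⟨h1, h2⟩, h3, h4⟩, rfl⟩
    exact hW (hAW h1) (hBW h2) (sub_nonneg.2 h4) h3 (sub_add_cancel _ _)
  have key : ∀ z : H × H, ∀ t ∈ Icc (0 : ℝ) 1, (z.1 ∉ C ∨ R < ‖z.2‖) → Th (Ph (z, t)) = 0 := by
    intro z t ht h
    by_contra h0
    obtain ⟨h1, h2⟩ := Th0 _ h0
    rcases h with h | h
    · exact h ⟨(Ph (z, t), t), ⟨⟨h1, h2⟩, ht⟩, (Ph_fst z t).symm⟩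
    · rw [Ph_snd z t] at h
      refine h.not_ge ((norm_sub_le _ _).trans ?_)
      rw [norm_smul, norm_smul, Real.norm_of_nonneg (sub_nonneg.2 ht.2), Real.norm_of_nonneg ht.1]
      have a1 := (hR₁ _ h1).trans (le_abs_self _)
      have a2 := (hR₂ _ h2).trans (le_abs_self _)
      have a3 := mul_le_of_le_one_left (norm_nonneg (Ph (z, t)).1) ht.2
      have a4 := mul_le_of_le_one_left (norm_nonneg (Ph (z, t)).2) (sub_le_self 1 ht.1)
      linarith
  set K := Hop (Ph (H := H)) Th with hK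
  have mu : ∀ z : H × H, z ∈ (univ : Set H) ×ˢ (univ : Set H) := fun z => ⟨mem_univ _, mem_univ _⟩
  have sK : Sm (univ ×ˢ univ) K := fun z _ =>
    contDiffAt_Hop (fun t _ => contDiff_Ph.contDiffAt) (fun t _ => sTh _ (mu _))
  have k1 : Eqv (univ ×ˢ univ) (pull (fun z => Ph (z, 1)) Th - pull (fun z => Ph (z, 0)) Th)
      (d K) :=
    resZero_Hop (fun z _ t _ => contDiff_Ph.contDiffAt.of_le CW.two_le) (fun z _ t _ => mu _)
      (fun z hz => (sTh z hz).of_le (by exact_mod_cast le_top)) cTh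
  have k2 : pull (fun z => Ph (z, 0)) Th = Th := by
    have : (fun z : H × H => Ph (z, 0)) = fun z => z := funext fun z => by simp [Ph, nn]
    rw [this]
    exact funext fun z => pull_id Th z
  -- the rotated form
  obtain ⟨b', sb', b0', hb'⟩ : ∃ b' : H → Ext H, Sm univ b' ∧ (∀ x, x ∉ A → b' x = 0) ∧
      ∀ z : H × H, pull Prod.fst τ z * pull A' b z = pull A' b' z * pull Prod.fst τ z := by
    rcases Nat.even_or_odd (finrank ℝ H) with h | h
    · exact ⟨b, sb, b0, fun z => CW.even_comm (inv_of_even h (dτ.pull z)) _⟩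
    · refine ⟨fun x => F.inv (b x), sb.inv, fun x hx => ?_, fun z => ?_⟩
      · simp only [b0 x hx, map_zero]
      · rw [CW.odd_comm (inv_of_odd h (dτ.pull z))]
        simp only [pull, pb_inv]
  have k3 : pull (fun z => Ph (z, 1)) Th = pull A' b' * pull Prod.fst τ := by
    funext z
    have hd : DifferentiableAt ℝ (fun z : H × H => Ph (z, (1 : ℝ))) z :=
      ((contDiff_Ph.comp (contDiff_id.prodMk contDiff_const)).differentiable (by simp)) z
    rw [hTh, pull_mul', Pi.mul_apply, Pi.mul_apply, ← hb', pull_comp hd differentiableAt_snd,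
      pull_comp hd differentiableAt_fst]
    congr 2
    · funext y; simp [Ph, nn]
    · funext y; simp [Ph, nn, A']
  have vK : Vt R K := fun z hz => Hop_eq_zero' fun t ht => key z t ht (Or.inr hz)
  have v1 : Vt R (pull A' b') := fun z hz => pull_of_zero (b0' _ fun h => by
    have := (hR₁ _ h).trans (le_abs_self _)
    have e : ‖A' z‖ = ‖z.2‖ := norm_neg _
    have := abs_nonneg R₂
    linarith)
  have v2 : Vt R (pull (Prod.snd : H × H → H) τ) := fun z hz => pull_of_zero (τ0 _ fun h => by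
    have := (hR₂ _ h).trans (le_abs_self _)
    have := abs_nonneg R₁
    linarith)
  rw [k2, k3] at k1
  have s1 := sb'.pull m3
  have s2 := sτ.pull m2
  have k4 := eqv_pI μ ((v1.mul_right _).sub (v2.mul_right _)) ((s1.mul (sτ.pull m1)).sub sTh)
    vK.d sK.d k1
  obtain ⟨κ, hκ⟩ := pI_snd μ A' (fun x => by simp [A']) b'
  have hc : ∀ x, pI μ (pull (Prod.snd : H × H → H) τ) x =
      algebraMap ℝ (Ext H) (∫ h, lam (τ h) ∂μ) := by
    intro x
    rw [pI_eq, Algebra.algebraMap_eq_smul_one, ← integral_smul_const]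
    congr 1
    funext h
    rw [cH_of_isDeg (dτ.pull _), pull, fderiv_snd, pb_comp, Algebra.algebraMap_eq_smul_one]
    congr 1
    have : ((ContinuousLinearMap.snd ℝ H H : H × H →L[ℝ] H) : H × H →ₗ[ℝ] H) ∘ₗ
      ((ContinuousLinearMap.inr ℝ H H : H →L[ℝ] H × H) : H →ₗ[ℝ] H × H) = LinearMap.id := rfl
    rw [this, pb_id]
    rfl
  have sL := sm_pI μ vK sK
  refine ⟨(-(-1 : ℝ) ^ finrank ℝ H) • pI μ K, C, κ, cC, hCW, sL.smul _, fun x hx => ?_, ?_⟩
  · rw [Pi.smul_apply, pI_eq]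
    have h2 : ∀ h : H, K (x, h) = 0 := fun h => Hop_eq_zero' fun t ht => key _ t ht (Or.inl hx)
    simp only [h2, map_zero, integral_zero, smul_zero]
  · funext x
    have h1 := congrFun (eq_of_eqv_univ k4) x
    rw [pI_sub μ (v1.mul_right _) (s1.mul (sτ.pull m1)) (v2.mul_right _) sTh (mem_univ x),
      pI_mul_fst μ v1 s1 (mem_univ x), pI_mul_fst μ v2 s2 (mem_univ x), hκ, hc,
      d_pI μ vK sK (mem_univ x), ← Algebra.smul_def, ← Algebra.smul_def] at h1
    have h2 := d_const_smul (-(-1 : ℝ) ^ finrank ℝ H) (sL.diff (mem_univ x))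
    refine Eq.trans ?_ h2.symm
    rw [neg_smul, ← h1, neg_sub]
    rfl

end flat

variable {E : Type*} [NormedAddCommGroup E] [NormedSpace ℝ E] [FiniteDimensional ℝ E]
  {n : ℕ} {X U O : Set E} {o a b φ ψ : E → Ext E} {f : Eu n → E} {W : Set (Eu n)} {ℓ : E → Eu n}

theorem eqv_of_cs (hU : IsOpen U) (h1 : Cs X U φ) (h2 : Cs X U ψ) (h : Eqv (X ∩ U) φ ψ) :
    Eqv X φ ψ := by
  refine eqv_iff.2 fun x hx => ?_
  by_cases hU' : x ∈ U
  · exact eqv_of_open hU h hx hU'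
  · rw [(h1.off x hx hU').self_of_nhds, (h2.off x hx hU').self_of_nhds]

theorem smap_ell (h : Loc X f W O ℓ) : SMap (X ∩ O) univ ℓ :=
  ⟨fun _ hx => h.lC' hx.2, fun _ _ => mem_univ _⟩

/-- transport of compactly supported forms from the chart to `X` -/
theorem exists_ext (h : Loc X f W O ℓ) {C : Set (Eu n)} (hC : IsCompact C) (hCW : C ⊆ W)
    {L : Eu n → Ext (Eu n)} (sL : Sm univ L) (L0 : ∀ u, u ∉ C → L u = 0) :
    ∃ β, Cs X O β ∧ Eqv (X ∩ O) β (pull ℓ L) := by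
  have c1 : IsCompact (f '' C) := hC.image_of_continuousOn (h.fC.continuousOn.mono hCW)
  obtain ⟨χ, hχ, z0, z1, -⟩ := GP.exists_cut h.oO.isClosed_compl c1.isClosed
    (disjoint_left.2 fun x hx => by rintro ⟨u, hu, rfl⟩; exact hx (h.mem (hCW hu)).2)
  have ho : Off χ univ O := fun x _ hx => z0 x hx
  refine ⟨fm χ (pull ℓ L), ⟨?_, fun x _ hx => (z0 x hx).mono fun y hy => ?_⟩,
    Eqv.of_eq fun x hx => ?_⟩
  · have := sm_fm_off hχ ho (sL.pull (smap_ell h))
    rwa [inter_univ] at this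
  · rw [fm, hy, zero_smul]
  · by_cases hx' : ℓ x ∈ C
    · rw [fm, (z1 x ⟨ℓ x, hx', h.right_inv hx.1 hx.2⟩).self_of_nhds, one_smul]
    · rw [fm, pull_of_zero (L0 _ hx'), smul_zero]

/-- transport of test forms from `X` to the chart -/
theorem exists_flat (hX : Clo n X) (h : Loc X f W O ℓ) (hφ : Cs X O φ) (cφ : Cl X φ) :
    ∃ (b : Eu n → Ext (Eu n)) (A : Set (Eu n)), IsCompact A ∧ A ⊆ W ∧ Sm univ b ∧ Cl univ b ∧
      (∀ u, u ∉ A → b u = 0) ∧ Eqv (X ∩ O) (pull ℓ b) φ := by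
  classical
  set K : Set E := X ∩ {x | ∀ᶠ y in 𝓝 x, φ y = 0}ᶜ with hK
  have cK : IsCompact K :=
    hX.compact.inter_right isOpen_setOfPred_eventually_nhds.isClosed_compl
  have KO : K ⊆ O := fun x hx => by
    by_contra h'
    exact hx.2 (hφ.off x hx.1 h')
  have cA : IsCompact (ℓ '' K) := cK.image_of_continuousOn (h.lC.continuousOn.mono KO)
  have AW : ℓ '' K ⊆ W := by rintro _ ⟨x, hx, rfl⟩; exact h.maps x (KO hx)
  set b : Eu n → Ext (Eu n) := fun u => if u ∈ W then pull f φ u else 0 with hb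
  have b0 : ∀ u, u ∉ ℓ '' K → b u = 0 := fun u hu => by
    by_cases hW : u ∈ W
    · rw [hb]
      simp only [if_pos hW]
      refine pull_of_zero ?_
      by_contra h0
      exact hu ⟨f u, ⟨(h.mem hW).1, fun h1 => h0 (Filter.Eventually.self_of_nhds (p := fun y => φ y = 0) h1)⟩, h.inv u hW⟩
    · exact if_neg hW
  have b1 : ∀ u ∈ W, b =ᶠ[𝓝 u] pull f φ := fun u hu =>
    Filter.Eventually.mono (h.oW.mem_nhds hu) fun v hv => if_pos hv
  have b2 : ∀ u, u ∉ W → ∀ᶠ v in 𝓝 u, b v = 0 := fun u hu =>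
    Filter.Eventually.mono (cA.isClosed.isOpen_compl.mem_nhds fun h' => hu (AW h')) b0
  refine ⟨b, _, cA, AW, fun u _ => ?_, fun u _ => ?_, b0, ?_⟩
  · by_cases hW : u ∈ W
    · exact (contDiffAt_pull (h.fC' hW) (by simp) (hφ.sm _ (h.mem hW).1)).congr_of_eventuallyEq
        (b1 u hW)
    · exact contDiffAt_const.congr_of_eventuallyEq (b2 u hW)
  · by_cases hW : u ∈ W
    · rw [d_congr (b1 u hW), d_pull ((h.fC' hW).of_le CW.two_le) (hφ.sm.diff (h.mem hW).1), pull,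
        (res_chart h.chart hW _).1 (cφ _ (h.mem hW).1), map_zero]
    · rw [(d_ev_zero (b2 u hW)).self_of_nhds, map_zero]
  · have m1 : SMap (X ∩ O) W ℓ := ⟨fun _ hx => h.lC' hx.2, fun x hx => h.maps x hx.2⟩
    have m2 : SMap W X f := ⟨fun _ hu => h.fC' hu, fun u hu => (h.mem hu).1⟩
    have m3 : SMap (X ∩ O) X (fun x => x) := (SMap.id X).mono inter_subset_left
    have e1 := eqv_pull_pull m1 m2 m3 (fun x hx => h.right_inv hx.1 hx.2) φ
    refine (Eqv.of_eq fun x hx => ?_).trans (e1.trans (Eqv.of_eq fun x _ => pull_id φ x))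
    simp only [pull, hb, if_pos (h.maps x hx.2)]

/-- **closed test forms of integral zero on a convex patch are exact** -/
theorem cpt_poincare (hX : Clo n X) (ho : Ori n X o) (h : Loc X f W O ℓ) (hW : Convex ℝ W)
    (hne : W.Nonempty) (hφ : Cs X O φ) (cφ : Cl X φ) (h0 : J n X o φ = 0) :
    ∃ β, Cs X O β ∧ Eqv X φ (d β) := by
  obtain ⟨u₀, hu₀⟩ := hne
  obtain ⟨r, hr, hrW⟩ := Metric.nhds_basis_closedBall.mem_iff.1 (h.oW.mem_nhds hu₀)
  obtain ⟨g, g1, g2, g3, g4⟩ := exists_bump (Metric.closedBall_mem_nhds u₀ hr)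
  let v : Ext (Eu n) := ExteriorAlgebra.ιMulti ℝ _ fun i => (Module.finBasis ℝ (Eu n)).coord i
  have hv : lam v = 1 := by
    rw [lam, evA_iMulti, ← Matrix.det_one (n := Fin (finrank ℝ (Eu n)))]
    congr 1
    ext i j
    rw [Matrix.of_apply, Basis.coord_apply, Basis.repr_self, Finsupp.single_apply,
      Matrix.one_apply]
  set τ : Eu n → Ext (Eu n) := fm g fun _ => v with hτ
  have sτ : Sm univ τ := sm_fm g1 fun _ _ => contDiffAt_const
  have dτ : Hom (finrank ℝ (Eu n)) τ := fun x => (IsDeg.iMulti _).smul _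
  have τ0 : ∀ x, x ∉ Metric.closedBall u₀ r → τ x = 0 := fun x hx => by
    rw [hτ, fm, image_eq_zero_of_notMem_tsupport fun h' => hx (g2 h'), zero_smul]
  set c₀ : ℝ := ∫ u, lam (τ u) with hc₀
  have c0 : 0 < c₀ := by
    have : (fun u => lam (τ u)) = g := funext fun u => by
      rw [hτ, fm, lam, map_smul, AlternatingMap.smul_apply, ← lam, hv, smul_eq_mul, mul_one]
    rw [hc₀, this]
    exact g1.continuous.integral_pos_of_hasCompactSupport_nonneg_nonzero
      ((isCompact_closedBall u₀ r).of_isClosed_subset (isClosed_tsupport g) g2) g4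
      (x := u₀) (by rw [g3]; exact one_ne_zero)
  obtain ⟨om, com, eom⟩ := exists_ext h (isCompact_closedBall u₀ r) hrW sτ τ0
  have key : ∀ φ, Cs X O φ → Cl X φ → ∃ (κ : ℝ) (β : E → Ext E), Cs X O β ∧
      Eqv X (c₀ • φ - κ • om) (d β) := by
    intro φ hφ cφ
    obtain ⟨b, A, cA, AW, sb, cb, b0, eb⟩ := exists_flat hX h hφ cφ
    obtain ⟨L, C, κ, cC, hCW, sL, L0, eL⟩ := cpt_flat volume hW cA (isCompact_closedBall u₀ r) AW
      hrW sb cb b0 sτ dτ τ0
    obtain ⟨β, cβ, eβ⟩ := exists_ext h cC hCW sL L0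
    refine ⟨κ, β, cβ, eqv_of_cs h.oO ((hφ.smul _).sub (com.smul _)) cβ.d ?_⟩
    have e1 := eβ.d (hX.sub.inter_open h.oO) (cβ.sm.mono inter_subset_left) (sL.pull (smap_ell h))
    refine Eqv.symm (e1.trans ((d_pull_eqv (smap_ell h) sL).trans ?_))
    rw [← eL, pull_sub', pull_smul', pull_smul']
    exact (eb.smul _).sub (eom.symm.smul _)
  have kJ : ∀ {φ κ β}, Cs X O φ → Cs X O β → Eqv X (c₀ • φ - κ • om) (d β) →
      c₀ * J n X o φ = κ * J n X o om := fun {φ κ β} h1 h2 h3 => by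
    have := J_eqv (o := o) hX h3
    rwa [J_d' hX ho h2.sm, J_sub' hX ho (h1.sm.smul _) (com.sm.smul _), J_smul', J_smul',
      sub_eq_zero] at this
  obtain ⟨om₁, w1, w2, w3, -, -, w4⟩ := exists_bump_form hX ho (h.mem hu₀).1 h.oO (h.mem hu₀).2
  have c1 : Cs X O om₁ := ⟨fun x _ => w1 x, fun x _ hx =>
    notMem_tsupport_iff_eventuallyEq.1 fun h' => hx (w3 h')⟩
  obtain ⟨κ₁, β₁, q1, q2⟩ := key om₁ c1
    (resZero_d_of_isDeg hX fun x _ => Eventually.of_forall w2)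
  have j1 : J n X o om ≠ 0 := fun h' => by
    have := kJ c1 q1 q2
    rw [h', mul_zero] at this
    exact (mul_pos c0 w4).ne' this
  obtain ⟨κ, β, p1, p2⟩ := key φ hφ cφ
  have j2 := kJ hφ p1 p2
  rw [h0, mul_zero, eq_comm, mul_eq_zero] at j2
  rw [j2.resolve_right j1, zero_smul, sub_zero] at p2
  refine ⟨c₀⁻¹ • β, p1.smul _, ?_⟩
  have := p2.smul c₀⁻¹
  rw [inv_smul_smul₀ c0.ne'] at this
  exact this.trans (d_smul_eqv _ p1.sm).symm

end Crest.Agent.X262.PD
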