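import Crest.Agent.X262.Hb64.Main
import Crest.Agent.X262.Hb.DiagD
import Crest.Agent.X262.Form88.Main

/-!
# Row 262, PD (helper97): the class of the diagonal at pairs of generic points

* `prod_same`, `pair_pmap` : field valued points of a product;
* `exists_lp` : a local ring with residue map which is a valuation ring is a place;
* `supp_dmn`  : the pull-back of the diagonal class along a dominant map is supported on divisors;
* `dl C Y`, `dlt` : `Hb.Dlt` for the theory `Hb64.th C`;  `exists_dual` : dual bases.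
-/

set_option autoImplicit false
set_option linter.unusedSectionVars false
set_option linter.style.haveILetI false

noncomputable section

namespace Crest.Agent.X262.PD.Dl

open Crest.Agent.X277 Crest.Agent.X277.Lef Crest.Agent.X277.AN.G1 Crest.Agent.X277.BD
open Crest.Agent.X262.Coh Crest.Agent.X262.Hb64 Crest.Agent.X262.Hb64.KP
open Crest.Agent.R274.Prod1_134 (isPF)

variable {X Y X' Y' A : SV} {K E L : Type} [Field K] [Algebra ℂ K] [Field E] [Algebra ℂ E]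
  [Field L] [Algebra ℂ L]

/-- a point of a product is determined by its projections -/
theorem prod_same {w w' : KP (X.prod Y) K} (h1 : (w.map (fst X Y)).Same (w'.map (fst X Y)))
    (h2 : (w.map (snd X Y)).Same (w'.map (snd X Y))) : w.Same w' := by
  obtain ⟨x, hx⟩ := w.pt
  obtain ⟨i, hi⟩ := exists_pat x
  obtain ⟨h3, h4⟩ := (Cns.mk_mem_pat (isPF ℂ X.F Y.F)).1 ((Cns.mk_fst_snd _ x).symm ▸ hi)
  have h5 := fun j => h1.at (x := (fst X Y).map x)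
    (fun _ hf => ⟨(fst X Y).mem_O hf, hx ((fst X Y).π_mem hf)⟩) (y_mem h3 j)
  have h6 := fun j => h2.at (x := (snd X Y).map x)
    (fun _ hf => ⟨(snd X Y).mem_O hf, hx ((snd X Y).π_mem hf)⟩) (y_mem h4 j)
  refine same_of_chart (i := i) (fun j => hx (y_mem hi j)) (fun j => ?_) fun j => ?_
  · rw [Cns.prod_y_div]
    exact mul_mem (h5 _).1.2 (h6 _).1.2
  · rw [Cns.prod_y_div]
    exact (w.p.π_mul (hx ((fst X Y).π_mem (y_mem h3 _))) (hx ((snd X Y).π_mem (y_mem h4 _)))).trans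
      ((congrArg₂ _ (h5 _).2 (h6 _).2).trans (w'.p.π_mul (h5 _).1.2 (h6 _).1.2).symm)

theorem same_tri {μ : Hom Y X} {ν : Hom A Y} {τ : Hom A X} (h : ∀ z, μ.map (ν.map z) = τ.map z)
    (w : KP A K) : ((w.map ν).map μ).Same (w.map τ) := by
  rw [← map_comp]
  exact same_of_map_eq (funext fun z => by rw [Mor.comp_map, h]) w

theorem pair_pmap (w : KP X K) (w' : KP Y K) (μ : Hom X X') (ν : Hom Y Y') :
    ((w.pair w').map (pmap μ ν)).Same ((w.map μ).pair (w'.map ν)) := by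
  refine prod_same ?_ ?_
  · refine (same_tri (τ := Mor.comp μ (fst X Y)) (fun z => ?_) _).trans ?_
    · rw [Form88.fst_pmap, Mor.comp_map]
    · rw [map_comp]
      exact ((pair_fst w w').map μ).trans (pair_fst _ _).symm
  · refine (same_tri (τ := Mor.comp ν (snd X Y)) (fun z => ?_) _).trans ?_
    · rw [Form88.snd_pmap, Mor.comp_map]
    · rw [map_comp]
      exact ((pair_snd w w').map ν).trans (pair_snd _ _).symm

/-- a local ring with residue map which is a valuation ring is a place -/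
theorem exists_lp (q : Plc L E) (h : ∀ f, f ∈ q.O ∨ f⁻¹ ∈ q.O) : ∃ p : Hb.LP L E, plc p = q := by
  let V : RZ ℂ L := ⟨{ q.O.toSubring with mem_or_inv_mem' := h }, q.O.algebraMap_mem⟩
  have h1 : ∀ x : V.1, q.π x = 0 ↔ V.v x < 1 := fun x => by
    rw [← not_iff_not, not_lt]
    refine ⟨fun h0 => ?_, fun h0 h2 => ?_⟩
    · have h2 := RZ.le_one_iff.2 (show (x : L)⁻¹ ∈ V.1 from q.inv_mem h0)
      rwa [map_inv₀, inv_le_one₀ (V.v.pos_iff.2 (Plc.ne_zero_of_ne h0))] at h2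
    · have h3 : (x : L) ≠ 0 := fun h3 => by simp [h3] at h0
      have h4 : (x : L)⁻¹ ∈ q.O := RZ.le_one_iff (V := V).1 (by
        rw [map_inv₀]; exact inv_le_one_of_one_le₀ h0)
      have h5 := q.π_mul x.2 h4
      rw [mul_inv_cancel₀ h3, h2, zero_mul, q.π_one] at h5
      exact one_ne_zero h5
  let p : Pl ℂ L ℂ E := ⟨V, q.hom.toRingHom, h1, fun c => ⟨c, q.π_alg c⟩⟩
  have h2 : ∀ f, p.r f = q.π f := fun f => by
    by_cases hf : f ∈ q.O
    · exact p.r_eq hf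
    · exact (dif_neg hf).trans (q.π_off hf).symm
  exact ⟨⟨p, fun c => (h2 _).trans (q.π_alg c)⟩, plc_ext (fun _ => Iff.rfl) h2⟩

theorem exists_lp_dv {v : Hom X Y} {e : BD ℂ Y.F} (h : IsDv v e) :
    ∃ p : Hb.LP Y.F X.F, plc p = v.p := by
  obtain ⟨ν, -, hν⟩ := h.val
  refine exists_lp _ fun f => ?_
  rw [hν, hν, map_inv₀]
  exact (le_total (ν f) 1).imp id inv_le_one_of_one_le₀

section Meet

variable {J : Type} [Fintype J] [DecidableEq J] {io : J → Type} [∀ j, Fintype (io j)]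
  [∀ j, DecidableEq (io j)]

theorem meet_of_same {y₀ : Vb.Pnt io Y.F} (hy : ∀ j, Cns.Gn Y.P (y₀ j)) {γ γ' : Y.F →ₐ[ℂ] L}
    {p : Hb.LP L E} (h : ((gen Y γ).red p).Same ((gen Y γ').red p)) :
    Hb.Meet p.V (Hb.mpt γ y₀) (Hb.mpt γ' y₀) := by
  obtain ⟨x, h1, h2, h3⟩ := h
  choose i hi hi' using fun j => hy j x
  have h4 : ∀ (τ : Y.F →ₐ[ℂ] L) j l, (τ (y₀ j (i j)))⁻¹ * τ (y₀ j l) = τ (y₀ j l / y₀ j (i j)) :=
    fun τ j l => by rw [map_div₀, div_eq_inv_mul]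
  refine ⟨fun j => (γ (y₀ j (i j)))⁻¹, fun j => (γ' (y₀ j (i j)))⁻¹,
    fun j => ⟨fun l => ?_, i j, ?_⟩, fun j => ⟨fun l => ?_, i j, ?_⟩, fun j l => ?_⟩ <;>
    simp only [h4]
  · exact (h1 (hi' j l)).2
  · rw [div_self (hi j), map_one, map_one]
  · exact (h2 (hi' j l)).2
  · rw [div_self (hi j), map_one, map_one]
  · have h5 : γ (y₀ j l / y₀ j (i j)) ∈ p.V.1 := (h1 (hi' j l)).2
    have h6 : γ' (y₀ j l / y₀ j (i j)) ∈ p.V.1 := (h2 (hi' j l)).2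
    rw [← Pl.r_eq_zero (sub_mem h5 h6), Pl.r_sub h5 h6, sub_eq_zero]
    exact h3 _ (hi' j l)

end Meet

variable {C : Th}

/-- the pull-back of the diagonal class along a dominant morphism kills the classes which die on
the smooth divisors over the diagonal -/
theorem supp_dmn (man : C.MAN) (pd : C.PD) (dbl : C.DBL) (bc1 : C.BC1) (hY : 0 < Y.dim)
    {ρ : Hom A (Y.prod Y)} (hρ : Dmn ρ) {x : C.H A}
    (h : ∀ (M : PModel ℂ A.F) (π : Hom (sv M) A), π.p = Plc.ofHom (AlgHom.id ℂ A.F) →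
      ∀ (G : SV) (v : Hom G (sv M)) (e : BD ℂ A.F), IsDv v e →
      (∀ z, (fst Y Y).map (ρ.map (π.map (v.map z))) = (snd Y Y).map (ρ.map (π.map (v.map z)))) →
      C.pb v (C.pb π x) = 0) : x * C.pb ρ (C.push (dia Y) 1) = 0 := by
  obtain ⟨B, E, b, j, a, ⟨β, hb, hβ⟩, hj, h1, γ, h2⟩ := dbl Y hY
  obtain ⟨α, hα⟩ := hρ
  let ε := AlgEquiv.ofBijective β ⟨β.toRingHom.injective, hβ⟩
  obtain ⟨M, π, u, h3, h4, ι, _, G, v, e, m, w, h5, h6, h7⟩ :=
    Form88.exists_bc (A := A) hj (α.comp ε.symm.toAlgHom)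
  have h8 : (Mor.comp b u).map = (Mor.comp ρ π).map := (Form88.map_congr fun x f _ => by
    refine ⟨⟨hb ▸ Algebra.mem_top, h4 ▸ Algebra.mem_top⟩, ?_⟩
    change u.p.π (b.p.π f) = π.p.π (ρ.p.π f)
    rw [h4, hb, h3, hα]
    exact congrArg α (ε.symm_apply_apply f))
  refine pd.pb_inj man (Form88.bim_id h3).dmn ?_
  rw [map_zero, map_mul, ← man.pb_comp, ← man.pb_congr _ _ h8, man.pb_comp, h2,
    bc1 j a u G v e m w hj h5 h6 h7, Finset.mul_sum]
  refine Finset.sum_eq_zero fun i _ => ?_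
  rw [mul_smul_comm, ← pd.push_proj', h M π h3 _ _ _ (h5 i) fun z => ?_, zero_mul, map_zero,
    smul_zero]
  have h9 := (h1 _).2 ⟨(w i).map z, rfl⟩
  rwa [← Mor.comp_map j, h7 i, Mor.comp_map, ← Mor.comp_map b, h8, Mor.comp_map,
    Form88.mem_range_dia] at h9

theorem exists_dual (pd : C.PD) (Y : SV) : ∃ (n : ℕ) (e e' : Fin n → C.H Y),
    ∀ a b, C.itg Y (a * b) = ∑ l, C.itg Y (a * e l) * C.itg Y (b * e' l) := by
  haveI := pd.fin Y
  let B := Module.finBasis ℂ (C.H Y)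
  choose e he using fun l => pd.exists_rep (B.coord l)
  refine ⟨_, e, B, fun a b => ?_⟩
  conv_lhs => rw [← B.sum_repr a, Finset.sum_mul, map_sum]
  exact Finset.sum_congr rfl fun l _ => by
    rw [smul_mul_assoc, map_smul, mul_comm a, he, mul_comm b]; rfl

variable (C) [hC : Ok C]

/-- the diagonal class at a pair of generic points -/
def dl (Y : SV) (L : Type) [Field L] [Algebra ℂ L] (γ γ' : Y.F →ₐ[ℂ] L) : HH C L :=
  ev C ((gen Y γ).pair (gen Y γ')) (C.push (dia Y) 1)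

/-- a model on which a class lives and a dominant rational map is a morphism -/
theorem exists_model [Algebra.EssFiniteType ℂ K] (α : Y.F →ₐ[ℂ] K) (x : HH C K) :
    ∃ (P : PModel ℂ K) (μ : Hom (sv P) Y) (a : C.H (sv P)), μ.p = Plc.ofHom α ∧
      x = ev C (gen (sv P) (AlgHom.id ℂ K)) a := by
  obtain ⟨b, hb⟩ := exists_bd (gen Y α)
  obtain ⟨P, a, h1, h2⟩ := exists_ev_id C x {b}
  obtain ⟨μ, hμ⟩ := hb P (h1 b (Finset.mem_singleton_self b))
  exact ⟨P, μ, a, hμ, h2⟩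

theorem dl_eq {μ : Hom X Y} {ν : Hom X' Y} {α : Y.F →ₐ[ℂ] X.F} {α' : Y.F →ₐ[ℂ] X'.F}
    (hμ : μ.p = Plc.ofHom α) (hν : ν.p = Plc.ofHom α') (β : X.F →ₐ[ℂ] L) (β' : X'.F →ₐ[ℂ] L) :
    dl C Y L (β.comp α) (β'.comp α') =
      ev C ((gen X β).pair (gen X' β')) (C.pb (pmap μ ν) (C.push (dia Y) 1)) := by
  rw [dl, ← gen_map hμ, ← gen_map hν]
  exact ev_of_same C (pair_pmap _ _ μ ν) _

theorem itgH_mul_pb {R : PModel ℂ K} {τ : Hom (sv R) Y} {α : Y.F →ₐ[ℂ] K}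
    (hτ : τ.p = Plc.ofHom α) (c : C.H (sv R)) (y : C.H Y) :
    itgH C K (ev C (gen (sv R) (AlgHom.id ℂ K)) c *
      pbH C (Hb.LP.hom α) (ev C (gen Y (AlgHom.id ℂ Y.F)) y)) = C.itg Y (C.push τ c * y) := by
  rw [pbH_gen, AlgHom.comp_id, ← AlgHom.id_comp α, ← gen_map hτ, ev_map, ← map_mul, itgH_id,
    hC.pd.push_spec]

variable {J : Type} [Fintype J] [DecidableEq J] {io : J → Type} [∀ j, Fintype (io j)]
  [∀ j, DecidableEq (io j)] [Algebra.EssFiniteType ℂ K] [Algebra.EssFiniteType ℂ E]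
  [Algebra.EssFiniteType ℂ L] {β₁ : K →ₐ[ℂ] L} {β₂ : E →ₐ[ℂ] L}

theorem dl_kun (diag : C.DIAG) {ι : Type} [Fintype ι] {e e' : ι → C.H Y}
    (he : ∀ a b, C.itg Y (a * b) = ∑ l, C.itg Y (a * e l) * C.itg Y (b * e' l))
    (h : Hb.Prd β₁ β₂) (α₁ : Y.F →ₐ[ℂ] K) (α₂ : Y.F →ₐ[ℂ] E) (x₁ : HH C K) (x₂ : HH C E) :
    itgH C L (pbH C (Hb.LP.hom β₁) x₁ * pbH C (Hb.LP.hom β₂) x₂ *
      dl C Y L (β₁.comp α₁) (β₂.comp α₂)) =
      ∑ l, itgH C K (x₁ * pbH C (Hb.LP.hom α₁) (ev C (gen Y (AlgHom.id ℂ Y.F)) (e l))) *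
        itgH C E (x₂ * pbH C (Hb.LP.hom α₂) (ev C (gen Y (AlgHom.id ℂ Y.F)) (e' l))) := by
  obtain ⟨P, μ, a, hμ, rfl⟩ := exists_model C α₁ x₁
  obtain ⟨Q, ν, b, hν, rfl⟩ := exists_model C α₂ x₂
  obtain ⟨γ, h1, h2⟩ := exists_prd C (X := sv P) (Y := sv Q) h
  simp only [itgH_mul_pb C hμ, itgH_mul_pb C hν]
  rw [← he, ← diag, dl_eq C hμ hν, pbH_gen, pbH_gen, AlgHom.comp_id, AlgHom.comp_id,
    ev_of_same C (pair_fst (gen (sv P) β₁) (gen (sv Q) β₂)),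
    ev_of_same C (pair_snd (gen (sv P) β₁) (gen (sv Q) β₂)), ← map_mul, ← map_mul, h2, itgH_gen,
    deg_of_surj h1, Nat.cast_one, one_mul]

theorem dl_sup (dbl : C.DBL) (bc1 : C.BC1) {y₀ : Vb.Pnt io Y.F} (hy : ∀ j, Cns.Gn Y.P (y₀ j))
    (h : Hb.Prd β₁ β₂) (α₁ : Y.F →ₐ[ℂ] K) (α₂ : Y.F →ₐ[ℂ] E) (x : HH C L)
    (hx : ∀ (E' : Type) [Field E'] [Algebra ℂ E'] [Algebra.EssFiniteType ℂ E'] (p : Hb.LP L E'),
      Hb.Meet p.V (Hb.mpt (β₁.comp α₁) y₀) (Hb.mpt (β₂.comp α₂) y₀) → pbH C p x = 0) :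
    x * dl C Y L (β₁.comp α₁) (β₂.comp α₂) = 0 := by
  rcases Nat.eq_zero_or_pos Y.dim with hY | hY
  · haveI : Algebra.IsAlgebraic ℂ Y.F :=
      trdeg_eq_zero_iff.1 (by rw [trdeg_eq_dim, show dim ℂ Y.F = 0 from hY, Nat.cast_zero])
    have h1 : β₁.comp α₁ = β₂.comp α₂ := AlgHom.ext fun f => by
      obtain ⟨c, rfl⟩ := (IsAlgClosed.algebraMap_bijective_of_isIntegral (k := ℂ)).2 f
      rw [AlgHom.commutes, AlgHom.commutes]
    rw [(pbH_id C x).symm.trans (hx L _ (meet_of_same hy (.of_eq (by rw [h1])))), zero_mul]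
  obtain ⟨P, μ, -, hμ, -⟩ := exists_model C α₁ 0
  obtain ⟨Q, ν, -, hν, -⟩ := exists_model C α₂ 0
  obtain ⟨γ, h1, h2⟩ := exists_prd C (X := sv P) (Y := sv Q) h
  obtain ⟨R, σ, a, hσ, rfl⟩ := exists_model C γ x
  have h3 : (gen (sv R) (AlgHom.id ℂ L)).map σ = (gen (sv P) β₁).pair (gen (sv Q) β₂) := by
    rw [gen_map hσ, AlgHom.id_comp, h2]
  rw [dl_eq C hμ hν, ← h3, ev_map, ← map_mul, ← hC.man.pb_comp,
    supp_dmn hC.man hC.pd dbl bc1 hY ?_ fun M π hπ G v e hv hz => ?_, map_zero]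
  · exact Form88.dmn_iff.2 (by
      rw [funext (Mor.comp_map _ _)]
      exact (Form88.dmn_iff.1 (Dmn.pmap ⟨_, hμ⟩ ⟨_, hν⟩)).comp (Form88.dmn_iff.1 ⟨_, hσ⟩))
  obtain ⟨p, hp⟩ := exists_lp_dv hv
  have h4 : (gen (sv M) (AlgHom.id ℂ L)).map π = gen (sv R) (AlgHom.id ℂ L) := gen_map hπ _
  have h5 : (gen (sv M) (AlgHom.id ℂ L)).red p = (gen G (AlgHom.id ℂ G.F)).map v :=
    KP.ext (((comp_id _).trans hp).trans (gen_id_map v).symm)
  have h6 : ((((gen G (AlgHom.id ℂ G.F)).map v).map π).map (Mor.comp (pmap μ ν) σ)).Same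
      (((gen Y (β₁.comp α₁)).pair (gen Y (β₂.comp α₂))).red p) := by
    rw [← h5, ← red_map, ← red_map, h4, map_comp, h3, ← gen_map hμ, ← gen_map hν]
    exact (pair_pmap _ _ μ ν).red p
  refine ev_id_injective C G.P ?_
  rw [map_zero, ← ev_map, ← h5, ← pbH_ev, ← ev_map, h4]
  refine hx _ p (meet_of_same hy ?_)
  refine ((pair_fst _ (gen Y (β₂.comp α₂))).red p).symm.trans (Same.trans ?_
    ((pair_snd (gen Y (β₁.comp α₁)) _).red p))
  rw [red_map, red_map]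
  refine (h6.map _).symm.trans (Same.trans ?_ (h6.map _))
  simp only [← map_comp]
  exact same_of_map_eq (funext fun z => by simpa only [Mor.comp_map] using hz z) _

/-- **the diagonal class** -/
theorem dlt (diag : C.DIAG) (dbl : C.DBL) (bc1 : C.BC1) {y₀ : Vb.Pnt io Y.F}
    (hy : ∀ j, Cns.Gn Y.P (y₀ j)) {ι : Type} [Fintype ι] {e e' : ι → C.H Y}
    (he : ∀ a b, C.itg Y (a * b) = ∑ l, C.itg Y (a * e l) * C.itg Y (b * e' l)) :
    Hb.Dlt (th C) y₀ (fun l => ev C (gen Y (AlgHom.id ℂ Y.F)) (e l))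
      (fun l => ev C (gen Y (AlgHom.id ℂ Y.F)) (e' l)) (dl C Y) where
  kun _ _ _ _ _ _ _ _ _ _ _ _ _ _ h α₁ α₂ x₁ x₂ := dl_kun C diag he h α₁ α₂ x₁ x₂
  sup _ _ L _ _ _ _ _ _ _ _ _ _ _ h α₁ α₂ x hx :=
    (congrArg (itgH C L) (dl_sup C dbl bc1 hy h α₁ α₂ x hx)).trans (map_zero _)

end Crest.Agent.X262.PD.Dl
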