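import Crest.Agent.X262.PD.Diag
import Crest.Agent.X262.PD.Dlt
import Crest.Agent.X262.Hb64.Vir
import Crest.Agent.X262.Hb.Dgc

/-!
# Row 262, road B, PD (helper97): the diagonal axiom of the evaluation

* `PtStmt` : the field-level input (no cohomology of varieties);
* `hd_of`  : the hypothesis `hd` of `Hb64.inst_ax`, `Hb64.vir'`;
* `virOf`  : `Gwb.Vir C (th C)`.
-/

set_option autoImplicit false

noncomputable section

namespace Crest.Agent.X262.PD.Dg

open Crest.Agent.X277 Crest.Agent.X262.Coh Crest.Agent.X262.Hb64 Crest.Agent.X262.Vb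

/-- the class `dgc` is dual to the point -/
def PtStmt : Prop :=
  ∀ (B : Hb.Th), B.Ax → ∀ {J : Type} [Fintype J] [DecidableEq J] {io : J → Type}
    [∀ j, Fintype (io j)] [∀ j, DecidableEq (io j)] {A : Type} [Fintype A] (T : Tgt io A) (c : ℕ),
    Smo T c → ∀ {K : Type} [Field K] [Algebra ℂ K] [Algebra.EssFiniteType ℂ K] (y₀ : Pnt io K),
    GenPt T c y₀ → PtP B T y₀

variable (C : Coh.Th) [hC : Ok C]

theorem sum_dual {Y : SV} {ι : Type} [Fintype ι] {u u' : ι → C.H Y}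
    (he : ∀ a b, C.itg Y (a * b) = ∑ l, C.itg Y (a * u l) * C.itg Y (b * u' l)) :
    ∑ l, C.itg Y (u' l) • u l = 1 := by
  refine sub_eq_zero.1 ((hC.pd Y).2 _ fun a => ?_)
  rw [sub_mul, map_sub, mul_comm 1 a, he a 1, Finset.sum_mul, map_sum, sub_eq_zero]
  refine Finset.sum_congr rfl fun l _ => ?_
  rw [smul_mul_assoc, map_smul, smul_eq_mul, one_mul, mul_comm (u l), mul_comm]

theorem hd_of (diag : C.DIAG) (dbl : C.DBL) (bc1 : C.BC1) (hp : PtStmt) {Y : SV}
    (m : Gwb.Emb Y) {ι : Type} [Fintype ι] (u u' : ι → C.H Y)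
    (he : ∀ a b, C.itg Y (a * b) = ∑ l, C.itg Y (a * u l) * C.itg Y (b * u' l)) :
    Diag (th C) m.tgt (fun l => ((inst C).e m.toPre).fam (u l))
      fun l => ((inst C).e m.toPre).fam (u' l) := by
  have cls : ∀ a, Cls (th C) m.tgt (((inst C).e m.toPre).fam a) := fun a =>
    ⟨fun _ _ _ _ _ _ hc hz h => evP_scl C hz (Gwb.Pre.on_iff.1 h) hc a,
      fun _ _ _ _ _ _ _ _ p _ hp h => evP_red C p hp (Gwb.Pre.on_iff.1 h) a⟩
  have g := genStmt Y m.toPre
  have h0 : ∀ a, ((inst C).e m.toPre).fam a Y.F m.y = ev C (gen Y (AlgHom.id ℂ Y.F)) a :=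
    evP_gen C m.toPre (AlgHom.id ℂ Y.F)
  refine diag_of_pt (th_ax C) g.nz g.on (fun _ => cls _) (fun _ => cls _) (δ := Dl.dl C Y) ?_ ?_
    (hp _ (th_ax C) _ _ (smoStmt Y m) _ g) ((th_ax C).mcls_dgc (smoStmt Y m) 0 1)
  · simp only [h0]
    exact Dl.dlt C diag dbl bc1 (fun j => BD.Br.gn_of_mem (m.reg j).1 (m.reg j).2) he
  · have h1 : ∀ a, (th C).itg Y.F (((inst C).e m.toPre).fam a Y.F m.y) = C.itg Y a :=
      itg_evP C m.toPre
    simp only [h1]
    simp only [h0]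
    have h2 := congrArg (ev C (gen Y (AlgHom.id ℂ Y.F))) (sum_dual C he)
    rw [map_sum, map_one] at h2
    simp only [map_smul] at h2
    exact h2

/-- the inputs of the invariants for the instance -/
def virOf (diag : C.DIAG) (dbl : C.DBL) (bc1 : C.BC1) (hp : PtStmt)
    (ax0 : Ax0Stmt) (axS : AxSStmt) (deg0 : Deg0Stmt) (wdvv : WdvvStmt) : Gwb.Vir C (th C) :=
  vir' C (hd_of C diag dbl bc1 hp) ax0 axS deg0 wdvv

end Crest.Agent.X262.PD.Dg
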