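import Crest.Agent.X262.PD.Kun
import Crest.Agent.X262.Van.Step
import Crest.Agent.R208.DEG2

/-!
# Row 262, PD (helper97): Poincare duality, Fubini, Kuenneth and the diagonal for even classes

* `finite_H`, `nondeg_H` : Poincare duality for `CW.H X`;
* `IsProd` : `(p, q) : Z → X × Y` is an oriented diffeomorphism;  `IsProd.integ_mul` (Fubini),
  `IsProd.span` (Kuenneth), `IsProd.diag` (the class of the diagonal).
-/

set_option autoImplicit false
set_option linter.unusedSectionVars false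

open MeasureTheory Set Filter Topology Module
open scoped ContDiff
open Crest.Agent.R208 Crest.Agent.R208.F Crest.Agent.R208.FI Crest.Agent.R208.T
open Crest.Agent.R208.CW (SMap integ)

noncomputable section

namespace Crest.Agent.X262.PD

universe u v

section one

variable {E : Type u} [NormedAddCommGroup E] [NormedSpace ℝ E] [FiniteDimensional ℝ E]
  {n : ℕ} {X : Set E} {o a b : E → Ext E}

theorem dpl_inv (j : ℕ) (c : Ext E) : dpl j (F.inv c) = (-1 : ℝ) ^ j • dpl j c := by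
  refine ext_lin (f := dpl j ∘ₗ (F.inv : Ext E →ₐ[ℝ] Ext E).toLinearMap)
    (g := (-1 : ℝ) ^ j • dpl j) (fun p l => ?_) c
  simp only [LinearMap.comp_apply, AlgHom.toLinearMap_apply, LinearMap.smul_apply]
  rw [PD.inv_of_isDeg (IsDeg.iMulti l), map_smul]
  by_cases h : p = j
  · subst h; rfl
  · rw [dpl_iMulti_ne h, smul_zero, smul_zero]

/-- odd forms have integral zero in even dimension -/
theorem J_odd (hX : Clo n X) (hn : Even n) (h : ∀ x, F.inv (a x) = -a x) : J n X o a = 0 := by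
  rw [← J_dp hX, ← J_zero' (n := n) (X := X) (o := o)]
  congr 1
  funext x
  have h1 := dpl_inv n (a x)
  rw [h, map_neg, hn.neg_one_pow, one_smul, neg_eq_iff_add_eq_zero, ← two_smul ℝ] at h1
  exact (smul_eq_zero.1 h1).resolve_left two_ne_zero

/-- the even part -/
def ev (a : E → Ext E) : E → Ext E := (2⁻¹ : ℝ) • (a + fun x => F.inv (a x))

/-- the odd part -/
def od (a : E → Ext E) : E → Ext E := (2⁻¹ : ℝ) • (a - fun x => F.inv (a x))

theorem ev_add_od (a : E → Ext E) : ev a + od a = a := by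
  rw [ev, od, ← smul_add, add_add_sub_cancel, ← two_smul ℝ, smul_smul, inv_mul_cancel₀ two_ne_zero,
    one_smul]

theorem inv_ev (a : E → Ext E) (x : E) : F.inv (ev a x) = ev a x := by
  simp only [ev, Pi.smul_apply, Pi.add_apply, map_smul, map_add, F.inv_inv, add_comm]

theorem inv_od (a : E → Ext E) (x : E) : F.inv (od a x) = -od a x := by
  simp only [od, Pi.smul_apply, Pi.sub_apply, map_smul, map_sub, F.inv_inv, ← smul_neg, neg_sub]

theorem ev_of_even (h : ∀ x, F.inv (a x) = a x) : ev a = a := by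
  rw [ev, funext h, ← two_smul ℝ, smul_smul, inv_mul_cancel₀ two_ne_zero, one_smul]

theorem ev_of_odd (h : ∀ x, F.inv (a x) = -a x) : ev a = 0 := by
  rw [ev, funext h]
  exact (congrArg _ (add_neg_cancel a)).trans (smul_zero _)

theorem ev_add (a b : E → Ext E) : ev (a + b) = ev a + ev b := funext fun x => by
  simp only [ev, Pi.smul_apply, Pi.add_apply, map_add, smul_add]
  abel

theorem ev_smul (r : ℝ) (a : E → Ext E) : ev (r • a) = r • ev a := funext fun x => by
  simp only [ev, Pi.smul_apply, Pi.add_apply, map_smul, ← smul_add, smul_comm r]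

theorem ev_sum {ι : Type*} (s : Finset ι) (w : ι → E → Ext E) :
    ev (∑ i ∈ s, w i) = ∑ i ∈ s, ev (w i) := funext fun x => by
  simp only [ev, Pi.smul_apply, Pi.add_apply, Finset.sum_apply, map_sum, ← Finset.smul_sum,
    Finset.sum_add_distrib]

theorem ec_ev (sa : Sm X a) (ca : Cl X a) : EC X (ev a) :=
  ⟨inv_ev a, (sa.add sa.inv).smul _,
    Cl.smul _ (sa.add sa.inv) (Cl.add sa sa.inv ca (cl_inv sa ca))⟩

theorem sm_od (sa : Sm X a) : Sm X (od a) := (sa.sub sa.inv).smul _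

theorem cl_od (sa : Sm X a) (ca : Cl X a) : Cl X (od a) :=
  Cl.smul _ (sa.sub sa.inv) (Cl.sub sa sa.inv ca (cl_inv sa ca))

theorem coh_inv (h : Coh X a b) : Coh X (fun x => F.inv (a x)) fun x => F.inv (b x) := by
  obtain ⟨ξ, h1, h2⟩ := h
  refine ⟨-fun x => F.inv (ξ x), h1.inv.neg, eqv_iff.2 fun x hx => ?_⟩
  rw [d_neg', Pi.neg_apply, CW.d_inv (h1.diff hx), neg_neg, pb_inv, ← eqv_iff.1 h2 x hx, ← pb_inv,
    Pi.sub_apply, Pi.sub_apply, map_sub F.inv]

theorem coh_ev (h : Coh X a b) : Coh X (ev a) (ev b) := (h.add (coh_inv h)).smul _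

theorem integ_rcl (hX : Clo n X) (ho : Ori n X o) (ha : EC X a) :
    integ hX ho (rcl ha) = J n X o a :=
  (CW.integ_cls hX ho _).trans (Complex.ext rfl J_zero')

/-- induction on classes -/
theorem H_ind {P : CW.H X → Prop} (h1 : ∀ a (ha : EC X a), P (rcl ha))
    (h2 : ∀ x y, P x → P y → P (x + y)) (h3 : ∀ (c : ℂ) x, P x → P (c • x)) (x : CW.H X) :
    P x := by
  obtain ⟨a, b, ha, hb, rfl⟩ := exists_rcl x
  exact h2 _ _ (h1 a ha) (h3 _ _ (h1 b hb))

/-- **finite dimensionality** -/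
theorem finite_H (hX : Clo n X) (ho : Ori n X o) : FiniteDimensional ℂ (CW.H X) := by
  obtain ⟨N, deg, e, f, h⟩ := exists_pdb hX ho
  have he := fun i => ec_ev (h.se i) (h.ce i)
  refine Module.finite_def.2 (Submodule.fg_def.2 ⟨_, finite_range fun i => rcl (he i), ?_⟩)
  refine eq_top_iff.2 fun x _ => H_ind (fun a ha => ?_) (fun _ _ => add_mem)
    (fun c _ => Submodule.smul_mem _ c) x
  have h1 := coh_ev (h.span a ha.sm ha.cl)
  rw [ev_of_even ha.inv, ev_sum] at h1
  simp only [ev_smul] at h1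
  rw [rcl_congr ha (EC.sum fun i _ => (he i).smul _) h1, rcl_sum _ fun i => (he i).smul _]
  exact Submodule.sum_mem _ fun i _ => by
    rw [rcl_smul _ (he i)]
    exact Submodule.smul_mem _ _ (Submodule.subset_span ⟨i, rfl⟩)

theorem coh_zero_of_even (hX : Clo n X) (ho : Ori n X o) (hn : Even n) (ha : EC X a)
    (h : ∀ φ, EC X φ → J n X o (a * φ) = 0) : Coh X a 0 :=
  pd_inj hX ho ha.sm fun φ sφ cφ => by
    rw [← ev_add_od φ, mul_add, J_add' hX ho (ha.sm.mul (ec_ev sφ cφ).sm) (ha.sm.mul (sm_od sφ)),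
      h _ (ec_ev sφ cφ), zero_add]
    exact J_odd hX hn fun x => by
      rw [Pi.mul_apply, map_mul, ha.inv, inv_od, mul_neg]

/-- **Poincare duality** for even classes -/
theorem nondeg_H (hX : Clo n X) (ho : Ori n X o) (hn : Even n) {x : CW.H X}
    (h : ∀ y, integ hX ho (x * y) = 0) : x = 0 := by
  obtain ⟨a, b, ha, hb, rfl⟩ := exists_rcl x
  have key : ∀ φ, EC X φ → J n X o (a * φ) = 0 ∧ J n X o (b * φ) = 0 := fun φ hφ => by
    have := h (rcl hφ)
    rw [add_mul, smul_mul_assoc, ← rcl_mul, ← rcl_mul, map_add, map_smul, integ_rcl, integ_rcl,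
      smul_eq_mul] at this
    exact ⟨by simpa using congrArg Complex.re this, by simpa using congrArg Complex.im this⟩
  rw [(rcl_eq_zero_iff ha).2 (coh_zero_of_even hX ho hn ha fun φ hφ => (key φ hφ).1),
    (rcl_eq_zero_iff hb).2 (coh_zero_of_even hX ho hn hb fun φ hφ => (key φ hφ).2), smul_zero,
    add_zero]

/-- closed odd forms -/
structure OC (X : Set E) (a : E → Ext E) : Prop where
  inv : ∀ x, F.inv (a x) = -a x
  sm : Sm X a
  cl : Cl X a

theorem OC.pull {G : Type v} [NormedAddCommGroup G] [NormedSpace ℝ G] [FiniteDimensional ℝ G]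
    {Y : Set G} {f : G → E} (h : OC X a) (hf : SMap Y X f) : OC Y (pull f a) :=
  ⟨fun x => by rw [F.pull, ← pb_inv, h.inv, map_neg], h.sm.pull hf, h.cl.pull hf h.sm⟩

theorem OC.mul (ha : OC X a) (hb : OC X b) : EC X (a * b) :=
  ⟨fun x => by rw [Pi.mul_apply, map_mul, ha.inv, hb.inv, neg_mul_neg], ha.sm.mul hb.sm,
    Cl.mul ha.sm hb.sm ha.cl hb.cl⟩

theorem oc_od (sa : Sm X a) (ca : Cl X a) : OC X (od a) := ⟨inv_od a, sm_od sa, cl_od sa ca⟩

end one

variable {E : Type} [NormedAddCommGroup E] [NormedSpace ℝ E] [FiniteDimensional ℝ E]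
  {G : Type} [NormedAddCommGroup G] [NormedSpace ℝ G] [FiniteDimensional ℝ G]
  {H : Type} [NormedAddCommGroup H] [NormedSpace ℝ H] [FiniteDimensional ℝ H]
  {k m n : ℕ} {Z : Set H} {X : Set E} {Y : Set G} {oZ : H → Ext H} {oX : E → Ext E}
  {oY : G → Ext G} {p : H → E} {q : H → G}

theorem eqv_pull_pull {f : H → E} {g : E → G} (hf : SMap Z X f) (hg : SMap X Y g) {h : H → G}
    (hh : SMap Z Y h) (e : ∀ z ∈ Z, g (f z) = h z) (b : G → Ext G) :
    Eqv Z (pull f (pull g b)) (pull h b) :=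
  (Eqv.of_eq fun _ hz => pull_comp (hf.diff hz) (hg.diff (hf.maps hz))).trans
    (eqv_pull_of_eq b (fun _ hz => (hg.comp hf).diff hz) (fun _ hz => hh.diff hz) e)

/-- a bijective immersion induces a surjection on closed forms -/
theorem exists_pull_of_bij (hZ : Clo k Z) (hf : SMap Z X p) (hb : BijOn p Z X)
    (hi : ∀ z ∈ Z, ∀ v ∈ Tan Z z, fderiv ℝ p z v = 0 → v = 0) {w : H → Ext H} (sw : Sm Z w)
    (cw : Cl Z w) : ∃ θ, Sm X θ ∧ Cl X θ ∧ Eqv Z (pull p θ) w := by
  have h : Van.Par k Z X p ∅ :=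
    { clo := hZ
      smap := hf
      injOn := hb.injOn.mono sdiff_subset
      imm := fun z hz _ v hv h0 => hi z hz v hv h0 }
  obtain ⟨θ, h1, -, h2⟩ := h.exists_push isClosed_empty sw (by simp [Van.EqN])
  have sθ : Sm X θ := fun _ _ => h1.contDiffAt
  refine ⟨θ, sθ, fun x hx => ?_, h2⟩
  obtain ⟨z, hz, rfl⟩ := hb.surjOn hx
  have h3 : ResZero Z (pull p (d θ)) := resZero_iff.2 ((d_pull_eqv hf sθ).symm.trans
    (resZero_iff.1 (Cl.of_eqv hZ.sub (sθ.pull hf) sw h2 cw)))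
  have h4 := h.rt_eq_zero isClosed_empty hz (notMem_empty _) (h3 z hz)
  rwa [preimage_empty, sdiff_empty, hb.image_eq] at h4

/-- `(p, q) : Z → X × Y` is an oriented diffeomorphism -/
structure IsProd (k : ℕ) (Z : Set H) (oZ : H → Ext H) (m : ℕ) (X : Set E) (oX : E → Ext E)
    (n : ℕ) (Y : Set G) (oY : G → Ext G) (p : H → E) (q : H → G) : Prop where
  dim : k = m + n
  cZ : Clo k Z
  cX : Clo m X
  cY : Clo n Y
  oriZ : Ori k Z oZ
  oriX : Ori m X oX
  oriY : Ori n Y oY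
  sp : SMap Z X p
  sq : SMap Z Y q
  bij : BijOn (fun z => (p z, q z)) Z (X ×ˢ Y)
  imm : ∀ z ∈ Z, ∀ v ∈ Tan Z z, fderiv ℝ p z v = 0 → fderiv ℝ q z v = 0 → v = 0
  ori : ∀ a, J k Z oZ a = J k Z (pull p oX * pull q oY) a

theorem isProd_self (hX : Clo m X) (hY : Clo n Y) (hoX : Ori m X oX) (hoY : Ori n Y oY) :
    IsProd (m + n) (X ×ˢ Y) (bx oX oY) m X oX n Y oY Prod.fst Prod.snd :=
  ⟨rfl, hX.prod hY, hX, hY, ori_bx hX hY hoX hoY, hoX, hoY, smap_fst, smap_snd, bijOn_id _,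
    fun z _ v _ h1 h2 => by
      rw [hasFDerivAt_fst.fderiv] at h1
      rw [hasFDerivAt_snd.fderiv] at h2
      exact Prod.ext h1 h2, fun _ => rfl⟩

namespace IsProd

variable (h : IsProd k Z oZ m X oX n Y oY p q)
include h

theorem smap : SMap Z (X ×ˢ Y) fun z => (p z, q z) :=
  ⟨fun z hz => (h.sp.smooth z hz).prodMk (h.sq.smooth z hz), h.bij.mapsTo⟩

theorem eqv_bx (a : E → Ext E) (b : G → Ext G) :
    Eqv Z (pull (fun z => (p z, q z)) (bx a b)) (pull p a * pull q b) :=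
  Eqv.of_eq fun _ hz => pull_bx (h.sp.diff hz) (h.sq.diff hz) a b

/-- **Fubini** for forms -/
theorem J_mul {a : E → Ext E} {b : G → Ext G} (ha : Sm X a) (hb : Sm Y b) :
    J k Z oZ (pull p a * pull q b) = J m X oX a * J n Y oY b := by
  have hP := h.cX.prod h.cY
  have hZ := h.cZ
  have hd := h.dim
  subst hd
  rw [← J_bx h.cX h.cY h.oriX h.oriY ha hb, h.ori, ← J_pull hZ hP (fun _ hz => h.smap.diff hz)
    h.bij (ori_bx h.cX h.cY h.oriX h.oriY) (cont_of_sm (sm_bx ha hb)), J_eqv hZ (h.eqv_bx a b)]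
  refine setIntegral_congr_fun hZ.measurableSet ?_
  rintro _ ⟨z, hz, rfl⟩
  simp only [ContinuousLinearEquiv.symm_apply_apply, dens]
  rw [pull_bx (h.sp.diff hz) (h.sq.diff hz)]
  rfl

/-- **Kuenneth** for forms -/
theorem kun {ι : Type} [Fintype ι] [DecidableEq ι] {deg : ι → ℕ} {e f : ι → E → Ext E}
    (hb : PDB m X oX deg e f) {w : H → Ext H} (sw : Sm Z w) (cw : Cl Z w) :
    ∃ b : ι → G → Ext G, (∀ j, Sm Y (b j)) ∧ (∀ j, Cl Y (b j)) ∧
      Coh Z w (∑ j, pull p (e j) * pull q (b j)) := by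
  obtain ⟨θ, sθ, cθ, hθ⟩ := exists_pull_of_bij h.cZ h.smap h.bij (fun z hz v hv h0 => by
    rw [(h.sp.diff hz).fderiv_prodMk (h.sq.diff hz)] at h0
    exact h.imm z hz v hv (congrArg Prod.fst h0) (congrArg Prod.snd h0)) sw cw
  obtain ⟨b, sb, cb, h1⟩ := hb.kunneth h.cX h.oriX h.cY sθ cθ
  refine ⟨b, sb, cb, (Coh.of_eqv hθ.symm).trans ((h1.pull h.smap).trans (Coh.of_eqv ?_))⟩
  rw [pull_sum']
  exact eqv_sum _ fun j _ => h.eqv_bx _ _

/-- **Fubini** -/
theorem integ_mul (a : CW.H X) (b : CW.H Y) :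
    integ h.cZ h.oriZ (CW.H.map h.sp a * CW.H.map h.sq b) =
      integ h.cX h.oriX a * integ h.cY h.oriY b := by
  induction a using H_ind with
  | h2 x y hx hy => simp only [map_add, add_mul, hx, hy]
  | h3 c x hx => simp only [map_smul, smul_mul_assoc, hx]
  | h1 a ha =>
    induction b using H_ind with
    | h2 x y hx hy => simp only [map_add, mul_add, hx, hy]
    | h3 c x hx => simp only [map_smul, mul_smul_comm, hx]
    | h1 b hb =>
      rw [← rcl_pull, ← rcl_pull, ← rcl_mul, integ_rcl, integ_rcl, integ_rcl, h.J_mul ha.sm hb.sm,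
        Complex.ofReal_mul]

/-- products of odd classes pair trivially with products of even classes -/
theorem integ_odd (hm : Even m) (a : CW.H X) (b : CW.H Y) {u : E → Ext E} {u' : G → Ext G}
    (hu : OC X u) (hu' : OC Y u') :
    integ h.cZ h.oriZ (CW.H.map h.sp a * CW.H.map h.sq b *
      rcl ((hu.pull h.sp).mul (hu'.pull h.sq))) = 0 := by
  induction a using H_ind with
  | h2 x y hx hy => simp only [map_add, add_mul, hx, hy, add_zero]
  | h3 c x hx => simp only [map_smul, smul_mul_assoc, hx, smul_zero]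
  | h1 a ha =>
    induction b using H_ind with
    | h2 x y hx hy => simp only [map_add, mul_add, add_mul, hx, hy, add_zero]
    | h3 c x hx => simp only [map_smul, mul_smul_comm, smul_mul_assoc, hx, smul_zero]
    | h1 b hb =>
      have e : pull p a * pull q b * (pull p u * pull q u') = pull p (a * u) * pull q (b * u') := by
        have : pull q b * pull p u = pull p u * pull q b :=
          funext fun z => CW.even_comm ((hb.pull h.sq).inv z) _
        rw [pull_mul', pull_mul', mul_assoc, ← mul_assoc (pull q b), this]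
        simp only [mul_assoc]
      rw [← rcl_pull, ← rcl_pull, ← rcl_mul, ← rcl_mul, integ_rcl, e,
        h.J_mul (ha.sm.mul hu.sm) (hb.sm.mul hu'.sm), J_odd h.cX hm (a := a * u) fun x => by
          rw [Pi.mul_apply, map_mul, ha.inv, hu.inv, mul_neg], zero_mul, Complex.ofReal_zero]

/-- **Kuenneth** : induction on the classes of a product -/
theorem ind {P : CW.H Z → Prop} (h0 : P 0)
    (h1 : ∀ a b, P (CW.H.map h.sp a * CW.H.map h.sq b))
    (h1' : ∀ u u' (hu : OC X u) (hu' : OC Y u'), P (rcl ((hu.pull h.sp).mul (hu'.pull h.sq))))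
    (h2 : ∀ x y, P x → P y → P (x + y)) (h3 : ∀ (c : ℂ) x, P x → P (c • x)) (x : CW.H Z) :
    P x := by
  refine H_ind (fun w hw => ?_) h2 h3 x
  obtain ⟨N, deg, e, f, hb⟩ := exists_pdb h.cX h.oriX
  obtain ⟨b, sb, cb, h4⟩ := h.kun hb hw.sm hw.cl
  have E1 := fun j => ((ec_ev (hb.se j) (hb.ce j)).pull h.sp).mul ((ec_ev (sb j) (cb j)).pull h.sq)
  have E2 := fun j => ((oc_od (hb.se j) (hb.ce j)).pull h.sp).mul ((oc_od (sb j) (cb j)).pull h.sq)
  have h5 := coh_ev h4
  have h6 : ∀ j, ev (pull p (e j) * pull q (b j)) =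
      pull p (ev (e j)) * pull q (ev (b j)) + pull p (od (e j)) * pull q (od (b j)) := fun j => by
    conv_lhs => rw [← ev_add_od (e j), ← ev_add_od (b j), pull_add', pull_add', add_mul, mul_add,
      mul_add, ev_add, ev_add, ev_add]
    rw [ev_of_even (E1 j).inv, ev_of_even (E2 j).inv,
      ev_of_odd (a := pull p (od (e j)) * pull q (ev (b j))) fun z => by
        rw [Pi.mul_apply, map_mul, ((oc_od (hb.se j) (hb.ce j)).pull h.sp).inv,
          ((ec_ev (sb j) (cb j)).pull h.sq).inv, neg_mul],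
      ev_of_odd (a := pull p (ev (e j)) * pull q (od (b j))) fun z => by
        rw [Pi.mul_apply, map_mul, ((oc_od (sb j) (cb j)).pull h.sq).inv,
          ((ec_ev (hb.se j) (hb.ce j)).pull h.sp).inv, mul_neg], add_zero, zero_add]
  rw [ev_of_even hw.inv, ev_sum] at h5
  simp only [h6] at h5
  rw [rcl_congr hw (EC.sum fun j _ => (E1 j).add (E2 j)) h5, rcl_sum _ fun j => (E1 j).add (E2 j)]
  refine Finset.sum_induction _ P h2 h0 fun j _ => ?_
  rw [rcl_add (E1 j) (E2 j)]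
  refine h2 _ _ ?_ (h1' _ _ (oc_od (hb.se j) (hb.ce j)) (oc_od (sb j) (cb j)))
  rw [rcl_mul ((ec_ev (hb.se j) (hb.ce j)).pull h.sp) ((ec_ev (sb j) (cb j)).pull h.sq),
    rcl_pull h.sp (ec_ev (hb.se j) (hb.ce j)), rcl_pull h.sq (ec_ev (sb j) (cb j))]
  exact h1 _ _

end IsProd

section diag

variable {E' : Type} [NormedAddCommGroup E'] [NormedSpace ℝ E'] [FiniteDimensional ℝ E']
  {G' : Type} [NormedAddCommGroup G'] [NormedSpace ℝ G'] [FiniteDimensional ℝ G']
  {H' : Type} [NormedAddCommGroup H'] [NormedSpace ℝ H'] [FiniteDimensional ℝ H']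
  {k' m' n' : ℕ} {Z' : Set H'} {X' : Set E'} {Y' : Set G'} {oZ' : H' → Ext H'}
  {oX' : E' → Ext E'} {oY' : G' → Ext G'} {p' : H' → E'} {q' : H' → G'}
  {μ : E' → E} {ν : G' → G} {ρ : H' → H}

/-- **the push-forward of a product is the product of the push-forwards** -/
theorem IsProd.push (h : IsProd k Z oZ m X oX n Y oY p q)
    (h' : IsProd k' Z' oZ' m' X' oX' n' Y' oY' p' q') (hm : Even m) (hm' : Even m')
    (hμ : SMap X' X μ) (hν : SMap Y' Y ν) (hρ : SMap Z' Z ρ) (e1 : ∀ z ∈ Z', p (ρ z) = μ (p' z))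
    (e2 : ∀ z ∈ Z', q (ρ z) = ν (q' z)) {a : CW.H X'} {b : CW.H Y'} {A : CW.H X} {B : CW.H Y}
    (hA : ∀ y, integ h.cX h.oriX (A * y) = integ h'.cX h'.oriX (a * CW.H.map hμ y))
    (hB : ∀ y, integ h.cY h.oriY (B * y) = integ h'.cY h'.oriY (b * CW.H.map hν y))
    (z : CW.H Z) :
    integ h'.cZ h'.oriZ (CW.H.map h'.sp a * CW.H.map h'.sq b * CW.H.map hρ z) =
      integ h.cZ h.oriZ (CW.H.map h.sp A * CW.H.map h.sq B * z) := by
  induction z using h.ind with
  | h0 => simp only [map_zero, mul_zero]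
  | h2 x y hx hy => simp only [map_add, mul_add, hx, hy]
  | h3 c x hx => simp only [map_smul, mul_smul_comm, hx]
  | h1 x y =>
    rw [map_mul (CW.H.map hρ), CW.H.map_map, CW.H.map_map,
      CW.H.map_congr' h'.cZ.sub (h.sp.comp hρ) (hμ.comp h'.sp) e1,
      CW.H.map_congr' h'.cZ.sub (h.sq.comp hρ) (hν.comp h'.sq) e2, ← CW.H.map_map hμ h'.sp,
      ← CW.H.map_map hν h'.sq, mul_mul_mul_comm, ← map_mul, ← map_mul, h'.integ_mul,
      mul_mul_mul_comm, ← map_mul, ← map_mul, h.integ_mul, hA, hB]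
  | h1' u u' hu hu' =>
    rw [h.integ_odd hm _ _ hu hu', ← rcl_pull,
      rcl_congr _ (((hu.pull hμ).pull h'.sp).mul ((hu'.pull hν).pull h'.sq)),
      h'.integ_odd hm' _ _ (hu.pull hμ) (hu'.pull hν)]
    rw [pull_mul']
    exact Coh.of_eqv (((eqv_pull_pull hρ h.sp (hμ.comp h'.sp) e1 u).trans
      (eqv_pull_pull h'.sp hμ (hμ.comp h'.sp) (fun _ _ => rfl) u).symm).mul
      ((eqv_pull_pull hρ h.sq (hν.comp h'.sq) e2 u').trans
      (eqv_pull_pull h'.sq hν (hν.comp h'.sq) (fun _ _ => rfl) u').symm))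

/-- **the class of the diagonal** -/
theorem IsProd.diag {q : H → E} {ν : G' → E} {δ : E → H} (h : IsProd k Z oZ m X oX m X oX p q)
    (h' : IsProd k' Z' oZ' m' X' oX' n' Y' oY' p' q') (hm : Even m) (hm' : Even m')
    (hμ : SMap X' X μ) (hν : SMap Y' X ν) (hρ : SMap Z' Z ρ) (e1 : ∀ z ∈ Z', p (ρ z) = μ (p' z))
    (e2 : ∀ z ∈ Z', q (ρ z) = ν (q' z)) (hδ : SMap X Z δ) (d1 : ∀ x ∈ X, p (δ x) = x)
    (d2 : ∀ x ∈ X, q (δ x) = x) {a : CW.H X'} {b : CW.H Y'} {A B : CW.H X} {D : CW.H Z}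
    (hA : ∀ y, integ h.cX h.oriX (A * y) = integ h'.cX h'.oriX (a * CW.H.map hμ y))
    (hB : ∀ y, integ h.cX h.oriX (B * y) = integ h'.cY h'.oriY (b * CW.H.map hν y))
    (hD : ∀ z, integ h.cZ h.oriZ (D * z) = integ h.cX h.oriX (CW.H.map hδ z)) :
    integ h'.cZ h'.oriZ (CW.H.map h'.sp a * CW.H.map h'.sq b * CW.H.map hρ D) =
      integ h.cX h.oriX (A * B) := by
  rw [h.push h' hm hm' hμ hν hρ e1 e2 hA hB, mul_comm, hD, map_mul, CW.H.map_map, CW.H.map_map,
    CW.H.map_congr' h.cX.sub (h.sp.comp hδ) (SMap.id X) d1,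
    CW.H.map_congr' h.cX.sub (h.sq.comp hδ) (SMap.id X) d2, CW.H.map_id, CW.H.map_id]

end diag

end Crest.Agent.X262.PD
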