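import Crest.Agent.X262.PD.Dual

/-!
# Row 262, PD (helper97): finite dimensionality and homogeneous dual bases

* `HR X` : real de Rham cohomology (all degrees); `finite_HR`;
* `PDB n X o deg e f` : homogeneous closed forms `e i` (degree `deg i`) which form a basis of the
  cohomology, with the dual basis `f i` : `∫ f i ∧ e j = δ i j`;  `exists_pdb`.
-/

set_option autoImplicit false
set_option linter.unusedSectionVars false

open MeasureTheory Set Filter Topology Module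
open scoped ContDiff
open Crest.Agent.R208 Crest.Agent.R208.F Crest.Agent.R208.FI Crest.Agent.R208.T
open Crest.Agent.R208.CW (SMap)

noncomputable section

namespace Crest.Agent.X262.PD

universe u

variable {E : Type u} [NormedAddCommGroup E] [NormedSpace ℝ E] [FiniteDimensional ℝ E]
  {n : ℕ} {X : Set E} {o a b φ ψ : E → Ext E}

theorem cl_zero : Cl X (0 : E → Ext E) := fun x _ => by rw [d_zero', Pi.zero_apply, map_zero]

theorem cl_inv (ha : Sm X a) (h : Cl X a) : Cl X fun x => F.inv (a x) := fun x hx => by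
  rw [CW.d_inv (ha.diff hx), map_neg, pb_inv, h x hx, map_zero, neg_zero]

theorem sm_sum {ι : Type*} (s : Finset ι) {w : ι → E → Ext E} (h : ∀ i ∈ s, Sm X (w i)) :
    Sm X (∑ i ∈ s, w i) :=
  Finset.sum_induction w (Sm X) (fun _ _ => Sm.add) Sm.zero h

theorem cl_sum {ι : Type*} (s : Finset ι) {w : ι → E → Ext E} (h : ∀ i ∈ s, Sm X (w i))
    (h' : ∀ i ∈ s, Cl X (w i)) : Cl X (∑ i ∈ s, w i) :=
  (Finset.sum_induction w (fun a => Sm X a ∧ Cl X a)
    (fun _ _ h1 h2 => ⟨h1.1.add h2.1, Cl.add h1.1 h2.1 h1.2 h2.2⟩) ⟨Sm.zero, cl_zero⟩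
    fun i hi => ⟨h i hi, h' i hi⟩).2

theorem eqv_sum {ι : Type*} (s : Finset ι) {w w' : ι → E → Ext E}
    (h : ∀ i ∈ s, Eqv X (w i) (w' i)) : Eqv X (∑ i ∈ s, w i) (∑ i ∈ s, w' i) :=
  eqv_iff.2 fun x hx => by
    rw [Finset.sum_apply, Finset.sum_apply, map_sum, map_sum]
    exact Finset.sum_congr rfl fun i hi => eqv_iff.1 (h i hi) x hx

theorem coh_sum {ι : Type*} (s : Finset ι) {w w' : ι → E → Ext E}
    (h : ∀ i ∈ s, Coh X (w i) (w' i)) : Coh X (∑ i ∈ s, w i) (∑ i ∈ s, w' i) := by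
  classical
  induction s using Finset.induction_on with
  | empty => exact Coh.refl _
  | insert i s hi ih =>
    rw [Finset.sum_insert hi, Finset.sum_insert hi]
    exact (h i (Finset.mem_insert_self _ _)).add
      (ih fun j hj => h j (Finset.mem_insert_of_mem hj))

theorem coh_iff_sub : Coh X a b ↔ Coh X (a - b) 0 := by
  simp only [Coh, sub_zero]

theorem coh_d (ha : Sm X a) : Coh X (d a) 0 := ⟨a, ha, by rw [sub_zero]; exact Eqv.refl _⟩

theorem coh_mul_left {c : E → Ext E} (hc : Sm X c) (hcc : Cl X c) (h : Coh X a b) :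
    Coh X (c * a) (c * b) := by
  obtain ⟨ξ, h1, h2⟩ := h
  refine ⟨(fun x => F.inv (c x)) * ξ, hc.inv.mul h1, ?_⟩
  rw [← mul_sub]
  refine ((Eqv.refl c).mul h2).trans (Eqv.symm ((d_mul_eqv hc.inv h1).trans ?_))
  have := ((resZero_iff.1 (cl_inv hc hcc)).mul (Eqv.refl ξ)).add (Eqv.refl (c * d ξ))
  rw [zero_mul, zero_add] at this
  simpa only [F.inv_inv] using this

/-- forms of degree larger than the dimension vanish -/
theorem resZero_of_hom (hX : Sub n X) {j : ℕ} (h : Hom j a) (hj : n < j) : ResZero X a :=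
  fun x hx => ((h x).pb _).eq_zero (by rw [hX.finrank_Tan hx]; exact hj)

theorem sum_dp (a : E → Ext E) : ∑ j ∈ Finset.range (finrank ℝ E + 1), dp j a = a :=
  funext fun x => by rw [Finset.sum_apply]; exact sum_dpl (a x)

theorem eqv_sum_dp (hX : Sub n X) (a : E → Ext E) :
    Eqv X (∑ j ∈ Finset.range (n + 1), dp j a) a := by
  refine eqv_iff.2 fun x hx => ?_
  rw [Finset.sum_apply, map_sum]
  have := sum_dpl (pb (Tan X x).subtype (a x))
  rw [hX.finrank_Tan hx] at this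
  rw [← this]
  exact Finset.sum_congr rfl fun j _ => (dpl_pb _ _ _).symm

/-- only the complementary degree pairs with a homogeneous form -/
theorem J_dp_mul (hX : Clo n X) (ho : Ori n X o) (sa : Sm X a) (sb : Sm X b) {k : ℕ}
    (hb : Hom k b) (hk : k ≤ n) : J n X o (dp (n - k) a * b) = J n X o (a * b) := by
  rw [← J_eqv hX ((eqv_sum_dp hX.sub a).mul (Eqv.refl b)), Finset.sum_mul,
    J_sum' hX ho _ fun j _ => (sa.dp j).mul sb, Finset.sum_eq_single (n - k)]
  · exact fun j _ hj => J_hom_ne hX ((hom_dp j a).mul hb) (by omega)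
  · exact fun h => absurd (Finset.mem_range.2 (by omega)) h

variable (X) in
/-- closed forms -/
def Zr : Submodule ℝ (E → Ext E) where
  carrier := {a | Sm X a ∧ Cl X a}
  add_mem' h1 h2 := ⟨h1.1.add h2.1, Cl.add h1.1 h2.1 h1.2 h2.2⟩
  zero_mem' := ⟨Sm.zero, cl_zero⟩
  smul_mem' r _ h := ⟨h.1.smul r, Cl.smul r h.1 h.2⟩

variable (X) in
/-- exact forms -/
def Br : Submodule ℝ (Zr X) where
  carrier := {a | Coh X a.1 0}
  add_mem' {a b} h1 h2 := by
    have := Coh.add h1 h2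
    rw [add_zero] at this
    exact this
  zero_mem' := Coh.refl _
  smul_mem' r a h := by
    have := Coh.smul r h
    rw [smul_zero] at this
    exact this

variable (X) in
/-- real de Rham cohomology -/
abbrev HR : Type u := Zr X ⧸ Br X

theorem mk_eq_iff {a b : Zr X} : (Br X).mkQ a = (Br X).mkQ b ↔ Coh X a.1 b.1 := by
  rw [Submodule.mkQ_apply, Submodule.mkQ_apply, Submodule.Quotient.eq]
  exact coh_iff_sub.symm

/-- the pairing on closed forms -/
def pairZ (hX : Clo n X) (ho : Ori n X o) : Zr X →ₗ[ℝ] Zr X →ₗ[ℝ] ℝ :=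
  LinearMap.mk₂ ℝ (fun a b => J n X o (a.1 * b.1))
    (fun a a' b => by
      rw [Submodule.coe_add, add_mul, J_add' hX ho (a.2.1.mul b.2.1) (a'.2.1.mul b.2.1)])
    (fun r a b => by rw [Submodule.coe_smul, smul_mul_assoc, J_smul', smul_eq_mul])
    (fun a b b' => by
      rw [Submodule.coe_add, mul_add, J_add' hX ho (a.2.1.mul b.2.1) (a.2.1.mul b'.2.1)])
    (fun r a b => by rw [Submodule.coe_smul, mul_smul_comm, J_smul', smul_eq_mul])

theorem J_mul_coh_left (hX : Clo n X) (ho : Ori n X o) {a' : E → Ext E} (sa : Sm X a)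
    (sa' : Sm X a') (h : Coh X a a') (sb : Sm X b) (cb : Cl X b) :
    J n X o (a * b) = J n X o (a' * b) :=
  J_coh hX ho (sa.mul sb) (sa'.mul sb) (h.mul_right sb cb)

theorem J_mul_coh_right (hX : Clo n X) (ho : Ori n X o) {b' : E → Ext E} (sa : Sm X a)
    (ca : Cl X a) (sb : Sm X b) (sb' : Sm X b') (h : Coh X b b') :
    J n X o (a * b) = J n X o (a * b') :=
  J_coh hX ho (sa.mul sb) (sa.mul sb') (coh_mul_left sa ca h)

/-- the pairing on cohomology -/
def pair (hX : Clo n X) (ho : Ori n X o) : HR X →ₗ[ℝ] Module.Dual ℝ (HR X) :=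
  (pairZ hX ho).liftQ₂ (Br X) (Br X)
    (fun a ha => LinearMap.ext fun b => by
      have := J_mul_coh_left hX ho a.2.1 Sm.zero ha b.2.1 b.2.2
      rwa [zero_mul, J_zero'] at this)
    (fun b hb => LinearMap.ext fun a => by
      have := J_mul_coh_right hX ho a.2.1 a.2.2 b.2.1 Sm.zero hb
      rwa [mul_zero, J_zero'] at this)

theorem pair_mk (hX : Clo n X) (ho : Ori n X o) (a b : Zr X) :
    pair hX ho ((Br X).mkQ a) ((Br X).mkQ b) = J n X o (a.1 * b.1) := rfl

/-- **Poincare duality** -/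
theorem pair_bijective (hX : Clo n X) (ho : Ori n X o) : Function.Bijective (pair hX ho) := by
  constructor
  · rw [injective_iff_map_eq_zero]
    intro x hx
    obtain ⟨a, rfl⟩ := (Br X).mkQ_surjective x
    refine (Submodule.Quotient.mk_eq_zero _).2 (pd_inj hX ho a.2.1 fun φ h1 h2 => ?_)
    exact LinearMap.congr_fun hx ((Br X).mkQ ⟨φ, h1, h2⟩)
  · intro l
    let g : Zr X →ₗ[ℝ] ((x : X) → Ext (Tan X (x : E))) := res X ∘ₗ (Zr X).subtype
    have h1 : l ∘ₗ (Br X).mkQ ∈ (LinearMap.ker g).dualAnnihilator := by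
      rw [Submodule.mem_dualAnnihilator]
      intro a ha
      have : (Br X).mkQ a = 0 := (Submodule.Quotient.mk_eq_zero _).2
        (Coh.of_eqv (res_eq_iff.1 (by rw [map_zero]; exact ha)))
      rw [LinearMap.comp_apply, this, map_zero]
    rw [← LinearMap.range_dualMap_eq_dualAnnihilator_ker] at h1
    obtain ⟨S, hS⟩ := h1
    have hS' : ∀ a : Zr X, S (res X a.1) = l ((Br X).mkQ a) := fun a => LinearMap.congr_fun hS a
    obtain ⟨a, sa, ca, h⟩ := pd_surj hX ho (T := fun φ => S (res X φ))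
      ⟨fun φ ψ _ _ => by rw [map_add, map_add],
        fun r φ _ => by rw [map_smul, map_smul, smul_eq_mul],
        fun φ ψ _ _ h => by rw [res_eq_iff.2 h]⟩ fun φ hφ => by
      have : (Br X).mkQ ⟨d φ, hφ.d, d_d' hφ⟩ = 0 :=
        (Submodule.Quotient.mk_eq_zero _).2 (coh_d hφ)
      rw [hS' ⟨d φ, hφ.d, d_d' hφ⟩, this, map_zero]
    refine ⟨(Br X).mkQ ⟨a, sa, ca⟩, LinearMap.ext fun x => ?_⟩
    obtain ⟨b, rfl⟩ := (Br X).mkQ_surjective x
    rw [pair_mk, ← h b.1 b.2.1 b.2.2, hS']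

theorem finite_HR (hX : Clo n X) (ho : Ori n X o) : FiniteDimensional ℝ (HR X) :=
  Basis.linearEquiv_dual_iff_finiteDimensional.1
    ⟨LinearEquiv.ofBijective (pair hX ho) (pair_bijective hX ho)⟩

/-- homogeneous dual bases of the cohomology -/
structure PDB (n : ℕ) (X : Set E) (o : E → Ext E) {ι : Type} [Fintype ι] [DecidableEq ι]
    (deg : ι → ℕ) (e f : ι → E → Ext E) : Prop where
  le : ∀ i, deg i ≤ n
  se : ∀ i, Sm X (e i)
  ce : ∀ i, Cl X (e i)
  he : ∀ i, Hom (deg i) (e i)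
  sf : ∀ i, Sm X (f i)
  cf : ∀ i, Cl X (f i)
  hf : ∀ i, Hom (n - deg i) (f i)
  dual : ∀ i j, J n X o (f i * e j) = if i = j then 1 else 0
  span : ∀ a, Sm X a → Cl X a → Coh X a (∑ i, J n X o (f i * a) • e i)

theorem span_hom (hX : Sub n X) : Submodule.span ℝ
    {x : HR X | ∃ (k : ℕ) (a : Zr X), k ≤ n ∧ Hom k a.1 ∧ (Br X).mkQ a = x} = ⊤ := by
  refine eq_top_iff.2 fun x _ => ?_
  obtain ⟨a, rfl⟩ := (Br X).mkQ_surjective x
  let c : ℕ → Zr X := fun j => ⟨dp j a.1, a.2.1.dp j, Cl.dp j a.2.1 a.2.2⟩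
  have : (Br X).mkQ a = ∑ j ∈ Finset.range (n + 1), (Br X).mkQ (c j) := by
    rw [← map_sum, mk_eq_iff, Submodule.coe_sum]
    exact Coh.of_eqv (eqv_sum_dp hX a.1).symm
  rw [this]
  refine Submodule.sum_mem _ fun j hj => Submodule.subset_span ?_
  have h1 : Hom j (c j).1 := hom_dp j a.1
  exact ⟨j, c j, Nat.lt_succ_iff.1 (Finset.mem_range.1 hj), h1, rfl⟩

theorem exists_hbasis (hX : Clo n X) (ho : Ori n X o) :
    ∃ (N : ℕ) (B : Basis (Fin N) ℝ (HR X)) (deg : Fin N → ℕ) (e : Fin N → Zr X),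
      (∀ i, deg i ≤ n) ∧ (∀ i, Hom (deg i) (e i).1) ∧ ∀ i, (Br X).mkQ (e i) = B i := by
  classical
  have := finite_HR hX ho
  obtain ⟨s, hs, h1, h2⟩ := exists_linearIndependent ℝ
    {x : HR X | ∃ (k : ℕ) (a : Zr X), k ≤ n ∧ Hom k a.1 ∧ (Br X).mkQ a = x}
  let B₀ : Basis s ℝ (HR X) := Basis.mk h2 (by rw [Subtype.range_coe, h1, span_hom hX.sub])
  have : Fintype s := FiniteDimensional.fintypeBasisIndex B₀
  have hB : ∀ i, ∃ (k : ℕ) (a : Zr X), k ≤ n ∧ Hom k a.1 ∧
      (Br X).mkQ a = B₀.reindex (Fintype.equivFin s) i := fun i => by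
    rw [Basis.reindex_apply, Basis.mk_apply]
    exact hs (Subtype.prop _)
  choose deg e hd he hb using hB
  exact ⟨_, _, deg, e, hd, he, hb⟩

theorem exists_dual (hX : Clo n X) (ho : Ori n X o) (l : Module.Dual ℝ (HR X)) :
    ∃ g : Zr X, ∀ a : Zr X, J n X o (g.1 * a.1) = l ((Br X).mkQ a) := by
  obtain ⟨y, hy⟩ := (pair_bijective hX ho).2 l
  obtain ⟨g, rfl⟩ := (Br X).mkQ_surjective y
  exact ⟨g, fun a => by rw [← pair_mk hX ho, hy]⟩

theorem exists_pdb (hX : Clo n X) (ho : Ori n X o) :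
    ∃ (N : ℕ) (deg : Fin N → ℕ) (e f : Fin N → E → Ext E), PDB n X o deg e f := by
  obtain ⟨N, B, deg, e, hd, he, hb⟩ := exists_hbasis hX ho
  choose g key using fun i => exists_dual hX ho (B.coord i)
  have dual : ∀ i j, J n X o (dp (n - deg i) (g i).1 * (e j).1) = if i = j then 1 else 0 := by
    intro i j
    by_cases h : deg i = deg j
    · rw [h, J_dp_mul hX ho (g i).2.1 (e j).2.1 (he j) (hd j), key, hb, Basis.coord_apply,
        Basis.repr_self, Finsupp.single_apply]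
      simp only [eq_comm]
    · have := hd i
      have := hd j
      rw [J_hom_ne hX ((hom_dp _ _).mul (he j)) (by omega), if_neg fun h' => h (by rw [h'])]
  refine ⟨N, deg, fun i => (e i).1, fun i => dp (n - deg i) (g i).1, hd, fun i => (e i).2.1,
    fun i => (e i).2.2, he, fun i => (g i).2.1.dp _, fun i => Cl.dp _ (g i).2.1 (g i).2.2,
    fun i => hom_dp _ _, dual, fun a sa ca => ?_⟩
  obtain ⟨c, h3⟩ : ∃ c : Fin N → ℝ, Coh X a (∑ i, c i • (e i).1) := by
    refine ⟨fun i => B.repr ((Br X).mkQ ⟨a, sa, ca⟩) i, ?_⟩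
    have h4 : (Br X).mkQ ⟨a, sa, ca⟩ =
        (Br X).mkQ (∑ i, B.repr ((Br X).mkQ ⟨a, sa, ca⟩) i • e i) := by
      rw [map_sum]
      simp only [map_smul, hb]
      exact (B.sum_repr _).symm
    have := mk_eq_iff.1 h4
    rw [Submodule.coe_sum] at this
    exact this
  have h5 : ∀ i, J n X o (dp (n - deg i) (g i).1 * a) = c i := fun i => by
    rw [J_mul_coh_right hX ho ((g i).2.1.dp _) (Cl.dp _ (g i).2.1 (g i).2.2) sa
      (sm_sum _ fun j _ => (e j).2.1.smul _) h3, Finset.mul_sum,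
      J_sum' hX ho _ fun j _ => ((g i).2.1.dp _).mul ((e j).2.1.smul _)]
    simp only [mul_smul_comm, J_smul', dual, mul_ite, mul_one, mul_zero, Finset.sum_ite_eq,
      Finset.mem_univ, if_true]
  simp only [h5]
  exact h3

namespace PDB

variable {ι : Type} [Fintype ι] [DecidableEq ι] {deg : ι → ℕ} {e f : ι → E → Ext E}

theorem J_comb (hX : Clo n X) (ho : Ori n X o) (h : PDB n X o deg e f) (c : ι → ℝ) (i : ι) :
    J n X o (f i * ∑ j, c j • e j) = c i := by
  rw [Finset.mul_sum, J_sum' hX ho _ fun j _ => (h.sf i).mul ((h.se j).smul _)]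
  simp only [mul_smul_comm, J_smul', h.dual, mul_ite, mul_one, mul_zero, Finset.sum_ite_eq,
    Finset.mem_univ, if_true]

/-- independence -/
theorem indep (hX : Clo n X) (ho : Ori n X o) (h : PDB n X o deg e f) {c : ι → ℝ}
    (hc : Coh X (∑ j, c j • e j) 0) (i : ι) : c i = 0 := by
  rw [← h.J_comb hX ho c i, J_mul_coh_right hX ho (h.sf i) (h.cf i)
    (sm_sum _ fun j _ => (h.se j).smul _) Sm.zero hc, mul_zero, J_zero']

/-- the dual family is a basis too -/
theorem span' (hX : Clo n X) (ho : Ori n X o) (h : PDB n X o deg e f) (sa : Sm X a)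
    (ca : Cl X a) : Coh X a (∑ i, J n X o (a * e i) • f i) := by
  have s1 : Sm X (∑ i, J n X o (a * e i) • f i) := sm_sum _ fun j _ => (h.sf j).smul _
  have c1 : Cl X (∑ i, J n X o (a * e i) • f i) :=
    cl_sum _ (fun j _ => (h.sf j).smul _) fun j _ => Cl.smul _ (h.sf j) (h.cf j)
  refine coh_iff_sub.2 (pd_inj hX ho (sa.sub s1) fun φ sφ cφ => ?_)
  rw [sub_mul, J_sub' hX ho (sa.mul sφ) (s1.mul sφ), sub_eq_zero,
    J_mul_coh_right hX ho sa ca sφ (sm_sum _ fun j _ => (h.se j).smul _) (h.span φ sφ cφ),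
    Finset.mul_sum, Finset.sum_mul, J_sum' hX ho _ fun j _ => sa.mul ((h.se j).smul _),
    J_sum' hX ho _ fun j _ => ((h.sf j).smul _).mul sφ]
  refine Finset.sum_congr rfl fun j _ => ?_
  rw [mul_smul_comm, smul_mul_assoc, J_smul', J_smul', mul_comm]

/-- expansion of the pairing -/
theorem J_expand (hX : Clo n X) (ho : Ori n X o) (h : PDB n X o deg e f) (sa : Sm X a)
    (ca : Cl X a) (sb : Sm X b) (cb : Cl X b) :
    J n X o (a * b) = ∑ i, J n X o (a * e i) * J n X o (f i * b) := by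
  rw [J_mul_coh_right hX ho sa ca sb (sm_sum _ fun j _ => (h.se j).smul _) (h.span b sb cb),
    Finset.mul_sum, J_sum' hX ho _ fun j _ => sa.mul ((h.se j).smul _)]
  refine Finset.sum_congr rfl fun j _ => ?_
  rw [mul_smul_comm, J_smul', mul_comm]

end PDB

end Crest.Agent.X262.PD
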