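import Crest.Agent.X262.PD.Prd
import Crest.Agent.X262.Hb.DiagD
import Crest.Agent.X262.Vb.Bas0

/-!
# Row 262, road B, PD (helper97): the Kuenneth formula for `dgc`

* `PtP B T y₀` : `dgc (y₁, y)` at an independent generic point `y` integrates to evaluation at `y₁`;
* `DgcP B T`   : `dgc` is a class on the square of the target;
* `diag_of_pt` : `Dlt`, `PtP`, `DgcP` give `Vb.Diag`.
-/

set_option autoImplicit false
set_option linter.unusedSectionVars false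

noncomputable section

namespace Crest.Agent.X262.PD.Dg

open Crest.Agent.X277 Crest.Agent.X277.BD Crest.Agent.X277.Pst Crest.Agent.X277.BD.Cyc
open Crest.Agent.X262.Hb Crest.Agent.X262.Vb Crest.Agent.X262.PD.Pr
open Crest.Agent.X262.Node22 (scl)

variable {J : Type} [Fintype J] [DecidableEq J] {io : J → Type} [∀ j, Fintype (io j)]
  [∀ j, DecidableEq (io j)] {A : Type} [Fintype A] (B : Th) (T : Tgt io A)
  {K : Type} [Field K] [Algebra ℂ K]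

/-- `dgc (y₁, y)`, `y` an independent generic point, is dual to the point `y₁` -/
def PtP (y₀ : Pnt io K) : Prop :=
  ∀ (F L : Type) [Field F] [Algebra ℂ F] [Algebra.EssFiniteType ℂ F] [Field L] [Algebra ℂ L]
    [Algebra.EssFiniteType ℂ L] (β : F →ₐ[ℂ] L) (γ : K →ₐ[ℂ] L), Prd β γ →
    ∀ Ψ : MFam B io (Fin 2), MCls B T Ψ → ∀ y₁ w : Pnt io F, NZ y₁ → T.On y₁ → NZ w → T.On w →
    ∀ x : B.H F, B.itg L (B.pb (LP.hom β) x * dgc B T (mpt β y₁) (mpt γ y₀) *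
      Ψ L ![mpt β w, mpt γ y₀]) = B.itg F (x * Ψ F ![w, y₁])

/-- `dgc` is a class on the square of the target -/
def DgcP : Prop := MCls B T (M := Fin 2) fun _ _ _ y => dgc B T (y 0) (y 1)

variable {B T}
variable {E F : Type} [Field E] [Algebra ℂ E] [Algebra.EssFiniteType ℂ E] [Field F] [Algebra ℂ F]
  [Algebra.EssFiniteType ℂ F]

theorem nz_mpt (α : E →ₐ[ℂ] F) {y : Pnt io E} (h : NZ y) : NZ (mpt α y) := (nz_map α).2 h

theorem on_mpt (α : E →ₐ[ℂ] F) {y : Pnt io E} (h : T.On y) : T.On (mpt α y) := (on_map T α).2 h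

theorem mpt_comp {L : Type} [Field L] [Algebra ℂ L] (α : E →ₐ[ℂ] F) (β : F →ₐ[ℂ] L)
    (y : Pnt io E) : mpt β (mpt α y) = mpt (β.comp α) y := rfl

theorem cls_hom {e : Fam B io} (he : Cls B T e) (α : E →ₐ[ℂ] F) {y : Pnt io E} (h : NZ y)
    (hO : T.On y) : B.pb (LP.hom α) (e E y) = e F (mpt α y) := by
  rw [he.nat E F _ y (prim_hom α h) hO, redP_hom]
  rfl

theorem mcls_snd {e : Fam B io} (he : Cls B T e) : MCls B T (M := Fin 2) fun E _ _ y => e E (y 1) :=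
  ⟨fun E _ _ _ y c h1 h2 h3 => he.scl E (y 1) (c 1) (h1 1) (h2 1) (h3 1),
    fun K E _ _ _ _ _ _ p y h1 h2 => he.nat K E p (y 1) (h1 1) (h2 1)⟩

namespace DgcP

variable (hg : DgcP B T) {y y' : Pnt io E}
include hg

theorem red (p : LP E F) (h : Prim p.V y) (h' : Prim p.V y') (hO : T.On y) (hO' : T.On y') :
    B.pb p (dgc B T y y') = dgc B T (redP p.toPl y) (redP p.toPl y') :=
  hg.nat E F p ![y, y'] (Fin.forall_fin_two.2 ⟨h, h'⟩) (Fin.forall_fin_two.2 ⟨hO, hO'⟩)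

theorem hom (α : E →ₐ[ℂ] F) (h : NZ y) (h' : NZ y') (hO : T.On y) (hO' : T.On y') :
    B.pb (LP.hom α) (dgc B T y y') = dgc B T (mpt α y) (mpt α y') := by
  rw [hg.red _ (prim_hom α h) (prim_hom α h') hO hO', redP_hom, redP_hom]
  rfl

theorem smul {c c' : J → E} (hc : ∀ j, c j ≠ 0) (hc' : ∀ j, c' j ≠ 0) (h : NZ y) (h' : NZ y')
    (hO : T.On y) (hO' : T.On y') : dgc B T (scl c y) (scl c' y') = dgc B T y y' :=
  hg.scl E ![y, y'] ![c, c'] (Fin.forall_fin_two.2 ⟨hc, hc'⟩) (Fin.forall_fin_two.2 ⟨h, h'⟩)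
    (Fin.forall_fin_two.2 ⟨hO, hO'⟩)

/-- the classes at two points with the same reduction have the same restriction -/
theorem meet (p : LP E F) {w : Pnt io E} (hw : NZ w) (h : NZ y) (h' : NZ y') (hOw : T.On w)
    (hO : T.On y) (hO' : T.On y') (hm : Meet p.V y y') :
    B.pb p (dgc B T w y') = B.pb p (dgc B T w y) := by
  obtain ⟨c, c', h1, h2, h3⟩ := hm
  change Prim p.V (scl c y) at h1
  change Prim p.V (scl c' y') at h2
  choose d hd using fun j => p.V.exists_v ((ln w j).val p.V)⁻¹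
  have h4 : Prim p.V (scl d w) := prim_scl hw hd
  have key : ∀ {c : J → E} {y : Pnt io E}, Prim p.V (scl c y) → ∀ j, c j ≠ 0 := fun h j =>
    (h.nz j).elim fun _ hi => left_ne_zero_of_mul hi
  have h5 : redP p.toPl (scl c' y') = redP p.toPl (scl c y) := by
    funext j i
    have h6 := (Pl.r_eq_zero (p := p.toPl) (sub_mem ((h1 j).1 i) ((h2 j).1 i))).2 (h3 j i)
    rw [Pl.r_sub ((h1 j).1 i) ((h2 j).1 i), sub_eq_zero] at h6
    exact h6.symm
  rw [← hg.smul (key h4) (key h2) hw h' hOw hO', ← hg.smul (key h4) (key h1) hw h hOw hO,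
    hg.red p h4 h2 ((on_scl_iff T (key h4)).2 hOw) ((on_scl_iff T (key h2)).2 hO'),
    hg.red p h4 h1 ((on_scl_iff T (key h4)).2 hOw) ((on_scl_iff T (key h1)).2 hO), h5]

end DgcP

theorem diag_of_pt (hB : B.Ax) [Algebra.EssFiniteType ℂ K] {y₀ : Pnt io K} (h0 : NZ y₀)
    (hO : T.On y₀) {ι : Type} [Fintype ι] {e e' : ι → Fam B io} (he : ∀ l, Cls B T (e l))
    (he' : ∀ l, Cls B T (e' l))
    {δ : ∀ (L : Type) [Field L] [Algebra ℂ L], (K →ₐ[ℂ] L) → (K →ₐ[ℂ] L) → B.H L}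
    (hD : Dlt B y₀ (fun l => e l K y₀) (fun l => e' l K y₀) δ)
    (h1 : ∑ l, B.itg K (e' l K y₀) • e l K y₀ = 1) (hp : PtP B T y₀) (hg : DgcP B T) :
    Diag B T e e' := by
  intro K₁ K₂ L _ _ _ _ _ _ _ _ _ α₁ α₂ hL y₁ y₂ n₁ o₁ n₂ o₂ x₁ x₂
  obtain ⟨M, _, _, _, β, γ, hM⟩ := exists_prd L K
  obtain ⟨N, _, _, _, μ, γ', hN⟩ := exists_prd M K
  obtain ⟨p₁, p₂, p₃⟩ := prd_split (a := μ.comp (β.comp α₁)) (b := μ.comp γ)
    (c := μ.comp (β.comp α₂)) (d := γ') (by rw [hN.1, hM.1, hL.1]; ring) (by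
      rw [cps, cps, sup_sup_sup_comm, ← AlgHom.map_fieldRange (β.comp α₁),
        ← AlgHom.map_fieldRange (β.comp α₂), ← AlgHom.map_fieldRange γ, ← sup_assoc,
        ← IntermediateField.map_sup, ← IntermediateField.map_sup, ← AlgHom.map_fieldRange α₁,
        ← AlgHom.map_fieldRange α₂, ← IntermediateField.map_sup, hL.2,
        ← AlgHom.fieldRange_eq_map, hM.2, ← AlgHom.fieldRange_eq_map, hN.2])
  -- (a) the right hand side
  have ha := hD.kun _ _ N _ _ p₃ (inr _ _) (inr _ _)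
    (B.pb (LP.hom (inl _ _)) x₁ * dgc B T (mpt (inl _ _) y₁) (mpt (inr _ _) y₀))
    (B.pb (LP.hom (inl _ _)) x₂ * dgc B T (mpt (inl _ _) y₂) (mpt (inr _ _) y₀))
  simp only [cls_hom (he _) _ h0 hO, cls_hom (he' _) _ h0 hO] at ha
  have ha1 := fun l => hp K₁ _ _ _ p₁ _ (mcls_snd (he l)) y₁ y₁ n₁ o₁ n₁ o₁ x₁
  have ha2 := fun l => hp K₂ _ _ _ p₂ _ (mcls_snd (he' l)) y₂ y₂ n₂ o₂ n₂ o₂ x₂
  simp only [Matrix.cons_val_one, Matrix.cons_val_zero] at ha1 ha2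
  simp only [ha1, ha2] at ha
  rw [map_mul (B.pb _), map_mul (B.pb _), hB.pb_hom_hom, hB.pb_hom_hom,
    hg.hom _ (nz_mpt _ n₁) (nz_mpt _ h0) (on_mpt _ o₁) (on_mpt _ hO),
    hg.hom _ (nz_mpt _ n₂) (nz_mpt _ h0) (on_mpt _ o₂) (on_mpt _ hO), mpt_comp, mpt_comp,
    mpt_comp, mpt_comp, val_inl, val_inl, val_inr, val_inr] at ha
  -- (b) the left hand side
  have n₁' := nz_mpt α₁ n₁
  have n₂' := nz_mpt α₂ n₂
  have o₁' := on_mpt α₁ o₁
  have o₂' := on_mpt α₂ o₂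
  have hb := hp L M β γ hM _ hg _ _ n₂' o₂' n₁' o₁'
    (B.pb (LP.hom α₁) x₁ * B.pb (LP.hom α₂) x₂)
  simp only [Matrix.cons_val_one, Matrix.cons_val_zero] at hb
  have hc := hD.kun M K N μ γ' hN γ (AlgHom.id ℂ K)
    (B.pb (LP.hom β) (B.pb (LP.hom α₁) x₁ * B.pb (LP.hom α₂) x₂) *
      dgc B T (mpt β (mpt α₂ y₂)) (mpt γ y₀) * dgc B T (mpt β (mpt α₁ y₁)) (mpt γ y₀)) 1
  have hd : ∀ z : B.H M, ∑ l, B.itg M (z * B.pb (LP.hom γ) (e l K y₀)) * B.itg K (e' l K y₀) =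
      B.itg M z := fun z => by
    conv_rhs => rw [← mul_one z, ← map_one (B.pb (LP.hom γ)), ← h1]
    simp only [map_sum, map_smul, Finset.mul_sum, mul_smul_comm, smul_eq_mul, mul_comm]
  simp only [hB.pb_id, one_mul, hd, map_one, mul_one, AlgHom.comp_id] at hc
  have hs := hD.sup M K N μ γ' hN γ (AlgHom.id ℂ K)
    (B.pb (LP.hom (μ.comp (β.comp α₁))) x₁ * B.pb (LP.hom (μ.comp (β.comp α₂))) x₂ *
      dgc B T (mpt (μ.comp (β.comp α₁)) y₁) (mpt (μ.comp γ) y₀) *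
      (dgc B T (mpt (μ.comp (β.comp α₂)) y₂) (mpt γ' y₀) -
        dgc B T (mpt (μ.comp (β.comp α₂)) y₂) (mpt (μ.comp γ) y₀))) fun E _ _ _ p hm => by
      rw [AlgHom.comp_id] at hm
      rw [map_mul, map_sub, hg.meet p (nz_mpt _ n₂) (nz_mpt _ h0) (nz_mpt _ h0) (on_mpt _ o₂)
        (on_mpt _ hO) (on_mpt _ hO) hm, sub_self, mul_zero]
  rw [mul_sub, sub_mul, map_sub, sub_eq_zero, AlgHom.comp_id] at hs
  rw [hb, map_mul (B.pb _), map_mul (B.pb _), map_mul (B.pb _), map_mul (B.pb _), hB.pb_hom_hom,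
    hB.pb_hom_hom, hB.pb_hom_hom, hB.pb_hom_hom,
    hg.hom _ (nz_mpt _ n₁') (nz_mpt _ h0) (on_mpt _ o₁') (on_mpt _ hO),
    hg.hom _ (nz_mpt _ n₂') (nz_mpt _ h0) (on_mpt _ o₂') (on_mpt _ hO)] at hc
  simp only [mpt_comp, AlgHom.comp_assoc] at hc
  rw [← ha]
  refine hc.symm.trans ((congrArg _ ?_).trans (hs.symm.trans (congrArg _ ?_))) <;> ring

end Crest.Agent.X262.PD.Dg
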