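import Crest.Agent.R208.GP4a

/-!
# Row 262, PD (helper97): an abstract Mayer-Vietoris induction for germs

`Fine E M` : a complex `D` on a group `M` with admissible elements `Sm U` and null elements `Nu U`
for the open sets `U` of `E`, and multiplication by smooth functions.  `Ex K` : exactness of the
germs along `K`.  `ex_compact`: exactness along the images of compact convex sets under charts of
`X` implies exactness along every compact subset of `X`.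
-/

set_option autoImplicit false
set_option linter.unusedSectionVars false

open Set Filter Topology Module
open scoped ContDiff
open Crest.Agent.R208.F Crest.Agent.R208.FI

noncomputable section

namespace Crest.Agent.X262.PD

variable {E : Type*} [NormedAddCommGroup E] [NormedSpace ℝ E] [FiniteDimensional ℝ E]

/-- `χ` vanishes near the points of `U'` outside `U` -/
def Off (χ : E → ℝ) (U' U : Set E) : Prop := ∀ x ∈ U', x ∉ U → ∀ᶠ y in 𝓝 x, χ y = 0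

variable (E) in
/-- a complex with partitions of unity -/
structure Fine (M : Type*) [AddCommGroup M] where
  /-- admissible on `U` -/
  Sm : Set E → AddSubgroup M
  /-- null on `U` -/
  Nu : Set E → AddSubgroup M
  /-- the differential -/
  D : M → M
  /-- multiplication by functions -/
  mu : (E → ℝ) → M → M
  sm_mono : ∀ {U U' : Set E}, U' ⊆ U → Sm U ≤ Sm U'
  nu_mono : ∀ {U U' : Set E}, U' ⊆ U → Nu U ≤ Nu U'
  D_sm : ∀ {U : Set E} {t : M}, IsOpen U → t ∈ Sm U → D t ∈ Sm U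
  D_nu : ∀ {U : Set E} {t : M}, IsOpen U → t ∈ Sm U → t ∈ Nu U → D t ∈ Nu U
  D_sub : ∀ {U : Set E} {s t : M}, IsOpen U → s ∈ Sm U → t ∈ Sm U → D (s - t) - (D s - D t) ∈ Nu U
  DD : ∀ {U : Set E} {t : M}, IsOpen U → t ∈ Sm U → D (D t) ∈ Nu U
  mu_sm : ∀ {U U' : Set E} {χ : E → ℝ} {t : M}, IsOpen U → IsOpen U' → ContDiff ℝ ∞ χ →
    Off χ U' U → t ∈ Sm U → mu χ t ∈ Sm U'
  mu_nu : ∀ {U U' : Set E} {χ : E → ℝ} {t : M}, IsOpen U → IsOpen U' → ContDiff ℝ ∞ χ →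
    Off χ U' U → t ∈ Sm U → t ∈ Nu U → mu χ t ∈ Nu U'
  mu_sub : ∀ (χ : E → ℝ) (s t : M), mu χ (s - t) = mu χ s - mu χ t
  mu_one : ∀ {U : Set E} {χ : E → ℝ} {t : M}, IsOpen U → ContDiff ℝ ∞ χ → t ∈ Sm U →
    t - (mu χ t + mu (fun x => 1 - χ x) t) ∈ Nu U
  nu_empty : ∀ t ∈ Sm ∅, t ∈ Nu ∅

namespace Fine

variable {M : Type*} [AddCommGroup M] (C : Fine E M)

/-- exactness of the germs along `K` -/
def Ex (K : Set E) : Prop := ∀ U : Set E, IsOpen U → K ⊆ U → ∀ t ∈ C.Sm U, C.D t ∈ C.Nu U →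
  ∃ U' : Set E, IsOpen U' ∧ K ⊆ U' ∧ U' ⊆ U ∧ ∃ s ∈ C.Sm U', t - C.D s ∈ C.Nu U'

theorem ex_empty : C.Ex ∅ := fun _ _ _ _ ht _ =>
  ⟨∅, isOpen_empty, subset_rfl, empty_subset _, 0, zero_mem _, C.nu_empty _
    (sub_mem (C.sm_mono (empty_subset _) ht) (C.D_sm isOpen_empty (zero_mem _)))⟩

theorem off_self (χ : E → ℝ) {U U' : Set E} (h : U' ⊆ U) : Off χ U' U :=
  fun _ hx hx' => absurd (h hx) hx'

variable {C}

theorem D_congr {U : Set E} {s t : M} (hU : IsOpen U) (hs : s ∈ C.Sm U) (ht : t ∈ C.Sm U)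
    (h : s - t ∈ C.Nu U) : C.D s - C.D t ∈ C.Nu U := by
  have h1 := C.D_nu hU (sub_mem hs ht) h
  have h2 := C.D_sub hU hs ht
  have := sub_mem h1 h2
  rwa [sub_sub_cancel] at this

/-- locality of null elements -/
theorem nu_glue {U U₁ U₂ : Set E} {χ : E → ℝ} {t : M} (hU : IsOpen U) (h1 : IsOpen U₁)
    (h2 : IsOpen U₂) (hχ : ContDiff ℝ ∞ χ) (o1 : Off (fun x => 1 - χ x) U U₁) (o2 : Off χ U U₂)
    (hs : t ∈ C.Sm U) (s1 : t ∈ C.Sm U₁) (s2 : t ∈ C.Sm U₂) (n1 : t ∈ C.Nu U₁) (n2 : t ∈ C.Nu U₂) :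
    t ∈ C.Nu U := by
  have a := C.mu_one hU hχ hs
  have b := C.mu_nu h2 hU hχ o2 s2 n2
  have c := C.mu_nu h1 hU (contDiff_const.sub hχ) o1 s1 n1
  have := add_mem a (add_mem b c)
  rwa [sub_add_cancel] at this

/-- **Mayer-Vietoris** -/
theorem Ex.union {K₁ K₂ : Set E} (c1 : IsClosed K₁) (c2 : IsClosed K₂) (e1 : C.Ex K₁)
    (e2 : C.Ex K₂) (e12 : C.Ex (K₁ ∩ K₂)) : C.Ex (K₁ ∪ K₂) := by
  intro U hU hK t ht hD
  obtain ⟨U₁, o1, k1, u1, s₁, hs₁, n1⟩ := e1 U hU (subset_union_left.trans hK) t ht hD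
  obtain ⟨U₂, o2, k2, u2, s₂, hs₂, n2⟩ := e2 U hU (subset_union_right.trans hK) t ht hD
  have o12 : IsOpen (U₁ ∩ U₂) := o1.inter o2
  have hs₁' : s₁ ∈ C.Sm (U₁ ∩ U₂) := C.sm_mono inter_subset_left hs₁
  have hs₂' : s₂ ∈ C.Sm (U₁ ∩ U₂) := C.sm_mono inter_subset_right hs₂
  have hcl : C.D (s₁ - s₂) ∈ C.Nu (U₁ ∩ U₂) := by
    have a := C.D_sub o12 hs₁' hs₂'
    have b := sub_mem (C.nu_mono inter_subset_right n2) (C.nu_mono (U := U₁) inter_subset_left n1)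
    have := add_mem a b
    convert this using 1
    abel
  obtain ⟨W, oW, kW, uW, r, hr, nr⟩ := e12 _ o12 (inter_subset_inter k1 k2) _
    (sub_mem hs₁' hs₂') hcl
  obtain ⟨χ, hχ, z0, z1, -⟩ := R208.GP.exists_cut (c1.sdiff oW) (c2.sdiff oW)
    (disjoint_left.2 fun x h1 h2 => h1.2 (kW ⟨h1.1, h2.1⟩))
  have hχ' : ContDiff ℝ ∞ fun x => 1 - χ x := contDiff_const.sub hχ
  set A : Set E := {x | ∀ᶠ y in 𝓝 x, χ y = 0} with hA
  set B : Set E := {x | ∀ᶠ y in 𝓝 x, χ y = 1} with hB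
  have oA : IsOpen A := isOpen_setOfPred_eventually_nhds
  have oB : IsOpen B := isOpen_setOfPred_eventually_nhds
  have hB' : ∀ x ∈ B, ∀ᶠ y in 𝓝 x, 1 - χ y = 0 := fun x hx =>
    Filter.Eventually.mono hx fun y hy => by rw [hy, sub_self]
  set V₁ : Set E := W ∪ (U₁ ∩ A) with hV₁
  set V₂ : Set E := W ∪ (U₂ ∩ B) with hV₂
  have p1 : IsOpen V₁ := oW.union (o1.inter oA)
  have p2 : IsOpen V₂ := oW.union (o2.inter oB)
  have v1 : V₁ ⊆ U₁ := union_subset (uW.trans inter_subset_left) inter_subset_left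
  have v2 : V₂ ⊆ U₂ := union_subset (uW.trans inter_subset_right) inter_subset_left
  have f1 : Off χ V₁ W := fun x hx hx' => (hx.resolve_left hx').2
  have f2 : Off (fun x => 1 - χ x) V₂ W := fun x hx hx' => hB' x (hx.resolve_left hx').2
  have g1 : Off (fun x => 1 - χ x) (V₁ ∪ V₂) V₁ := fun x hx hx' =>
    f2 x (hx.resolve_left hx') fun h => hx' (Or.inl h)
  have g2 : Off χ (V₁ ∪ V₂) V₂ := fun x hx hx' =>
    f1 x (hx.resolve_right hx') fun h => hx' (Or.inl h)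
  have p12 : IsOpen (V₁ ∪ V₂) := p1.union p2
  -- the difference `s₁ - s₂ = D r + b`, `b` null on `W`
  set b : M := s₁ - s₂ - C.D r with hb
  have sW1 : s₁ ∈ C.Sm W := C.sm_mono uW hs₁'
  have sW2 : s₂ ∈ C.Sm W := C.sm_mono uW hs₂'
  have hbW : b ∈ C.Sm W := sub_mem (sub_mem sW1 sW2) (C.D_sm oW hr)
  have r1 : C.mu χ r ∈ C.Sm V₁ := C.mu_sm oW p1 hχ f1 hr
  have r2 : C.mu (fun x => 1 - χ x) r ∈ C.Sm V₂ := C.mu_sm oW p2 hχ' f2 hr
  set a₁ : M := s₁ - C.D (C.mu χ r) with ha₁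
  set a₂ : M := s₂ - (0 - C.D (C.mu (fun x => 1 - χ x) r)) with ha₂
  have A1 : a₁ ∈ C.Sm V₁ := sub_mem (C.sm_mono v1 hs₁) (C.D_sm p1 r1)
  have A2 : a₂ ∈ C.Sm V₂ := sub_mem (C.sm_mono v2 hs₂) (sub_mem (zero_mem _) (C.D_sm p2 r2))
  have W1 : W ⊆ V₁ := subset_union_left
  have W2 : W ⊆ V₂ := subset_union_left
  have D0 : ∀ {V : Set E}, IsOpen V → C.D 0 ∈ C.Nu V := fun hV =>
    C.D_nu hV (zero_mem _) (zero_mem _)
  -- `a₁ = a₂` on `W`
  have A12 : a₁ - a₂ ∈ C.Nu W := by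
    have q1 := C.sm_mono W1 r1
    have q2 := C.sm_mono W2 r2
    have h1 : C.D (r - C.mu χ r) - C.D (C.mu (fun x => 1 - χ x) r) ∈ C.Nu W := by
      refine D_congr oW (sub_mem hr q1) q2 ?_
      have := C.mu_one oW hχ hr
      convert this using 1
      abel
    have h2 := C.D_sub oW hr q1
    have := add_mem nr (sub_mem h1 h2)
    convert this using 1
    rw [ha₁, ha₂, hb]
    abel
  have T1 : t - C.D a₁ ∈ C.Nu V₁ := by
    have h1 := C.D_sub p1 (C.sm_mono v1 hs₁) (C.D_sm p1 r1)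
    have h2 := C.DD p1 r1
    have := add_mem (sub_mem (C.nu_mono v1 n1) h1) h2
    convert this using 1
    rw [ha₁]
    abel
  have T2 : t - C.D a₂ ∈ C.Nu V₂ := by
    have h0 := C.D_sm p2 r2
    have h1 := C.D_sub p2 (C.sm_mono v2 hs₂) (sub_mem (zero_mem _) h0)
    have h2 := C.DD p2 r2
    have h3 := C.D_sub p2 (zero_mem _) h0
    have := add_mem (add_mem (sub_mem (C.nu_mono v2 n2) h1) (sub_mem h3 h2)) (D0 p2)
    convert this using 1
    rw [ha₂]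
    abel
  -- the glued primitive
  set s : M := C.mu (fun x => 1 - χ x) a₁ + C.mu χ a₂ with hs
  have S : s ∈ C.Sm (V₁ ∪ V₂) :=
    add_mem (C.mu_sm p1 p12 hχ' g1 A1) (C.mu_sm p2 p12 hχ g2 A2)
  have A12s : a₁ - a₂ ∈ C.Sm W := sub_mem (C.sm_mono W1 A1) (C.sm_mono W2 A2)
  have E1 : a₁ - s ∈ C.Nu V₁ := by
    have h1 := C.mu_one p1 hχ A1
    have h2 := C.mu_nu oW p1 hχ f1 A12s A12
    rw [C.mu_sub] at h2
    have := add_mem h1 h2
    convert this using 1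
    rw [hs]
    abel
  have E2 : a₂ - s ∈ C.Nu V₂ := by
    have h1 := C.mu_one p2 hχ A2
    have h2 := C.mu_nu oW p2 hχ' f2 A12s A12
    rw [C.mu_sub] at h2
    have := sub_mem h1 h2
    convert this using 1
    rw [hs]
    abel
  have VU : V₁ ∪ V₂ ⊆ U := union_subset (v1.trans u1) (v2.trans u2)
  refine ⟨V₁ ∪ V₂, p12, ?_, VU, s, S, ?_⟩
  · rintro x (hx | hx)
    · by_cases hW : x ∈ W
      · exact Or.inl (Or.inl hW)
      · exact Or.inl (Or.inr ⟨k1 hx, z0 x ⟨hx, hW⟩⟩)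
    · by_cases hW : x ∈ W
      · exact Or.inl (Or.inl hW)
      · exact Or.inr (Or.inr ⟨k2 hx, z1 x ⟨hx, hW⟩⟩)
  · have G : t - C.D s ∈ C.Sm (V₁ ∪ V₂) := sub_mem (C.sm_mono VU ht) (C.D_sm p12 S)
    refine nu_glue p12 p1 p2 hχ g1 g2 G (C.sm_mono subset_union_left G)
      (C.sm_mono subset_union_right G) ?_ ?_
    · have := add_mem T1 (D_congr p1 A1 (C.sm_mono subset_union_left S) E1)
      rwa [sub_add_sub_cancel] at this
    · have := add_mem T2 (D_congr p2 A2 (C.sm_mono subset_union_right S) E2)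
      rwa [sub_add_sub_cancel] at this

/-- finite unions of members of a family closed under intersections -/
theorem ex_biUnion {G : Set E → Prop} (hc : ∀ K, G K → IsClosed K)
    (hi : ∀ K K', G K → G K' → G (K ∩ K')) (he : ∀ K, G K → C.Ex K) (m : ℕ) :
    ∀ K : Fin m → Set E, (∀ i, G (K i)) → C.Ex (⋃ i, K i) := by
  induction m with
  | zero => intro K _; rw [iUnion_of_empty]; exact C.ex_empty
  | succ m ih =>
    intro K hK
    have h1 : ⋃ i, K i = K 0 ∪ ⋃ i : Fin m, K i.succ := by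
      ext x
      simp only [mem_iUnion, mem_union, Fin.exists_fin_succ]
    rw [h1]
    refine Ex.union (hc _ (hK 0)) (isClosed_iUnion_of_finite fun i => hc _ (hK _)) (he _ (hK 0))
      (ih _ fun i => hK _) ?_
    rw [inter_iUnion]
    exact ih _ fun i => hi _ _ (hK 0) (hK _)

theorem ex_finite {G : Set E → Prop} (hc : ∀ K, G K → IsClosed K)
    (hi : ∀ K K', G K → G K' → G (K ∩ K')) (he : ∀ K, G K → C.Ex K) {ι : Type*} (s : Finset ι)
    (K : ι → Set E) (hK : ∀ i ∈ s, G (K i)) : C.Ex (⋃ i ∈ s, K i) := by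
  have h := ex_biUnion hc hi he s.card (fun j => K (s.equivFin.symm j))
    fun j => hK _ (s.equivFin.symm j).2
  convert h using 1
  ext x
  simp only [mem_iUnion]
  constructor
  · rintro ⟨i, hi, hx⟩
    exact ⟨s.equivFin ⟨i, hi⟩, by simpa using hx⟩
  · rintro ⟨j, hx⟩
    exact ⟨_, (s.equivFin.symm j).2, hx⟩

/-- exactness is a property of germs -/
theorem ex_of_basis {K : Set E}
    (h : ∀ U, IsOpen U → K ⊆ U → ∃ K', K ⊆ K' ∧ K' ⊆ U ∧ C.Ex K') : C.Ex K := by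
  intro U hU hK t ht hD
  obtain ⟨K', h1, h2, h3⟩ := h U hU hK
  obtain ⟨U', o, k, u, hs⟩ := h3 U hU h2 t ht hD
  exact ⟨U', o, h1.trans k, u, hs⟩

variable {n : ℕ} {X : Set E}

/-- the local hypothesis: exactness on convex coordinate patches -/
def Base (C : Fine E M) (n : ℕ) (X : Set E) : Prop :=
  ∀ (f : Eu n → E) (W : Set (Eu n)) (O : Set E) (ℓ : E → Eu n), Loc X f W O ℓ → Convex ℝ W →
    W.Nonempty → ∀ t ∈ C.Sm O, C.D t ∈ C.Nu O → ∃ s ∈ C.Sm O, t - C.D s ∈ C.Nu O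

theorem ex_convex (hb : C.Base n X) {f : Eu n → E} {W : Set (Eu n)} {O : Set E} {ℓ : E → Eu n}
    (h : Loc X f W O ℓ) {A : Set (Eu n)} (hA : IsCompact A) (hc : Convex ℝ A) (hAW : A ⊆ W) :
    C.Ex (f '' A) := by
  rcases A.eq_empty_or_nonempty with rfl | hne
  · rw [image_empty]; exact C.ex_empty
  intro U hU hK t ht hD
  have ho : IsOpen (W ∩ f ⁻¹' U) := h.fC.continuousOn.isOpen_inter_preimage h.oW hU
  obtain ⟨δ, hδ, hs⟩ := hA.exists_thickening_subset_open ho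
    (fun a ha => ⟨hAW ha, hK ⟨a, ha, rfl⟩⟩)
  have h1 := h.restrict (hs.trans inter_subset_left) Metric.isOpen_thickening
  have h2 : Loc X f (Metric.thickening δ A) (O ∩ ℓ ⁻¹' Metric.thickening δ A ∩ U) ℓ := by
    refine ⟨h1.oW, h1.oO.inter hU, h1.fC, h1.lC.mono inter_subset_left, ?_, h1.inv,
      fun q hq => h1.maps q hq.1⟩
    rw [← inter_assoc, ← h1.img]
    exact (inter_eq_left.2 (by rintro _ ⟨a, ha, rfl⟩; exact (hs ha).2)).symm
  obtain ⟨s, h3, h4⟩ := hb f _ _ ℓ h2 (hc.thickening δ)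
    (hne.mono (Metric.self_subset_thickening hδ A)) t (C.sm_mono inter_subset_right ht)
    (C.nu_mono inter_subset_right hD)
  refine ⟨_, h2.oO, ?_, inter_subset_right, s, h3, h4⟩
  rintro _ ⟨a, ha, rfl⟩
  exact (h2.mem (Metric.self_subset_thickening hδ A ha)).2

theorem ex_chart (hb : C.Base n X) {f : Eu n → E} {W : Set (Eu n)} {O : Set E} {ℓ : E → Eu n}
    (h : Loc X f W O ℓ) {K : Set E} (hK : IsCompact K) (hKX : K ⊆ X ∩ O) : C.Ex K := by
  refine ex_of_basis fun U hU hKU => ?_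
  have ho : IsOpen (W ∩ f ⁻¹' U) := h.fC.continuousOn.isOpen_inter_preimage h.oW hU
  have hA : IsCompact (ℓ '' K) :=
    hK.image_of_continuousOn (h.lC.continuousOn.mono fun x hx => (hKX hx).2)
  have hr : ∀ a ∈ ℓ '' K, ∃ r > 0, Metric.closedBall a r ⊆ W ∩ f ⁻¹' U := by
    rintro _ ⟨x, hx, rfl⟩
    refine Metric.nhds_basis_closedBall.mem_iff.1 (ho.mem_nhds ⟨h.maps x (hKX hx).2, ?_⟩)
    rw [mem_preimage, h.right_inv (hKX hx).1 (hKX hx).2]
    exact hKU hx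
  choose! r hr0 hr1 using hr
  obtain ⟨s, hs, hcov⟩ := hA.elim_nhds_subcover (fun a => Metric.closedBall a (r a))
    fun a ha => Metric.closedBall_mem_nhds a (hr0 a ha)
  refine ⟨⋃ a ∈ s, f '' Metric.closedBall a (r a), fun x hx => ?_, ?_, ?_⟩
  · obtain ⟨a, ha, hx'⟩ := mem_iUnion₂.1 (hcov ⟨x, hx, rfl⟩)
    exact mem_iUnion₂.2 ⟨a, ha, ℓ x, hx', h.right_inv (hKX hx).1 (hKX hx).2⟩
  · refine iUnion₂_subset fun a ha => ?_
    rintro _ ⟨u, hu, rfl⟩
    exact (hr1 a (hs a ha) hu).2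
  · refine ex_finite (G := fun K => ∃ A, IsCompact A ∧ Convex ℝ A ∧ A ⊆ W ∧ K = f '' A)
      ?_ ?_ ?_ s _ fun a ha => ⟨_, isCompact_closedBall _ _, convex_closedBall _ _,
        (hr1 a (hs a ha)).trans inter_subset_left, rfl⟩
    · rintro _ ⟨A, h1, -, h2, rfl⟩
      exact (h1.image_of_continuousOn (h.fC.continuousOn.mono h2)).isClosed
    · rintro _ _ ⟨A, h1, h2, h3, rfl⟩ ⟨B, g1, g2, g3, rfl⟩
      refine ⟨A ∩ B, h1.inter g1, h2.inter g2, inter_subset_left.trans h3, ?_⟩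
      exact (h.chart.injOn.image_inter h3 g3).symm
    · rintro _ ⟨A, h1, h2, h3, rfl⟩
      exact ex_convex hb h h1 h2 h3

/-- **exactness along every compact subset of `X`** -/
theorem ex_compact (hX : Sub n X) (hb : C.Base n X) {K : Set E} (hK : IsCompact K)
    (hKX : K ⊆ X) : C.Ex K := by
  have hr : ∀ x ∈ K, ∃ r > 0, ∃ (f : Eu n → E) (W : Set (Eu n)) (O : Set E) (ℓ : E → Eu n),
      Loc X f W O ℓ ∧ Metric.closedBall x r ⊆ O := by
    intro x hx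
    obtain ⟨f, W, O, ℓ, h, hO⟩ := hX.exists_loc (hKX hx)
    obtain ⟨r, h0, h1⟩ := Metric.nhds_basis_closedBall.mem_iff.1 (h.oO.mem_nhds hO)
    exact ⟨r, h0, f, W, O, ℓ, h, h1⟩
  choose! r hr0 hr1 using hr
  obtain ⟨s, hs, hcov⟩ := hK.elim_nhds_subcover (fun a => Metric.closedBall a (r a))
    fun a ha => Metric.closedBall_mem_nhds a (hr0 a ha)
  have e : K = ⋃ a ∈ s, K ∩ Metric.closedBall a (r a) := by
    rw [← inter_iUnion₂]
    exact (inter_eq_left.2 hcov).symm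
  rw [e]
  refine ex_finite (G := fun K => IsCompact K ∧ ∃ (f : Eu n → E) (W : Set (Eu n)) (O : Set E)
      (ℓ : E → Eu n), Loc X f W O ℓ ∧ K ⊆ X ∩ O) (fun K h => h.1.isClosed) ?_ ?_ s _ ?_
  · rintro K K' ⟨h1, f, W, O, ℓ, h2, h3⟩ ⟨g1, -⟩
    exact ⟨h1.inter g1, f, W, O, ℓ, h2, inter_subset_left.trans h3⟩
  · rintro K ⟨h1, f, W, O, ℓ, h2, h3⟩
    exact ex_chart hb h2 h1 h3
  · intro a ha
    obtain ⟨f, W, O, ℓ, h, h1⟩ := hr1 a (hs a ha)
    exact ⟨hK.inter_right Metric.isClosed_closedBall, f, W, O, ℓ, h,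
      fun x hx => ⟨hKX hx.1, h1 hx.2⟩⟩

end Fine

end Crest.Agent.X262.PD
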