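import Crest.Agent.X262.PD.Basis
import Crest.Agent.R208.FH7

/-!
# Row 262, PD (helper97): exterior products of forms and Fubini

* `bx a b = p₁^* a ∧ p₂^* b` on `X ×ˢ Y`;  `ori_bx`, `J_bx`.
-/

set_option autoImplicit false
set_option linter.unusedSectionVars false

open MeasureTheory Set Filter Topology Module
open scoped ContDiff
open Crest.Agent.R208 Crest.Agent.R208.F Crest.Agent.R208.FI Crest.Agent.R208.T
open Crest.Agent.R208.CW (SMap)

noncomputable section

namespace Crest.Agent.X262.PD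

section alg

variable {T : Type*} [NormedAddCommGroup T] [NormedSpace ℝ T] [FiniteDimensional ℝ T]

theorem inv_of_isDeg {k : ℕ} {c : Ext T} (h : IsDeg k c) : F.inv c = (-1 : ℝ) ^ k • c := by
  rcases Nat.even_or_odd k with hk | hk
  · rw [inv_of_even hk h, hk.neg_one_pow, one_smul]
  · rw [inv_of_odd hk h, hk.neg_one_pow, neg_one_smul]

/-- graded commutativity -/
theorem deg_comm {k l : ℕ} {a b : Ext T} (ha : IsDeg k a) (hb : IsDeg l b) :
    a * b = (-1 : ℝ) ^ (k * l) • (b * a) := by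
  rcases Nat.even_or_odd k with hk | hk
  · rw [CW.even_comm (inv_of_even hk ha), (hk.mul_right l).neg_one_pow, one_smul]
  · rw [CW.odd_comm (inv_of_odd hk ha), inv_of_isDeg hb, pow_mul, hk.neg_one_pow, smul_mul_assoc]

theorem hom_comm {k l : ℕ} {a b : T → Ext T} (ha : Hom k a) (hb : Hom l b) :
    a * b = (-1 : ℝ) ^ (k * l) • (b * a) := funext fun x => deg_comm (ha x) (hb x)

end alg

section ori

variable {E : Type*} [NormedAddCommGroup E] [NormedSpace ℝ E] [FiniteDimensional ℝ E]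
  {n : ℕ} {X : Set E} {o o' a b : E → Ext E}

theorem evA_of_eqv (h : Eqv X (dp n a) (dp n b)) {x : E} (hx : x ∈ X) {w : Fin n → E}
    (hw : ∀ i, w i ∈ Tan X x) : evA E n (a x) w = evA E n (b x) w := by
  have h1 := congrArg (fun c => evA (Tan X x) n c fun i => ⟨w i, hw i⟩) (eqv_iff.1 h x hx)
  simp only [evA_pb, dp, evA_dpl, if_true] at h1
  exact h1

theorem ori_of_eqv (hX : Clo n X) (ho : Ori n X o) (hc : ContinuousOn o' X)
    (h : Eqv X (dp n o') (dp n o)) : Ori n X o' :=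
  ⟨hc, fun x hx => by
    rw [evA_of_eqv h hx (frame_isFrame (hX.finrank_Tan hx)).2]
    exact ho.ne x hx⟩

theorem J_ori_eqv (hX : Clo n X) (ho : Ori n X o) (h : Eqv X (dp n o') (dp n o)) :
    J n X o' a = J n X o a :=
  J_ori_congr hX fun x hx => by
    rw [evA_of_eqv h hx (frame_isFrame (hX.finrank_Tan hx)).2]
    exact mul_self_pos.2 (ho.ne x hx)

theorem cont_dp (j : ℕ) (h : ContinuousOn a X) : ContinuousOn (dp j a) X :=
  (dplL (E := E) j).continuous.comp_continuousOn h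

theorem dp_dp (j : ℕ) (a : E → Ext E) : dp j (dp j a) = dp j a := (hom_dp j a).dp_eq

theorem ori_dp (hX : Clo n X) (ho : Ori n X o) : Ori n X (dp n o) :=
  ori_of_eqv hX ho (cont_dp n ho.cont) (by rw [dp_dp]; exact Eqv.refl _)

theorem J_ori_dp (hX : Clo n X) (ho : Ori n X o) : J n X (dp n o) a = J n X o a :=
  J_ori_eqv hX ho (by rw [dp_dp]; exact Eqv.refl _)

theorem dp_of_hom_ne {i j : ℕ} (h : Hom i a) (hij : i ≠ j) : dp j a = 0 :=
  funext fun x => dpl_of_isDeg_ne (h x) hij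

theorem dp_sum {ι : Type*} (s : Finset ι) (j : ℕ) (w : ι → E → Ext E) :
    dp j (∑ i ∈ s, w i) = ∑ i ∈ s, dp j (w i) :=
  funext fun x => by simp only [dp, Finset.sum_apply, map_sum]

theorem hom_sum {ι : Type*} (s : Finset ι) {j : ℕ} {w : ι → E → Ext E}
    (h : ∀ i ∈ s, Hom j (w i)) : Hom j (∑ i ∈ s, w i) :=
  Finset.sum_induction w (Hom j) (fun _ _ => Hom.add) Hom.zero h

end ori

universe u v

variable {E : Type u} [NormedAddCommGroup E] [NormedSpace ℝ E] [FiniteDimensional ℝ E]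
  {G : Type v} [NormedAddCommGroup G] [NormedSpace ℝ G] [FiniteDimensional ℝ G]
  {m n : ℕ} {X : Set E} {Y : Set G} {oX a a' : E → Ext E} {oY b b' : G → Ext G}

theorem pull_sum' {ι : Type*} (s : Finset ι) (f : E → G) (w : ι → G → Ext G) :
    pull f (∑ i ∈ s, w i) = ∑ i ∈ s, pull f (w i) :=
  funext fun x => by simp only [pull, Finset.sum_apply, map_sum]

theorem pull_one' (f : E → G) : pull f (1 : G → Ext G) = 1 := funext fun _ => map_one _

theorem pull_inv' (f : E → G) (w : G → Ext G) :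
    pull f (fun y => F.inv (w y)) = fun x => F.inv (pull f w x) := funext fun _ => pb_inv _ _

/-- the exterior product -/
def bx (a : E → Ext E) (b : G → Ext G) : E × G → Ext (E × G) :=
  pull Prod.fst a * pull Prod.snd b

theorem smap_fst : SMap (X ×ˢ Y) X (Prod.fst : E × G → E) :=
  ⟨fun _ _ => contDiffAt_fst, fun _ h => h.1⟩

theorem smap_snd : SMap (X ×ˢ Y) Y (Prod.snd : E × G → G) :=
  ⟨fun _ _ => contDiffAt_snd, fun _ h => h.2⟩

theorem sm_bx (ha : Sm X a) (hb : Sm Y b) : Sm (X ×ˢ Y) (bx a b) :=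
  (ha.pull smap_fst).mul (hb.pull smap_snd)

theorem cl_bx (ha : Sm X a) (hb : Sm Y b) (ca : Cl X a) (cb : Cl Y b) : Cl (X ×ˢ Y) (bx a b) :=
  Cl.mul (ha.pull smap_fst) (hb.pull smap_snd) (ca.pull smap_fst ha) (cb.pull smap_snd hb)

theorem hom_bx {k l : ℕ} (ha : Hom k a) (hb : Hom l b) : Hom (k + l) (bx a b) :=
  ha.pull.mul hb.pull

theorem eqv_bx (ha : Eqv X a a') (hb : Eqv Y b b') : Eqv (X ×ˢ Y) (bx a b) (bx a' b') :=
  (ha.pull smap_fst).mul (hb.pull smap_snd)

theorem coh_bx_left (ha : Coh X a a') (sb : Sm Y b) (cb : Cl Y b) :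
    Coh (X ×ˢ Y) (bx a b) (bx a' b) :=
  (ha.pull smap_fst).mul_right (sb.pull smap_snd) (cb.pull smap_snd sb)

theorem coh_bx_right (sa : Sm X a) (ca : Cl X a) (hb : Coh Y b b') :
    Coh (X ×ˢ Y) (bx a b) (bx a b') :=
  coh_mul_left (sa.pull smap_fst) (ca.pull smap_fst sa) (hb.pull smap_snd)

theorem bx_add_left (a a' : E → Ext E) (b : G → Ext G) : bx (a + a') b = bx a b + bx a' b := by
  rw [bx, pull_add', add_mul]; rfl

theorem bx_add_right (a : E → Ext E) (b b' : G → Ext G) : bx a (b + b') = bx a b + bx a b' := by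
  rw [bx, pull_add', mul_add]; rfl

theorem bx_neg_left (a : E → Ext E) (b : G → Ext G) : bx (-a) b = -bx a b := by
  rw [bx, pull_neg', neg_mul]; rfl

theorem bx_sub_left (a a' : E → Ext E) (b : G → Ext G) : bx (a - a') b = bx a b - bx a' b := by
  rw [bx, pull_sub', sub_mul]; rfl

theorem bx_zero_left (b : G → Ext G) : bx (0 : E → Ext E) b = 0 := by
  rw [bx, pull_zero', zero_mul]

theorem bx_zero_right (a : E → Ext E) : bx a (0 : G → Ext G) = 0 := by
  rw [bx, pull_zero', mul_zero]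

theorem bx_smul_left (r : ℝ) (a : E → Ext E) (b : G → Ext G) : bx (r • a) b = r • bx a b := by
  rw [bx, pull_smul', smul_mul_assoc]; rfl

theorem bx_smul_right (r : ℝ) (a : E → Ext E) (b : G → Ext G) : bx a (r • b) = r • bx a b := by
  rw [bx, pull_smul', mul_smul_comm]; rfl

theorem bx_sum_left {ι : Type*} (s : Finset ι) (w : ι → E → Ext E) (b : G → Ext G) :
    bx (∑ i ∈ s, w i) b = ∑ i ∈ s, bx (w i) b := by
  rw [bx, pull_sum', Finset.sum_mul]; rfl

theorem bx_sum_right {ι : Type*} (s : Finset ι) (a : E → Ext E) (w : ι → G → Ext G) :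
    bx a (∑ i ∈ s, w i) = ∑ i ∈ s, bx a (w i) := by
  rw [bx, pull_sum', Finset.mul_sum]; rfl

theorem bx_one_right (a : E → Ext E) : bx a (1 : G → Ext G) = pull Prod.fst a := by
  rw [bx, pull_one', mul_one]

theorem bx_one_left (b : G → Ext G) : bx (1 : E → Ext E) b = pull Prod.snd b := by
  rw [bx, pull_one', one_mul]

theorem bx_mul {k l : ℕ} (a : E → Ext E) (hb : Hom l b) (ha' : Hom k a') (b' : G → Ext G) :
    bx a b * bx a' b' = (-1 : ℝ) ^ (l * k) • bx (a * a') (b * b') := by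
  simp only [bx, pull_mul']
  rw [mul_assoc, ← mul_assoc (pull Prod.snd b), hom_comm hb.pull ha'.pull]
  simp only [smul_mul_assoc, mul_smul_comm, mul_assoc]

/-- products when one of the middle factors is even -/
theorem bx_mul_of_even_left (a a' : E → Ext E) (hb : ∀ y, F.inv (b y) = b y) (b' : G → Ext G) :
    bx a b * bx a' b' = bx (a * a') (b * b') := by
  have : pull Prod.snd b * pull Prod.fst a' = pull Prod.fst a' * pull (Prod.snd : E × G → G) b :=
    funext fun z => CW.even_comm (by rw [pull, ← pb_inv, hb]) _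
  simp only [bx, pull_mul']
  rw [mul_assoc, ← mul_assoc (pull Prod.snd b), this]
  simp only [mul_assoc]

theorem bx_mul_of_even_right (a : E → Ext E) (ha' : ∀ y, F.inv (a' y) = a' y) (b b' : G → Ext G) :
    bx a b * bx a' b' = bx (a * a') (b * b') := by
  have : pull Prod.fst a' * pull Prod.snd b = pull (Prod.snd : E × G → G) b * pull Prod.fst a' :=
    funext fun z => CW.even_comm (by rw [pull, ← pb_inv, ha']) _
  simp only [bx, pull_mul']
  rw [mul_assoc, ← mul_assoc (pull Prod.snd b), ← this]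
  simp only [mul_assoc]

theorem d_bx_left (sa : Sm X a) (sb : Sm Y b) (cb : Cl Y b) :
    Eqv (X ×ˢ Y) (d (bx a b)) (bx (d a) b) := by
  refine (d_mul_eqv (sa.pull smap_fst) (sb.pull smap_snd)).trans ?_
  have h := ((d_pull_eqv (smap_fst (Y := Y)) sa).mul (Eqv.refl (pull Prod.snd b))).add
    ((Eqv.refl fun z => F.inv (pull Prod.fst a z)).mul
      (resZero_iff.1 (cb.pull (smap_snd (X := X)) sb)))
  rwa [mul_zero, add_zero] at h

theorem pull_bx {H : Type*} [NormedAddCommGroup H] [NormedSpace ℝ H] [FiniteDimensional ℝ H]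
    {f : H → E} {g : H → G} {z : H} (hf : DifferentiableAt ℝ f z) (hg : DifferentiableAt ℝ g z)
    (a : E → Ext E) (b : G → Ext G) :
    pull (fun z => (f z, g z)) (bx a b) z = pull f a z * pull g b z := by
  rw [bx, pull_mul', Pi.mul_apply, pull_comp (hf.prodMk hg) differentiableAt_fst,
    pull_comp (hf.prodMk hg) differentiableAt_snd]
  rfl

theorem dp_bx (hX : Sub m X) (hY : Sub n Y) (a : E → Ext E) (b : G → Ext G) :
    Eqv (X ×ˢ Y) (dp (m + n) (bx a b)) (bx (dp m a) (dp n b)) := by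
  refine ((eqv_bx (eqv_sum_dp hX a) (eqv_sum_dp hY b)).symm.dp _).trans (Eqv.of_eq fun z _ => ?_)
  rw [bx_sum_left, dp_sum, Finset.sum_eq_single m, bx_sum_right, dp_sum, Finset.sum_eq_single n,
    (hom_bx (hom_dp _ _) (hom_dp _ _)).dp_eq]
  · intro j hj h
    exact dp_of_hom_ne (hom_bx (hom_dp _ _) (hom_dp _ _)) (by omega)
  · exact fun h => absurd (Finset.self_mem_range_succ n) h
  · intro i hi h
    rw [bx_sum_right, dp_sum]
    refine Finset.sum_eq_zero fun j hj => dp_of_hom_ne (hom_bx (hom_dp _ _) (hom_dp _ _)) ?_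
    rw [Finset.mem_range] at hi hj
    omega
  · exact fun h => absurd (Finset.self_mem_range_succ m) h

theorem subm_snd (hX : Clo m X) (hY : Clo n Y) :
    Subm m n (X ×ˢ Y) Y (Prod.snd : E × G → G) where
  cloZ := hX.prod hY
  cloX := hY
  smooth := fun _ _ => contDiffAt_snd
  mapsTo := fun _ h => h.2
  sub := by
    rintro ⟨x, y⟩ ⟨hx, hy⟩ w hw
    refine ⟨(0, w), ?_, ?_⟩
    · rw [Tan_prod hX.sub hY.sub hx hy]
      exact ⟨Submodule.zero_mem _, hw⟩
    · rw [hasFDerivAt_snd.fderiv]; rfl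

theorem cont_fst (h : ContinuousOn a X) :
    ContinuousOn (pull (Prod.fst : E × G → E) a) (X ×ˢ Y) := by
  have : pull (Prod.fst : E × G → E) a =
      fun z => pbL (ContinuousLinearMap.fst ℝ E G) (a z.1) := funext fun z => by
    rw [pull, hasFDerivAt_fst.fderiv]; rfl
  rw [this]
  exact (pbL _).continuous.comp_continuousOn (h.comp continuousOn_fst fun _ h => h.1)

theorem cont_snd (h : ContinuousOn b Y) :
    ContinuousOn (pull (Prod.snd : E × G → G) b) (X ×ˢ Y) := by
  have : pull (Prod.snd : E × G → G) b =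
      fun z => pbL (ContinuousLinearMap.snd ℝ E G) (b z.2) := funext fun z => by
    rw [pull, hasFDerivAt_snd.fderiv]; rfl
  rw [this]
  exact (pbL _).continuous.comp_continuousOn (h.comp continuousOn_snd fun _ h => h.2)

theorem cont_bx (ha : ContinuousOn a X) (hb : ContinuousOn b Y) :
    ContinuousOn (bx a b) (X ×ˢ Y) := FI.continuousOn_mul (cont_fst ha) (cont_snd hb)

theorem evA_bx (hb : Hom n b) (a : E → Ext E) (x : E) (y : G) (w : Fin m → E) (v : Fin n → G) :
    evA (E × G) (m + n) (bx a b (x, y))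
      (Fin.append (fun i => (w i, (0 : G))) fun i => ((0 : E), v i)) =
      evA E m (a x) w * evA G n (b y) v := by
  rw [bx, Pi.mul_apply, pull, pull, hasFDerivAt_fst.fderiv, hasFDerivAt_snd.fderiv,
    evA_mul_pb _ _ (fun q hq => hb _ q hq.ne) _ _ _ (fun _ => rfl), evA_pb]
  rfl

theorem ori_bx_hom (hX : Clo m X) (hY : Clo n Y) (hoX : Ori m X oX) (hoY : Ori n Y oY)
    (hd : Hom n oY) : Ori (m + n) (X ×ˢ Y) (bx oX oY) := by
  refine ori_of (hX.prod hY) (cont_bx hoX.cont hoY.cont) ?_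
  rintro ⟨x, y⟩ ⟨hx, hy⟩
  refine ⟨Fin.append (fun i => (frame m X x i, (0 : G))) fun i => ((0 : E), frame n Y y i),
    fun i => ?_, ?_⟩
  · rw [Tan_prod hX.sub hY.sub hx hy]
    refine Fin.addCases (fun j => ?_) (fun j => ?_) i
    · rw [Fin.append_left]
      exact ⟨(frame_isFrame (hX.finrank_Tan hx)).2 j, Submodule.zero_mem _⟩
    · rw [Fin.append_right]
      exact ⟨Submodule.zero_mem _, (frame_isFrame (hY.finrank_Tan hy)).2 j⟩
  · rw [evA_bx hd]
    exact mul_ne_zero (hoX.ne x hx) (hoY.ne y hy)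

theorem dp_bx_dp (hX : Sub m X) (hY : Sub n Y) (a : E → Ext E) (b : G → Ext G) :
    Eqv (X ×ˢ Y) (dp (m + n) (bx a b)) (dp (m + n) (bx a (dp n b))) := by
  have := dp_bx hX hY a (dp n b)
  rw [dp_dp] at this
  exact (dp_bx hX hY a b).trans this.symm

/-- the product orientation -/
theorem ori_bx (hX : Clo m X) (hY : Clo n Y) (hoX : Ori m X oX) (hoY : Ori n Y oY) :
    Ori (m + n) (X ×ˢ Y) (bx oX oY) :=
  ori_of_eqv (hX.prod hY) (ori_bx_hom hX hY hoX (ori_dp hY hoY) (hom_dp _ _))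
    (cont_bx hoX.cont hoY.cont) (dp_bx_dp hX.sub hY.sub _ _)

theorem J_bx_hom (hX : Clo m X) (hY : Clo n Y) (hoX : Ori m X oX) (hoY : Ori n Y oY)
    (hd : Hom n oY) (ha : ContinuousOn a X) (hb : ContinuousOn b Y) (hb' : Hom n b) :
    J (m + n) (X ×ˢ Y) (bx oX oY) (bx a b) = J m X oX a * J n Y oY b := by
  have hS := subm_snd hX hY
  have h := fibre_integration hS (cont_fst hoX.cont) (ori_bx_hom hX hY hoX hoY hd)
    (fun y _ q hq => hd y q hq.ne) (cont_fst ha) hb fun y _ q hq => hb' y q hq.ne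
  refine h.trans ?_
  rw [← J_smul']
  refine J_congr' hY fun y hy => ?_
  rw [J_pull (hS.clo_fibre y) hX (fun _ _ => differentiableAt_fst) ?_ hoX ha]
  · rfl
  · refine ⟨fun z hz => hz.1.1, fun z hz z' hz' h => Prod.ext h (hz.2.trans hz'.2.symm),
      fun x hx => ⟨(x, y), ⟨⟨hx, hy⟩, rfl⟩, rfl⟩⟩

/-- **Fubini** -/
theorem J_bx' (hX : Clo m X) (hY : Clo n Y) (hoX : Ori m X oX) (hoY : Ori n Y oY)
    (ha : ContinuousOn a X) (hb : ContinuousOn b Y) :
    J (m + n) (X ×ˢ Y) (bx oX oY) (bx a b) = J m X oX a * J n Y oY b := by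
  have hP := hX.prod hY
  rw [J_ori_eqv hP (ori_bx_hom hX hY hoX (ori_dp hY hoY) (hom_dp _ _))
      (dp_bx_dp hX.sub hY.sub _ _), ← J_dp hP, J_eqv hP (dp_bx_dp hX.sub hY.sub a b), J_dp hP,
    J_bx_hom hX hY hoX (ori_dp hY hoY) (hom_dp _ _) ha (cont_dp n hb) (hom_dp _ _), J_dp hY,
    J_ori_dp hY hoY]

theorem J_bx (hX : Clo m X) (hY : Clo n Y) (hoX : Ori m X oX) (hoY : Ori n Y oY)
    (ha : Sm X a) (hb : Sm Y b) :
    J (m + n) (X ×ˢ Y) (bx oX oY) (bx a b) = J m X oX a * J n Y oY b :=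
  J_bx' hX hY hoX hoY (cont_of_sm ha) (cont_of_sm hb)

end Crest.Agent.X262.PD
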