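import Crest.Agent.X262.PD.Cx
import Crest.Agent.X262.Man.Ori

/-!
# Row 262, PD (helper97): products of embedded complex manifolds

* `imm_of_slices` : slices through every point give the immersion property;
* `topC_mul_pos` : the product of complex orientations is the complex orientation;
* `isProd_emb` : `IsProd` for a holomorphic bijection `(p, q) : M → M₁ × M₂` with slices.
-/

set_option autoImplicit false
set_option linter.unusedSectionVars false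

open MeasureTheory Set Filter Topology Module
open scoped ContDiff
open Crest.Agent.R208 Crest.Agent.R208.F Crest.Agent.R208.FI Crest.Agent.R208.T
open Crest.Agent.R208.CW (SMap integ)
open Crest.Agent.R275.Geo (Cn Atl)
open Crest.Agent.R273.Map_835 (HolMap rd dm mem_dm)
open Crest.Agent.X262.Man

noncomputable section

namespace Crest.Agent.X262.PD

section real

variable {E : Type*} [NormedAddCommGroup E] [NormedSpace ℝ E] [FiniteDimensional ℝ E]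
  {G : Type*} [NormedAddCommGroup G] [NormedSpace ℝ G] [FiniteDimensional ℝ G]
  {H : Type*} [NormedAddCommGroup H] [NormedSpace ℝ H] [FiniteDimensional ℝ H]
  {k m n : ℕ} {Z : Set H} {X : Set E} {Y : Set G} {p : H → E} {q : H → G}

theorem fderiv_eq_on {f g : E → G} {x : E} (hf : DifferentiableAt ℝ f x)
    (hg : DifferentiableAt ℝ g x) (h : ∀ y ∈ X, f y = g y) {w : E} (hw : w ∈ Tan X x) :
    fderiv ℝ f x w = fderiv ℝ g x w := by
  refine Submodule.span_induction (p := fun w _ => fderiv ℝ f x w = fderiv ℝ g x w) ?_ ?_ ?_ ?_ hw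
  · rintro w ⟨γ, rfl, hγ, hS⟩
    have h1 := hf.hasFDerivAt.comp_hasDerivAt 0 hγ
    have h2 := hg.hasFDerivAt.comp_hasDerivAt 0 hγ
    have h3 : (f ∘ γ) =ᶠ[𝓝 0] (g ∘ γ) := hS.mono fun t ht => h _ ht
    exact (h1.congr_of_eventuallyEq h3.symm).unique h2
  · simp
  · intro a b _ _ ha hb; simp only [map_add, ha, hb]
  · intro r a _ ha; simp only [map_smul, ha]

theorem slice_fderiv {σ : E → H} {x : E} (hx : x ∈ X) (hσ : SMap X Z σ) (sq : SMap Z Y q)
    {g : E → G} (hg : DifferentiableAt ℝ g x) (h : ∀ u ∈ X, q (σ u) = g u) {w : E}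
    (hw : w ∈ Tan X x) : fderiv ℝ q (σ x) (fderiv ℝ σ x w) = fderiv ℝ g x w := by
  rw [← fderiv_eq_on ((sq.comp hσ).diff hx) hg h hw]
  exact (congrArg (fun L : E →L[ℝ] G => L w)
    (fderiv_comp x (sq.diff (hσ.maps hx)) (hσ.diff hx))).symm

theorem imm_of_slices (hk : k = m + n) (hZ : Sub k Z) (hX : Sub m X) (hY : Sub n Y)
    (sp : SMap Z X p) (sq : SMap Z Y q) {z : H} (hz : z ∈ Z) {σ : E → H} {τ : G → H}
    (hσ : SMap X Z σ) (hτ : SMap Y Z τ) (σ0 : σ (p z) = z) (τ0 : τ (q z) = z)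
    (σ1 : ∀ u ∈ X, p (σ u) = u) (σ2 : ∀ u ∈ X, q (σ u) = q z) (τ1 : ∀ u ∈ Y, p (τ u) = p z)
    (τ2 : ∀ u ∈ Y, q (τ u) = u) {v : H} (hv : v ∈ Tan Z z) (h1 : fderiv ℝ p z v = 0)
    (h2 : fderiv ℝ q z v = 0) : v = 0 := by
  let A : Tan Z z →ₗ[ℝ] Tan X (p z) :=
    (((fderiv ℝ p z : H →L[ℝ] E) : H →ₗ[ℝ] E) ∘ₗ (Tan Z z).subtype).codRestrict _
      fun v => fderiv_mapsTo_Tan (sp.diff hz) sp.maps v.2
  let B : Tan Z z →ₗ[ℝ] Tan Y (q z) :=
    (((fderiv ℝ q z : H →L[ℝ] G) : H →ₗ[ℝ] G) ∘ₗ (Tan Z z).subtype).codRestrict _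
      fun v => fderiv_mapsTo_Tan (sq.diff hz) sq.maps v.2
  have hs : Function.Surjective (A.prod B) := by
    rintro ⟨a, b⟩
    have ha := fderiv_mapsTo_Tan (hσ.diff (sp.maps hz)) hσ.maps a.2
    have hb := fderiv_mapsTo_Tan (hτ.diff (sq.maps hz)) hτ.maps b.2
    have a1 := slice_fderiv (sp.maps hz) hσ sp differentiableAt_id σ1 a.2
    have a2 := slice_fderiv (sp.maps hz) hσ sq (differentiableAt_const _) σ2 a.2
    have b1 := slice_fderiv (sq.maps hz) hτ sp (differentiableAt_const _) τ1 b.2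
    have b2 := slice_fderiv (sq.maps hz) hτ sq differentiableAt_id τ2 b.2
    rw [σ0] at ha a1 a2
    rw [τ0] at hb b1 b2
    simp only [fderiv_id, fderiv_fun_const, ContinuousLinearMap.id_apply, Pi.zero_apply,
      zero_apply] at a1 a2 b1 b2
    refine ⟨⟨_, ha⟩ + ⟨_, hb⟩, Prod.ext (Subtype.ext ?_) (Subtype.ext ?_)⟩
    · change fderiv ℝ p z (_ + _) = _
      rw [map_add, a1, b1, add_zero]
    · change fderiv ℝ q z (_ + _) = _
      rw [map_add, a2, b2, zero_add]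
  have hi := (LinearMap.injective_iff_surjective_of_finrank_eq_finrank (f := A.prod B) (by
    rw [finrank_prod, hZ.finrank_Tan hz, hX.finrank_Tan (sp.maps hz),
      hY.finrank_Tan (sq.maps hz), hk])).2 hs
  have h0 : (⟨v, hv⟩ : Tan Z z) = 0 :=
    (injective_iff_map_eq_zero _).1 hi _ (Prod.ext (Subtype.ext h1) (Subtype.ext h2))
  exact congrArg Subtype.val h0

theorem dpl_mul_pb (hE : finrank ℝ E = m) (hG : finrank ℝ G = n) (A : H →ₗ[ℝ] E) (B : H →ₗ[ℝ] G)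
    (α : Ext E) (β : Ext G) :
    dpl (m + n) (pb A α * pb B β) = pb A (dpl m α) * pb B (dpl n β) := by
  have h := fun i j => isDeg_mul ((isDeg_dpl i α).pb A) ((isDeg_dpl j β).pb B)
  conv_lhs => rw [← sum_dpl α, ← sum_dpl β, hE, hG]
  rw [map_sum, map_sum, Finset.sum_mul, map_sum, Finset.sum_eq_single m, Finset.mul_sum, map_sum,
    Finset.sum_eq_single n, dpl_of_isDeg (h m n)]
  · exact fun j _ hj => dpl_of_isDeg_ne (h m j) (by omega)
  · exact fun h => absurd (Finset.self_mem_range_succ n) h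
  · intro i hi hi'
    rw [Finset.mul_sum, map_sum]
    refine Finset.sum_eq_zero fun j hj => dpl_of_isDeg_ne (h i j) ?_
    rw [Finset.mem_range] at hi hj
    omega
  · exact fun h => absurd (Finset.self_mem_range_succ m) h

end real

section lin

variable {n a b : ℕ}

/-- the standard real frame -/
def fr (n : ℕ) (k : Fin (2 * n)) : Cn n := cL n (sb (2 * n) k)

theorem topC_eq (c : Ext (Cn n)) : topC n c = evA (Cn n) (2 * n) c (fr n) := by
  rw [topC_apply, top_pb]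
  rfl

theorem fr_apply (k : Fin (2 * n)) (c : Fin n) : fr n k c =
    (if 2 * (c : ℕ) = k then 1 else 0) + (if 1 + 2 * (c : ℕ) = k then 1 else 0) * Complex.I := by
  simp [fr, cL_apply, Fin.ext_iff, ix_val, apply_ite Complex.ofReal]

theorem finrank_Cn (n : ℕ) : finrank ℝ (Cn n) = 2 * n := by
  rw [← (cL n).toLinearEquiv.finrank_eq, finrank_euclideanSpace_fin]

/-- splitting of the coordinates -/
abbrev kC (a b : ℕ) : Cn (a + b) ≃L[ℂ] Cn a × Cn b := EuclideanSpace.finAddEquivProd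

theorem kC_fr (k : Fin (2 * a + 2 * b)) : kC a b (fr (a + b) (Fin.cast (mul_add 2 a b).symm k)) =
    Fin.append (fun i => (fr a i, 0)) (fun j => (0, fr b j)) k := by
  refine Fin.addCases (fun i => ?_) (fun j => ?_) k
  · rw [Fin.append_left]
    have := i.2
    refine Prod.ext ?_ ?_ <;> ext c
    · change fr (a + b) _ (Fin.castAdd b c) = fr a i c
      simp [fr_apply]
    · change fr (a + b) _ (Fin.natAdd a c) = 0
      rw [fr_apply, if_neg, if_neg, zero_mul, add_zero] <;> simp <;> omega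
  · rw [Fin.append_right]
    refine Prod.ext ?_ ?_ <;> ext c
    · have := c.2
      change fr (a + b) _ (Fin.castAdd b c) = 0
      rw [fr_apply, if_neg, if_neg, zero_mul, add_zero] <;> simp <;> omega
    · change fr (a + b) _ (Fin.natAdd a c) = fr b j c
      rw [fr_apply, fr_apply]
      congr 1
      · exact if_congr (by simp; omega) rfl rfl
      · congr 1
        exact if_congr (by simp; omega) rfl rfl

theorem topC_kC (α : Ext (Cn a)) (β : Ext (Cn b)) :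
    topC (a + b) (pb (((kC a b : Cn (a + b) →L[ℂ] Cn a × Cn b) :
      Cn (a + b) →ₗ[ℂ] Cn a × Cn b).restrictScalars ℝ)
      (pb (LinearMap.fst ℝ (Cn a) (Cn b)) α * pb (LinearMap.snd ℝ (Cn a) (Cn b)) β)) =
      topC a α * topC b β := by
  rw [topC_eq, topC_eq, topC_eq, evA_pb, ← evA_cast (mul_add 2 a b).symm]
  have h1 : ((fun i => (((kC a b : Cn (a + b) →L[ℂ] Cn a × Cn b) :
      Cn (a + b) →ₗ[ℂ] Cn a × Cn b).restrictScalars ℝ) (fr (a + b) i)) ∘
        Fin.cast (mul_add 2 a b).symm) =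
      Fin.append (fun i => (fr a i, 0)) (fun j => (0, fr b j)) := funext kC_fr
  have h2 : ∀ {V : Type} [AddCommGroup V] [Module ℝ V] (q : ℕ) (c : Ext V),
      evA V q c = evA V q (dpl q c) := fun q c => by rw [evA_dpl, if_pos rfl]
  rw [h1, h2, dpl_mul_pb (finrank_Cn a) (finrank_Cn b),
    evA_mul_pb _ _ (fun q hq => isDeg_dpl _ β q hq.ne) _ _ _ (fun _ => rfl), evA_pb, ← h2, ← h2]
  rfl

/-- the product of complex orientations -/
theorem topC_mul_pos (hn : n = a + b) (P : Cn n →ₗ[ℂ] Cn a) (Q : Cn n →ₗ[ℂ] Cn b)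
    (h : ∀ v, P v = 0 → Q v = 0 → v = 0) {α : Ext (Cn a)} {β : Ext (Cn b)} (hα : 0 < topC a α)
    (hβ : 0 < topC b β) :
    0 < topC n (pb (P.restrictScalars ℝ) α * pb (Q.restrictScalars ℝ) β) := by
  subst hn
  let L : Cn (a + b) →ₗ[ℂ] Cn (a + b) := ((kC a b).symm : Cn a × Cn b →ₗ[ℂ] Cn (a + b)) ∘ₗ P.prod Q
  have hL : Function.Injective L := (kC a b).symm.injective.comp
    ((injective_iff_map_eq_zero (P.prod Q)).2 fun v hv =>
      h v (congrArg Prod.fst hv) (congrArg Prod.snd hv))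
  have hd : LinearMap.det L ≠ 0 := (LinearMap.isUnit_det L
    ((LinearMap.isUnit_iff_ker_eq_bot L).2 (LinearMap.ker_eq_bot.2 hL))).ne_zero
  have h1 := topC_pb_hol L (pb (((kC a b : Cn (a + b) →L[ℂ] Cn a × Cn b) :
    Cn (a + b) →ₗ[ℂ] Cn a × Cn b).restrictScalars ℝ)
      (pb (LinearMap.fst ℝ (Cn a) (Cn b)) α * pb (LinearMap.snd ℝ (Cn a) (Cn b)) β))
  rw [topC_kC, pb_comp, map_mul, pb_comp, pb_comp] at h1
  have e : ∀ v, kC a b (L v) = (P v, Q v) := fun v => (kC a b).apply_symm_apply _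
  have h2 := mul_pos (Complex.normSq_pos.2 hd) (mul_pos hα hβ)
  have e1 : LinearMap.fst ℝ (Cn a) (Cn b) ∘ₗ (((kC a b : Cn (a + b) →L[ℂ] Cn a × Cn b) :
      Cn (a + b) →ₗ[ℂ] Cn a × Cn b).restrictScalars ℝ) ∘ₗ L.restrictScalars ℝ =
      P.restrictScalars ℝ := LinearMap.ext fun v => congrArg Prod.fst (e v)
  have e2 : LinearMap.snd ℝ (Cn a) (Cn b) ∘ₗ (((kC a b : Cn (a + b) →L[ℂ] Cn a × Cn b) :
      Cn (a + b) →ₗ[ℂ] Cn a × Cn b).restrictScalars ℝ) ∘ₗ L.restrictScalars ℝ =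
      Q.restrictScalars ℝ := LinearMap.ext fun v => congrArg Prod.snd (e v)
  rwa [← h1, e1, e2] at h2

end lin

variable {n a b : ℕ} {M M₁ M₂ : Type} [TopologicalSpace M] [TopologicalSpace M₁]
  [TopologicalSpace M₂] [CompactSpace M] [CompactSpace M₁] [CompactSpace M₂]
  {A : Atl n M} {A₁ : Atl a M₁} {A₂ : Atl b M₂}
  {E : Type} [NormedAddCommGroup E] [NormedSpace ℝ E] [FiniteDimensional ℝ E]
  {E₁ : Type} [NormedAddCommGroup E₁] [NormedSpace ℝ E₁] [FiniteDimensional ℝ E₁]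
  {E₂ : Type} [NormedAddCommGroup E₂] [NormedSpace ℝ E₂] [FiniteDimensional ℝ E₂]

theorem fderiv_par_comp (ε : Emb A E) (ε₁ : Emb A₁ E₁) {p : M → M₁} (hp : HolMap A A₁ p)
    {g : E → E₁} (hg : ∀ y, g (ε.j y) = ε₁.j (p y)) (hd : ∀ y, DifferentiableAt ℝ g (ε.j y))
    {i : A.ι} {k : A₁.ι} {z : Cn n} (hz : z ∈ dm A A₁ p i k) {v : Cn n}
    (hv : fderiv ℂ (rd A A₁ p i k) z v = 0) :
    fderiv ℝ g (ε.par i z) (fderiv ℝ (ε.par i) z v) = 0 := by
  have h1 := (ε.comp_par ε₁ hp hg hz).fderiv_eq (𝕜 := ℝ)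
  have h2 := fderiv_comp z (hd ((A.e i).symm z)) (ε.diff_par hz.1)
  have h3 := fderiv_comp z (ε₁.diff_par ((A₁.e k).map_source hz.2))
    ((hp.diffAt hz).restrictScalars ℝ)
  have h4 := congrArg (fun L : Cn n →L[ℝ] E₁ => L v) (h2.symm.trans (h1.trans h3))
  refine h4.trans ?_
  change fderiv ℝ (ε₁.par k) _ (fderiv ℝ (rd A A₁ p i k) z v) = 0
  rw [(hp.diffAt hz).fderiv_restrictScalars ℝ, ContinuousLinearMap.coe_restrictScalars', hv,
    map_zero]

/-- **products of complex manifolds** -/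
theorem isProd_emb (hn : n = a + b) (ε : Emb A E) (ε₁ : Emb A₁ E₁) (ε₂ : Emb A₂ E₂) {p : M → M₁}
    {q : M → M₂} (hp : HolMap A A₁ p) (hq : HolMap A A₂ q)
    (hb : Function.Bijective fun x => (p x, q x))
    (hs : ∀ x, ∃ s, HolMap A₁ A s ∧ ∀ u, p (s u) = u ∧ q (s u) = q x)
    (ht : ∀ x, ∃ t, HolMap A₂ A t ∧ ∀ u, p (t u) = p x ∧ q (t u) = u)
    {f : E → E₁} {g : E → E₂} (sf : SMap ε.X ε₁.X f) (sg : SMap ε.X ε₂.X g)
    (hf : ∀ y, f (ε.j y) = ε₁.j (p y)) (hg : ∀ y, g (ε.j y) = ε₂.j (q y)) :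
    IsProd (2 * n) ε.X ε.ori (2 * a) ε₁.X ε₁.ori (2 * b) ε₂.X ε₂.ori f g := by
  have hk : 2 * n = 2 * a + 2 * b := by omega
  have imm : ∀ z ∈ ε.X, ∀ v ∈ Tan ε.X z, fderiv ℝ f z v = 0 → fderiv ℝ g z v = 0 → v = 0 := by
    refine ε.forall_X.2 fun x v hv h1 h2 => ?_
    obtain ⟨s, s1, s2⟩ := hs x
    obtain ⟨t, t1, t2⟩ := ht x
    have es := fun u => ε₁.amb_j (sm_comp_hol s1 ε.sm) u
    have et := fun u => ε₂.amb_j (sm_comp_hol t1 ε.sm) u
    refine imm_of_slices hk ε.sub ε₁.sub ε₂.sub sf sg (ε.mem x) (ε₁.smap ε s1) (ε₂.smap ε t1)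
      ?_ ?_ (ε₁.forall_X.2 fun u => ?_) (ε₁.forall_X.2 fun u => ?_) (ε₂.forall_X.2 fun u => ?_)
      (ε₂.forall_X.2 fun u => ?_) hv h1 h2
    · rw [hf, es, hb.1 (Prod.ext (s2 (p x)).1 (s2 (p x)).2)]
    · rw [hg, et, hb.1 (Prod.ext (t2 (q x)).1 (t2 (q x)).2)]
    · rw [es, hf, (s2 u).1]
    · rw [es, hg, hg, (s2 u).2]
    · rw [et, hf, hf, (t2 u).1]
    · rw [et, hg, (t2 u).2]
  have hC : ε.COri (pull f ε₁.ori * pull g ε₂.ori) := by
    refine ⟨cont_of_sm (Sm.mul (Sm.pull sf fun _ _ => ε₁.contDiff_ori.contDiffAt)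
      (Sm.pull sg fun _ _ => ε₂.contDiff_ori.contDiffAt)), fun i z hz => ?_⟩
    obtain ⟨k, hk⟩ := A₁.cover (p ((A.e i).symm z))
    obtain ⟨l, hl⟩ := A₂.cover (q ((A.e i).symm z))
    have z1 : z ∈ dm A A₁ p i k := ⟨hz, hk⟩
    have z2 : z ∈ dm A A₂ q i l := ⟨hz, hl⟩
    have d1 := fun y => sf.diff (ε.mem y)
    have d2 := fun y => sg.diff (ε.mem y)
    rw [pull_mul', Pi.mul_apply, ε.pull_pull ε₁ hp hf d1 z1, ε.pull_pull ε₂ hq hg d2 z2]
    change 0 < topC n (pb _ _ * pb _ _)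
    rw [(hp.diffAt z1).fderiv_restrictScalars ℝ, (hq.diffAt z2).fderiv_restrictScalars ℝ]
    refine topC_mul_pos hn (fderiv ℂ (rd A A₁ p i k) z : Cn n →L[ℂ] Cn a)
      (fderiv ℂ (rd A A₂ q i l) z : Cn n →L[ℂ] Cn b) (fun v h1 h2 => ?_)
      (ε₁.cori.pos k _ ((A₁.e k).map_source hk)) (ε₂.cori.pos l _ ((A₂.e l).map_source hl))
    refine (injective_iff_map_eq_zero _).1 (ε.imm i z hz) v (imm _ (ε.par_mem i z) _ ?_
      (fderiv_par_comp ε ε₁ hp hf d1 z1 h1) (fderiv_par_comp ε ε₂ hq hg d2 z2 h2))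
    rw [ε.tan_eq hz]
    exact ⟨v, rfl⟩
  refine ⟨hk, ε.clo, ε₁.clo, ε₂.clo, ε.isOri, ε₁.isOri, ε₂.isOri, sf, sg,
    ⟨fun z hz => ⟨sf.maps hz, sg.maps hz⟩, ?_, ?_⟩, imm, fun _ => ε.cori.J_congr hC⟩
  · rintro _ ⟨x, rfl⟩ _ ⟨y, rfl⟩ h
    simp only [hf, hg, Prod.mk.injEq] at h
    rw [hb.1 (Prod.ext (ε₁.inj h.1) (ε₂.inj h.2))]
  · rintro ⟨_, _⟩ ⟨⟨u, rfl⟩, ⟨v, rfl⟩⟩
    obtain ⟨x, hx⟩ := hb.2 (u, v)
    refine ⟨ε.j x, ε.mem x, ?_⟩
    simp only [hf, hg, (Prod.mk.inj hx).1, (Prod.mk.inj hx).2]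

end Crest.Agent.X262.PD
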