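import Crest.Agent.X262.PD.Fub

/-!
# Row 262, PD (helper97): Leray-Hirsch and Kuenneth

* `leray_hirsch` : `π : P → X` a submersion onto a compact base, `e j` closed homogeneous forms on
  `P`, independent in the cohomology of each fibre and spanning over small convex patches; then
  every closed form on `P` is cohomologous to `∑ e j ∧ π^* a j` with `a j` closed;
* `span_of_retract` : the spanning hypothesis from a retraction onto a fibre;
* `kunneth`, `PDB.kunneth` : the product case.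
-/

set_option autoImplicit false
set_option linter.unusedSectionVars false

open MeasureTheory Set Filter Topology Module
open scoped ContDiff
open Crest.Agent.R208 Crest.Agent.R208.F Crest.Agent.R208.FI Crest.Agent.R208.T
open Crest.Agent.R208.CW (SMap)

noncomputable section

namespace Crest.Agent.X262.PD

namespace Fine

variable {E : Type*} [NormedAddCommGroup E] [NormedSpace ℝ E] [FiniteDimensional ℝ E]
  {M : Type*} [AddCommGroup M] {n : ℕ} {X : Set E}

theorem off_inter {χ : E → ℝ} {U U' : Set E} (h : Off χ U' U) (V : Set E) :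
    Off χ (U' ∩ V) (U ∩ V) := fun x hx hx' => h x hx.1 fun h' => hx' ⟨h', hx.2⟩

/-- restriction to an open set -/
def on (C : Fine E M) {V : Set E} (hV : IsOpen V) : Fine E M where
  Sm U := C.Sm (U ∩ V)
  Nu U := C.Nu (U ∩ V)
  D := C.D
  mu := C.mu
  sm_mono h := C.sm_mono (inter_subset_inter_left _ h)
  nu_mono h := C.nu_mono (inter_subset_inter_left _ h)
  D_sm h := C.D_sm (h.inter hV)
  D_nu h := C.D_nu (h.inter hV)
  D_sub h := C.D_sub (h.inter hV)
  DD h := C.DD (h.inter hV)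
  mu_sm h h' hχ ho := C.mu_sm (h.inter hV) (h'.inter hV) hχ (off_inter ho V)
  mu_nu h h' hχ ho := C.mu_nu (h.inter hV) (h'.inter hV) hχ (off_inter ho V)
  mu_sub := C.mu_sub
  mu_one h := C.mu_one (h.inter hV)
  nu_empty := by rw [empty_inter]; exact C.nu_empty

/-- the local hypothesis on small patches -/
def BaseIn (C : Fine E M) (n : ℕ) (X V : Set E) : Prop :=
  ∀ (f : Eu n → E) (W : Set (Eu n)) (O : Set E) (ℓ : E → Eu n), Loc X f W O ℓ → O ⊆ V →
    Convex ℝ W → W.Nonempty → ∀ t ∈ C.Sm O, C.D t ∈ C.Nu O → ∃ s ∈ C.Sm O, t - C.D s ∈ C.Nu O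

variable {C : Fine E M}

theorem ex_in (hX : Sub n X) {V : Set E} (hV : IsOpen V) (hb : C.BaseIn n X V) {K : Set E}
    (hK : IsCompact K) (hKX : K ⊆ X ∩ V) : C.Ex K := by
  have h : (C.on hV).Ex K := ex_compact (hX.inter_open hV) (fun f W O ℓ h hW hne =>
    hb f W (O ∩ V) ℓ ⟨h.oW, h.oO.inter hV, h.fC, h.lC.mono inter_subset_left,
      by rw [h.img, inter_assoc, inter_comm V], h.inv, fun q hq => h.maps q hq.1⟩
      inter_subset_right hW hne) hK hKX
  intro U hU hKU t ht hD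
  obtain ⟨U', o, k, u, s, h1, h2⟩ := h U hU hKU t (C.sm_mono inter_subset_left ht)
    (C.nu_mono inter_subset_left hD)
  exact ⟨U' ∩ V, o.inter hV, fun x hx => ⟨k hx, (hKX hx).2⟩, inter_subset_left.trans u, s, h1, h2⟩

theorem ex_compact_loc (hX : Sub n X)
    (hb : ∀ x ∈ X, ∃ V, IsOpen V ∧ x ∈ V ∧ C.BaseIn n X V) {K : Set E} (hK : IsCompact K)
    (hKX : K ⊆ X) : C.Ex K := by
  have hr : ∀ x ∈ K, ∃ r > 0, ∃ V, IsOpen V ∧ C.BaseIn n X V ∧ Metric.closedBall x r ⊆ V := by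
    intro x hx
    obtain ⟨V, o, hV, h⟩ := hb x (hKX hx)
    obtain ⟨r, h0, h1⟩ := Metric.nhds_basis_closedBall.mem_iff.1 (o.mem_nhds hV)
    exact ⟨r, h0, V, o, h, h1⟩
  choose! r hr0 hr1 using hr
  obtain ⟨s, hs, hcov⟩ := hK.elim_nhds_subcover (fun a => Metric.closedBall a (r a))
    fun a ha => Metric.closedBall_mem_nhds a (hr0 a ha)
  have e : K = ⋃ a ∈ s, K ∩ Metric.closedBall a (r a) := by
    rw [← inter_iUnion₂]
    exact (inter_eq_left.2 hcov).symm
  rw [e]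
  refine ex_finite (G := fun K => IsCompact K ∧ ∃ V, IsOpen V ∧ C.BaseIn n X V ∧ K ⊆ X ∩ V)
    (fun K h => h.1.isClosed) ?_ ?_ s _ ?_
  · rintro K K' ⟨h1, V, h2, h3, h4⟩ ⟨g1, -⟩
    exact ⟨h1.inter g1, V, h2, h3, inter_subset_left.trans h4⟩
  · rintro K ⟨h1, V, h2, h3, h4⟩
    exact ex_in hX h2 h3 h1 h4
  · intro a ha
    obtain ⟨V, h1, h2, h3⟩ := hr1 a (hs a ha)
    exact ⟨hK.inter_right Metric.isClosed_closedBall, V, h1, h2, inter_subset_inter hKX h3⟩

end Fine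

universe u v

variable {E : Type u} [NormedAddCommGroup E] [NormedSpace ℝ E] [FiniteDimensional ℝ E]
  {H : Type v} [NormedAddCommGroup H] [NormedSpace ℝ H] [FiniteDimensional ℝ H]
  {m p : ℕ} {X : Set E} {P : Set H} {π : H → E} {ι : Type*} [Fintype ι] {e : ι → H → Ext H}
  {deg : ι → ℕ}

theorem tan_singleton (x : E) : Tan ({x} : Set E) x = ⊥ := by
  refine Submodule.span_eq_bot.2 ?_
  rintro v ⟨γ, -, h1, h2⟩
  exact h1.unique ((hasDerivAt_const _ x).congr_of_eventuallyEq h2)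

theorem eqv_fm_off {U U' : Set E} {χ : E → ℝ} {a b : E → Ext E} (hU : IsOpen U)
    (ho : Off χ U' U) (h : Eqv (X ∩ U) a b) : Eqv (X ∩ U') (fm χ a) (fm χ b) := by
  refine eqv_iff.2 fun x hx => ?_
  rw [fm, fm, map_smul, map_smul]
  by_cases h1 : x ∈ U
  · have h2 : Eqv (X ∩ U' ∩ U) a b :=
      h.mono_tan (inter_subset_inter_left _ inter_subset_left)
    rw [eqv_of_open hU h2 hx h1]
  · rw [(ho x hx.2 h1).self_of_nhds, zero_smul, zero_smul]

theorem evA_sum {T : Type*} [AddCommGroup T] [Module ℝ T] {κ : Type*} (s : Finset κ) (q : ℕ)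
    (c : κ → Ext T) (w : Fin q → T) : evA T q (∑ i ∈ s, c i) w = ∑ i ∈ s, evA T q (c i) w := by
  classical
  induction s using Finset.induction_on with
  | empty => simp
  | insert i s hi ih =>
    rw [Finset.sum_insert hi, Finset.sum_insert hi, map_add, AlternatingMap.add_apply, ih]

theorem ind_pt {z : H} (hπ : DifferentiableAt ℝ π z) (hm : MapsTo π P X)
    (hs : ∀ w ∈ Tan X (π z), ∃ v ∈ Tan P z, fderiv ℝ π z v = w) {α : ι → Ext E} {ε : ι → Ext H}
    (h : pb (Tan P z).subtype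
      (∑ j, ε j * pb ((fderiv ℝ π z : H →L[ℝ] E) : H →ₗ[ℝ] E) (α j)) = 0) {d : ℕ}
    (ih : ∀ j, ∀ q < d, evA _ q (pb (Tan X (π z)).subtype (α j)) = 0)
    (w : Fin d → Tan X (π z)) : pb (Tan (P ∩ π ⁻¹' {π z}) z).subtype
      (∑ j, evA _ d (pb (Tan X (π z)).subtype (α j)) w • ε j) = 0 := by
  let A : Tan P z →ₗ[ℝ] Tan X (π z) :=
    (((fderiv ℝ π z : H →L[ℝ] E) : H →ₗ[ℝ] E) ∘ₗ (Tan P z).subtype).codRestrict _
      fun v => fderiv_mapsTo_Tan hπ hm v.2
  have hA : ∀ c, pb (Tan P z).subtype (pb ((fderiv ℝ π z : H →L[ℝ] E) : H →ₗ[ℝ] E) c) =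
      pb A (pb (Tan X (π z)).subtype c) := fun c => by rw [pb_comp, pb_comp]; rfl
  choose v hv hv' using fun i => hs (w i) (w i).2
  refine ext_evA fun r => AlternatingMap.ext fun u => ?_
  have hu : ∀ i, (u i : H) ∈ Tan P z := fun i => Tan_mono_of_subset inter_subset_left z (u i).2
  have hu0 : ∀ i, A ⟨u i, hu i⟩ = 0 := fun i => Subtype.ext (by
    have := fderiv_mapsTo_Tan (Y := {π z}) hπ (fun y hy => hy.2) (u i).2
    rwa [tan_singleton, Submodule.mem_bot] at this)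
  have h1 := congrArg (fun c => evA _ (r + d) c
    (Fin.append (fun i => (⟨u i, hu i⟩ : Tan P z)) fun i => ⟨v i, hv i⟩)) h
  have hw : (fun i => A ⟨v i, hv i⟩) = w := funext fun i => Subtype.ext (hv' i)
  rw [map_sum, evA_sum] at h1
  simp only [map_mul, hA, map_zero, AlternatingMap.zero_apply,
    evA_mul_pb A _ (ih _) _ _ _ hu0, hw] at h1
  rw [map_sum, evA_sum]
  simp only [map_smul, AlternatingMap.smul_apply, map_zero, AlternatingMap.zero_apply,
    smul_eq_mul]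
  rw [← h1]
  refine Finset.sum_congr rfl fun j _ => ?_
  rw [mul_comm, evA_pb r, evA_pb r]
  rfl

/-- the hypotheses of the Leray-Hirsch theorem, except the spanning property -/
structure LH (p : ℕ) (P : Set H) (m : ℕ) (X : Set E) (π : H → E) (deg : ι → ℕ)
    (e : ι → H → Ext H) : Prop where
  sub : Sub p P
  clo : Clo m X
  smooth : ContDiff ℝ ∞ π
  maps : MapsTo π P X
  subm : ∀ z ∈ P, ∀ w ∈ Tan X (π z), ∃ v ∈ Tan P z, fderiv ℝ π z v = w
  se : ∀ j, Sm P (e j)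
  ce : ∀ j, Cl P (e j)
  he : ∀ j, Hom (deg j) (e j)
  ind : ∀ x ∈ X, ∀ c : ι → ℝ, Coh (P ∩ π ⁻¹' {x}) (∑ j, c j • e j) 0 → ∀ j, c j = 0

namespace LH

theorem opn (L : LH p P m X π deg e) {U : Set E} (hU : IsOpen U) : IsOpen (π ⁻¹' U) :=
  hU.preimage L.smooth.continuous

theorem smap (L : LH p P m X π deg e) (U : Set E) : SMap (P ∩ π ⁻¹' U) (X ∩ U) π :=
  ⟨fun _ _ => L.smooth.contDiffAt, fun _ h => ⟨L.maps h.1, h.2⟩⟩

theorem sm_comb (L : LH p P m X π deg e) {U : Set E} {a : ι → E → Ext E}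
    (ha : ∀ j, Sm (X ∩ U) (a j)) : Sm (P ∩ π ⁻¹' U) (∑ j, e j * pull π (a j)) :=
  sm_sum _ fun j _ => ((L.se j).mono inter_subset_left).mul ((ha j).pull (L.smap U))

theorem d_comb (L : LH p P m X π deg e) {U : Set E} {a : ι → E → Ext E}
    (ha : ∀ j, Sm (X ∩ U) (a j)) : Eqv (P ∩ π ⁻¹' U) (d (∑ j, e j * pull π (a j)))
      (∑ j, e j * pull π ((-1 : ℝ) ^ deg j • d (a j))) := by
  have s1 := fun j => (L.se j).mono (X' := P ∩ π ⁻¹' U) inter_subset_left
  have s2 := fun j => (ha j).pull (L.smap U)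
  refine Eqv.trans (b := ∑ j, d (e j * pull π (a j))) (Eqv.of_eq fun z hz => ?_)
    (eqv_sum _ fun j _ => (d_mul_eqv (s1 j) (s2 j)).trans ?_)
  · rw [Finset.sum_apply, ← d_sum _ fun j _ => ((s1 j).mul (s2 j)).diff hz]
    congr 1
    exact funext fun y => Finset.sum_apply _ _ _
  · have h := ((resZero_iff.1 ((L.ce j).mono (X' := P ∩ π ⁻¹' U) inter_subset_left)).mul
      (Eqv.refl (pull π (a j)))).add
      ((Eqv.refl fun z => F.inv (e j z)).mul (d_pull_eqv (L.smap U) (ha j)))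
    rw [zero_mul, zero_add] at h
    refine h.trans (Eqv.of_eq fun z _ => ?_)
    rw [pull_smul', mul_smul_comm, Pi.mul_apply, inv_of_isDeg (L.he j z), smul_mul_assoc]
    rfl

/-- pointwise independence -/
theorem indep (L : LH p P m X π deg e) {U : Set E} (hU : IsOpen U) {a : ι → E → Ext E}
    (h : Eqv (P ∩ π ⁻¹' U) (∑ j, e j * pull π (a j)) 0) (j : ι) : ResZero (X ∩ U) (a j) := by
  intro x hx
  have key : ∀ d : ℕ, ∀ j, ∀ q < d, evA _ q (pb (Tan X x).subtype (a j x)) = 0 := by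
    intro d
    induction d with
    | zero => exact fun _ _ h => absurd h (Nat.not_lt_zero _)
    | succ d ih =>
      intro j q hq
      rcases (Nat.lt_succ_iff.1 hq).lt_or_eq with hq | rfl
      · exact ih j q hq
      refine AlternatingMap.ext fun w => L.ind x hx.1
        (fun j => evA _ q (pb (Tan X x).subtype (a j x)) w) (Coh.of_eqv (resZero_iff.1 ?_)) j
      rintro z ⟨hz, rfl : π z = x⟩
      have h1 := eqv_of_open (L.opn hU) h hz hx.2
      rw [Pi.zero_apply, map_zero, Finset.sum_apply] at h1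
      rw [Finset.sum_apply]
      exact ind_pt (L.smooth.differentiable (by simp) z) L.maps (L.subm z hz) h1 ih w
  have h0 : pb (Tan X x).subtype (a j x) = 0 :=
    ext_evA fun q => by rw [key (q + 1) j q (Nat.lt_succ_self q), map_zero]
  have h1 : ∀ K : Submodule ℝ E, K = Tan X x → pb K.subtype (a j x) = 0 := by
    rintro K rfl; exact h0
  exact h1 _ (Tan_inter_open hU hx.2)

theorem cl_of_comb (L : LH p P m X π deg e) {U : Set E} (hU : IsOpen U) {a : ι → E → Ext E}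
    (ha : ∀ j, Sm (X ∩ U) (a j)) (h : Cl (P ∩ π ⁻¹' U) (∑ j, e j * pull π (a j))) (j : ι) :
    Cl (X ∩ U) (a j) := by
  have h1 := resZero_iff.1 (L.indep hU ((L.d_comb ha).symm.trans (resZero_iff.1 h)) j)
  have h2 := h1.smul ((-1 : ℝ) ^ deg j)
  rw [smul_zero, smul_smul, ← mul_pow, neg_one_mul, neg_neg, one_pow, one_smul] at h2
  exact resZero_iff.2 h2

/-- forms on `P` modulo `∑ e j ∧ π^* a j` -/
def fine (L : LH p P m X π deg e) : Fine E (H → Ext H) where
  Sm U :=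
    { carrier := {t | T.Sm (P ∩ π ⁻¹' U) t}
      zero_mem' := Sm.zero
      add_mem' := Sm.add
      neg_mem' := Sm.neg }
  Nu U :=
    { carrier := {t | ∃ a : ι → E → Ext E, (∀ j, T.Sm (X ∩ U) (a j)) ∧
        Eqv (P ∩ π ⁻¹' U) t (∑ j, e j * pull π (a j))}
      zero_mem' := ⟨0, fun _ => Sm.zero, by
        simp only [Pi.zero_apply, pull_zero', mul_zero, Finset.sum_const_zero]
        exact Eqv.refl _⟩
      add_mem' := by
        rintro s t ⟨a, h1, h2⟩ ⟨b, h3, h4⟩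
        refine ⟨a + b, fun j => (h1 j).add (h3 j), ?_⟩
        simp only [Pi.add_apply, pull_add', mul_add, Finset.sum_add_distrib]
        exact h2.add h4
      neg_mem' := by
        rintro s ⟨a, h1, h2⟩
        refine ⟨-a, fun j => (h1 j).neg, ?_⟩
        simp only [Pi.neg_apply, pull_neg', mul_neg, Finset.sum_neg_distrib]
        exact h2.neg }
  D := d
  mu χ := fm fun z => χ (π z)
  sm_mono hU _ ht := Sm.mono (inter_subset_inter_right _ (preimage_mono hU)) ht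
  nu_mono hU := by
    rintro t ⟨a, h1, h2⟩
    exact ⟨a, fun j => (h1 j).mono (inter_subset_inter_right _ hU),
      h2.mono_tan (inter_subset_inter_right _ (preimage_mono hU))⟩
  D_sm _ ht := Sm.d ht
  D_nu := by
    rintro U t hU ht ⟨a, h1, h2⟩
    exact ⟨_, fun j => (h1 j).d.smul _,
      (h2.d (L.sub.inter_open (L.opn hU)) ht (L.sm_comb h1)).trans (L.d_comb h1)⟩
  D_sub := fun {_ s t} _ hs ht => ⟨0, fun _ => Sm.zero, by
    simp only [Pi.zero_apply, pull_zero', mul_zero, Finset.sum_const_zero]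
    have := (d_sub_eqv hs ht).sub (Eqv.refl (d s - d t))
    rwa [sub_self] at this⟩
  DD _ ht := ⟨0, fun _ => Sm.zero, by
    simp only [Pi.zero_apply, pull_zero', mul_zero, Finset.sum_const_zero]
    exact resZero_iff.1 (d_d' ht)⟩
  mu_sm _ _ hχ ho ht := sm_fm_off (hχ.comp L.smooth)
    (fun z h1 h2 => L.smooth.continuous.continuousAt.eventually (ho _ h1 h2)) ht
  mu_nu := by
    rintro U U' χ t hU - hχ ho - ⟨a, h1, h2⟩
    refine ⟨fun j => fm χ (a j), fun j => sm_fm_off hχ ho (h1 j), (eqv_fm_off (L.opn hU)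
      (fun z h1 h2 => L.smooth.continuous.continuousAt.eventually (ho _ h1 h2)) h2).trans
      (Eqv.of_eq fun z _ => ?_)⟩
    simp only [fm, Finset.sum_apply, Finset.smul_sum, Pi.mul_apply, pull, map_smul, mul_smul_comm]
  mu_sub _ _ _ := funext fun _ => smul_sub _ _ _
  mu_one _ _ _ := ⟨0, fun _ => Sm.zero, by
    simp only [Pi.zero_apply, pull_zero', mul_zero, Finset.sum_const_zero]
    rw [fm_one, sub_self]
    exact Eqv.refl _⟩
  nu_empty _ _ := ⟨0, fun _ => Sm.zero, fun _ h => h.2.elim⟩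

/-- the spanning hypothesis over the small convex patches -/
def Span (P : Set H) (m : ℕ) (X : Set E) (π : H → E) (e : ι → H → Ext H) (V : Set E) : Prop :=
  ∀ (f : Eu m → E) (W : Set (Eu m)) (O : Set E) (ℓ : E → Eu m), Loc X f W O ℓ → O ⊆ V →
    Convex ℝ W → W.Nonempty → ∀ t, Sm (P ∩ π ⁻¹' O) t → Cl (P ∩ π ⁻¹' O) t →
      ∃ c : ι → ℝ, Coh (P ∩ π ⁻¹' O) t (∑ j, c j • e j)

theorem mul_pull_const (π : H → E) (b : H → Ext H) (κ : ℝ) :
    b * pull π (fun _ => algebraMap ℝ (Ext E) κ) = κ • b := funext fun z => by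
  rw [Pi.mul_apply, pull, AlgHom.commutes, ← Algebra.commutes, ← Algebra.smul_def, Pi.smul_apply]

theorem base (L : LH p P m X π deg e) {V : Set E} (hV : Span P m X π e V) :
    L.fine.BaseIn m X V := by
  rintro f W O ℓ h hOV hW hne t st ⟨a, sa, ha⟩
  replace st : Sm (P ∩ π ⁻¹' O) t := st
  replace ha : Eqv (P ∩ π ⁻¹' O) (d t) (∑ j, e j * pull π (a j)) := ha
  have hQ := L.sub.inter_open (L.opn h.oO)
  have ca := L.cl_of_comb h.oO sa (Cl.of_eqv hQ (L.sm_comb sa) st.d ha.symm (d_d' st))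
  choose κ γ sγ eγ using fun j => coh_const h hW hne (sa j) (ca j)
  have sγ' : ∀ j, Sm (X ∩ O) ((-1 : ℝ) ^ deg j • γ j) := fun j => (sγ j).smul _
  have s1 := st.sub (L.sm_comb sγ')
  have e1 : Eqv (P ∩ π ⁻¹' O) (d (t - ∑ j, e j * pull π ((-1 : ℝ) ^ deg j • γ j)))
      (∑ j, κ j • e j) := by
    refine (d_sub_eqv st (L.sm_comb sγ')).trans ((ha.sub (L.d_comb sγ')).trans ?_)
    rw [← Finset.sum_sub_distrib]
    refine eqv_sum _ fun j _ => ?_
    rw [← mul_sub, ← pull_sub', ← mul_pull_const π]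
    refine (Eqv.refl _).mul (Eqv.pull (L.smap O) ?_)
    have h1 := (Eqv.refl (a j)).sub ((d_smul_eqv ((-1 : ℝ) ^ deg j) (sγ j)).smul
      ((-1 : ℝ) ^ deg j))
    rw [smul_smul, ← mul_pow, neg_one_mul, neg_neg, one_pow, one_smul] at h1
    have h2 := (Eqv.refl (a j)).sub (eγ j).symm
    rw [sub_sub_cancel] at h2
    exact h1.trans h2
  obtain ⟨u₀, hu₀⟩ := hne
  have k0 := L.ind _ (h.mem hu₀).1 κ (((Coh.of_eqv e1.symm).trans (coh_d s1)).mono
    (inter_subset_inter_right _ (preimage_mono (singleton_subset_iff.2 (h.mem hu₀).2))))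
  simp only [k0, zero_smul, Finset.sum_const_zero] at e1
  obtain ⟨c, s, ss, hs⟩ := hV f W O ℓ h hOV hW ⟨u₀, hu₀⟩ _ s1 (resZero_iff.2 e1)
  refine ⟨s, ss, fun j => (-1 : ℝ) ^ deg j • γ j + fun _ => algebraMap ℝ (Ext E) (c j),
    fun j => (sγ' j).add fun _ _ => contDiffAt_const, ?_⟩
  simp only [pull_add', mul_add, Finset.sum_add_distrib, mul_pull_const]
  have := ((Eqv.refl t).sub hs.symm)
  rwa [sub_sub, sub_sub_cancel] at this

end LH

/-- **Leray-Hirsch** -/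
theorem leray_hirsch (L : LH p P m X π deg e)
    (hV : ∀ x ∈ X, ∃ V, IsOpen V ∧ x ∈ V ∧ LH.Span P m X π e V) {w : H → Ext H} (sw : Sm P w)
    (cw : Cl P w) : ∃ a : ι → E → Ext E, (∀ j, Sm X (a j)) ∧ (∀ j, Cl X (a j)) ∧
      Coh P w (∑ j, e j * pull π (a j)) := by
  obtain ⟨U, o, k, -, s, ss, a, sa, ha⟩ := Fine.ex_compact_loc (C := L.fine) L.clo.sub
    (fun x hx => (hV x hx).imp fun V h => ⟨h.1, h.2.1, L.base h.2.2⟩) L.clo.compact subset_rfl
    univ isOpen_univ (subset_univ _) w (sw.mono inter_subset_left)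
    ⟨0, fun _ => Sm.zero, by
      simp only [Pi.zero_apply, pull_zero', mul_zero, Finset.sum_const_zero]
      exact resZero_iff.1 (cw.mono inter_subset_left)⟩
  replace ss : Sm (P ∩ π ⁻¹' U) s := ss
  replace ha : Eqv (P ∩ π ⁻¹' U) (w - d s) (∑ j, e j * pull π (a j)) := ha
  have sw' : Sm (P ∩ π ⁻¹' U) w := sw.mono inter_subset_left
  have ca := L.cl_of_comb o sa (Cl.of_eqv (L.sub.inter_open (L.opn o)) (L.sm_comb sa)
    (sw'.sub ss.d) ha.symm (Cl.sub sw' ss.d (cw.mono inter_subset_left) (d_d' ss)))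
  have e1 : X ∩ U = X := inter_eq_left.2 k
  have e2 : P ∩ π ⁻¹' U = P := inter_eq_left.2 fun z hz => k (L.maps hz)
  rw [e1] at sa ca
  rw [e2] at ss ha
  refine ⟨a, sa, ca, s, ss, ?_⟩
  have := (Eqv.refl w).sub ha.symm
  rwa [sub_sub_cancel] at this

/-- spanning from a deformation retraction onto a subset -/
theorem span_of_retract {Q S : Set H} (hS : S ⊆ Q) {Fh : H × ℝ → H}
    (hF : ∀ z ∈ Q, ∀ s ∈ Icc (0 : ℝ) 1, ContDiffAt ℝ ∞ Fh (z, s))
    (hm : ∀ z ∈ Q, ∀ s ∈ Icc (0 : ℝ) 1, Fh (z, s) ∈ Q) (h1 : ∀ z ∈ Q, Fh (z, 1) = z)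
    (h0 : ∀ z ∈ Q, Fh (z, 0) ∈ S) {a b : H → Ext H} (sa : Sm Q a) (ca : Cl Q a) (sb : Sm Q b)
    (cb : Cl Q b) (h : Coh S a b) : Coh Q a b := by
  have hs : ∀ s ∈ Icc (0 : ℝ) 1, ∀ z ∈ Q, ContDiffAt ℝ ∞ (fun y => Fh (y, s)) z :=
    fun s hs z hz => (hF z hz s hs).comp z (contDiffAt_id.prodMk contDiffAt_const)
  have key : ∀ c, Sm Q c → Cl Q c → Coh Q c (pull (fun y => Fh (y, 0)) c) := fun c sc cc =>
    Coh.trans (Coh.of_eqv ((Eqv.of_eq fun x _ => (pull_id c x).symm).trans (eqv_pull_of_eq c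
      (fun _ _ => differentiableAt_id)
      (fun z hz => (hs 1 ⟨zero_le_one, le_rfl⟩ z hz).differentiableAt (by simp))
      fun z hz => (h1 z hz).symm))) (coh_homotopy hF hm sc cc)
  have _ := hS
  exact (key a sa ca).trans
    ((h.pull ⟨hs 0 ⟨le_rfl, zero_le_one⟩, h0⟩).trans (key b sb cb).symm)

section prod

variable {G : Type v} [NormedAddCommGroup G] [NormedSpace ℝ G] [FiniteDimensional ℝ G]
  {n : ℕ} {Y : Set G} {e : ι → E → Ext E}

theorem pull_slice_fst (y : G) (a : E → Ext E) :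
    pull (fun x => (x, y)) (pull (Prod.fst : E × G → E) a) = a := funext fun x => by
  rw [pull_comp (by fun_prop) differentiableAt_fst]
  exact pull_id a x

theorem smap_slice {S : Set G} {y : G} (hy : y ∈ Y) (hS : y ∈ S) :
    SMap X (X ×ˢ Y ∩ Prod.snd ⁻¹' S) fun x => (x, y) :=
  ⟨fun _ _ => contDiffAt_id.prodMk contDiffAt_const, fun _ hx => ⟨⟨hx, hy⟩, hS⟩⟩

theorem pull_comb (f : H → E) (c : ι → ℝ) (e : ι → E → Ext E) :
    pull f (∑ j, c j • e j) = ∑ j, c j • pull f (e j) := by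
  simp only [pull_sum', pull_smul']

/-- **Kuenneth** -/
theorem kunneth (hX : Sub m X) (hY : Clo n Y) (se : ∀ j, Sm X (e j)) (ce : ∀ j, Cl X (e j))
    (he : ∀ j, Hom (deg j) (e j)) (ind : ∀ c : ι → ℝ, Coh X (∑ j, c j • e j) 0 → ∀ j, c j = 0)
    (span : ∀ a, Sm X a → Cl X a → ∃ c : ι → ℝ, Coh X a (∑ j, c j • e j))
    {w : E × G → Ext (E × G)} (sw : Sm (X ×ˢ Y) w) (cw : Cl (X ×ˢ Y) w) :
    ∃ b : ι → G → Ext G, (∀ j, Sm Y (b j)) ∧ (∀ j, Cl Y (b j)) ∧
      Coh (X ×ˢ Y) w (∑ j, bx (e j) (b j)) := by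
  have L : LH (m + n) (X ×ˢ Y) n Y Prod.snd deg fun j => pull Prod.fst (e j) :=
    { sub := hX.prod hY.sub
      clo := hY
      smooth := contDiff_snd
      maps := fun _ h => h.2
      subm := by
        rintro ⟨x, y⟩ ⟨hx, hy⟩ w hw
        refine ⟨(0, w), ?_, ?_⟩
        · rw [Tan_prod hX hY.sub hx hy]
          exact ⟨Submodule.zero_mem _, hw⟩
        · rw [hasFDerivAt_snd.fderiv]; rfl
      se := fun j => (se j).pull smap_fst
      ce := fun j => (ce j).pull smap_fst (se j)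
      he := fun j => (he j).pull
      ind := fun y hy c h => ind c (by
        have := h.pull (smap_slice (X := X) hy (mem_singleton y))
        rwa [← pull_comb, pull_slice_fst, pull_zero'] at this) }
  refine leray_hirsch L (fun y _ => ⟨univ, isOpen_univ, mem_univ _, ?_⟩) sw cw
  rintro f W O ℓ h - hW ⟨u₀, hu₀⟩ t st ct
  have hs := smap_slice (X := X) (h.mem hu₀).1 (h.mem hu₀).2
  obtain ⟨c, hc⟩ := span _ (st.pull hs) (ct.pull hs st)
  have hm : ∀ z ∈ X ×ˢ Y ∩ Prod.snd ⁻¹' O, ∀ s ∈ Icc (0 : ℝ) 1, (1 - s) • u₀ + s • ℓ z.2 ∈ W :=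
    fun z hz s hs => hW hu₀ (h.maps _ hz.2) (sub_nonneg.2 hs.2) hs.1 (sub_add_cancel _ _)
  have s1 := fun j => (L.se j).mono (X' := X ×ˢ Y ∩ Prod.snd ⁻¹' O) inter_subset_left
  have hS : X ×ˢ ({f u₀} : Set G) ⊆ X ×ˢ Y ∩ Prod.snd ⁻¹' O := by
    rintro ⟨x, y⟩ ⟨hx, rfl : y = f u₀⟩
    exact hs.maps hx
  refine ⟨c, span_of_retract hS
    (Fh := fun q => (q.1.1, f ((1 - q.2) • u₀ + q.2 • ℓ q.1.2))) (fun z hz s hs => ?_)
    (fun z hz s hs => ⟨⟨hz.1.1, (h.mem (hm z hz s hs)).1⟩, (h.mem (hm z hz s hs)).2⟩)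
    (fun z hz => ?_) (fun z hz => ⟨hz.1.1, ?_⟩) st ct (sm_sum _ fun j _ => (s1 j).smul _)
    (cl_sum _ (fun j _ => (s1 j).smul _) fun j _ => Cl.smul _ (s1 j)
      ((L.ce j).mono inter_subset_left)) ?_⟩
  · refine ContDiffAt.prodMk (by fun_prop) ((h.fC' (hm z hz s hs)).comp (z, s)
      (ContDiffAt.add (by fun_prop) (contDiffAt_snd.smul ((h.lC' hz.2).comp (z, s) ?_))))
    fun_prop
  · simp only [sub_self, zero_smul, one_smul, zero_add, h.right_inv hz.1.2 hz.2]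
  · simp only [sub_zero, zero_smul, one_smul, add_zero, mem_singleton_iff]
  · have h1 := hc.pull (smap_fst (Y := ({f u₀} : Set G)))
    rw [pull_comb] at h1
    refine Coh.trans (Coh.of_eqv ?_) h1
    refine (Eqv.of_eq fun x _ => (pull_id t x).symm).trans ((eqv_pull_of_eq t
      (g := (fun x => (x, f u₀)) ∘ Prod.fst) (fun _ _ => differentiableAt_id)
      (fun _ _ => by fun_prop) fun z hz => Prod.ext rfl hz.2).trans (Eqv.of_eq fun z _ => ?_))
    rw [pull_comp differentiableAt_fst (by fun_prop)]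

/-- **Kuenneth** with dual bases -/
theorem PDB.kunneth {ι : Type} [Fintype ι] [DecidableEq ι] {deg : ι → ℕ} {o : E → Ext E}
    {e f : ι → E → Ext E} (h : PDB m X o deg e f) (hX : Clo m X) (ho : Ori m X o) (hY : Clo n Y)
    {w : E × G → Ext (E × G)} (sw : Sm (X ×ˢ Y) w) (cw : Cl (X ×ˢ Y) w) :
    ∃ b : ι → G → Ext G, (∀ j, Sm Y (b j)) ∧ (∀ j, Cl Y (b j)) ∧
      Coh (X ×ˢ Y) w (∑ j, bx (e j) (b j)) :=
  PD.kunneth hX.sub hY h.se h.ce h.he (fun _ hc => h.indep hX ho hc)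
    (fun a sa ca => ⟨_, h.span a sa ca⟩) sw cw

end prod

end Crest.Agent.X262.PD
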