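import Crest.Agent.X262.PD.Fine

/-!
# Row 262, PD (helper97): test forms, integration by parts, the fundamental lemma
-/

set_option autoImplicit false
set_option linter.unusedSectionVars false

open Set Filter Topology Module
open scoped ContDiff
open Crest.Agent.R208 Crest.Agent.R208.F Crest.Agent.R208.FI Crest.Agent.R208.T

noncomputable section

namespace Crest.Agent.X262.PD

section alg
variable {T : Type*} [AddCommGroup T] [Module ℝ T] [FiniteDimensional ℝ T]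

/-- the wedge pairing is non degenerate -/
theorem exists_wedge {n : ℕ} (hn : finrank ℝ T = n) {a : Ext T} (ha : a ≠ 0) :
    ∃ (c : Ext T) (w : Fin n → T), evA T n (a * c) w ≠ 0 := by
  classical
  have h1 : ∃ q v, evA T q a v ≠ 0 := by
    by_contra h
    push Not at h
    exact ha (eq_zero_of_evA fun q => AlternatingMap.ext (h q))
  obtain ⟨q, v, hv⟩ := h1
  have hli : LinearIndependent ℝ v := by
    by_contra h
    exact hv ((evA T q a).map_linearDependent v h)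
  set S : Submodule ℝ T := Submodule.span ℝ (range v) with hS
  have hq : finrank ℝ S = q := by rw [hS, finrank_span_eq_card hli, Fintype.card_fin]
  set r := finrank ℝ (T ⧸ S) with hr
  have hqr : q + r = n := by
    have := S.finrank_quotient_add_finrank
    omega
  subst hqr
  let b := Module.finBasis ℝ (T ⧸ S)
  choose u hu using fun i => S.mkQ_surjective (b i)
  let c : Ext (T ⧸ S) := ExteriorAlgebra.ιMulti ℝ r fun i => b.coord i
  refine ⟨pb S.mkQ c, Fin.append v u, ?_⟩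
  rw [evA_mul_pb S.mkQ c (fun q hq => evA_iMulti_ne (by omega) _) u a v
    (fun i => (Submodule.Quotient.mk_eq_zero S).2 (Submodule.subset_span ⟨i, rfl⟩))]
  refine mul_ne_zero hv ?_
  rw [evA_iMulti]
  have : (Matrix.of fun i j => b.coord j (S.mkQ (u i))) = 1 := by
    ext i j
    rw [Matrix.of_apply, hu, Basis.coord_apply, Basis.repr_self, Finsupp.single_apply,
      Matrix.one_apply]
  rw [this, Matrix.det_one]
  exact one_ne_zero

theorem pb_zero_eq {T' : Type*} [AddCommGroup T'] [Module ℝ T'] (c : Ext T') :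
    pb (0 : T →ₗ[ℝ] T') c = algebraMap ℝ (Ext T) (evA T' 0 c Fin.elim0) := by
  refine ext_evA fun q => ?_
  ext v
  rw [evA_pb]
  rcases q with _ | q
  · rw [evA_zero_algebraMap]
    congr 1
    exact Subsingleton.elim _ _
  · rw [evA_succ_algebraMap]
    exact (evA T' (q + 1) c).map_coord_zero 0 rfl

end alg

variable {E : Type*} [NormedAddCommGroup E] [NormedSpace ℝ E] [FiniteDimensional ℝ E]
  {n : ℕ} {X U U' : Set E} {o a b φ ψ : E → Ext E} {χ : E → ℝ}

/-- test forms with support in `U` -/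
structure Cs (X U : Set E) (φ : E → Ext E) : Prop where
  sm : Sm X φ
  off : ∀ x ∈ X, x ∉ U → ∀ᶠ y in 𝓝 x, φ y = 0

theorem Cs.univ (h : Sm X φ) : Cs X univ φ := ⟨h, fun _ _ h => absurd (mem_univ _) h⟩

theorem Cs.of_subset (h : Sm X φ) (hU : X ⊆ U) : Cs X U φ := ⟨h, fun _ hx h => absurd (hU hx) h⟩

theorem Cs.mono (h : Cs X U φ) (hU : U ⊆ U') : Cs X U' φ :=
  ⟨h.sm, fun x hx hx' => h.off x hx fun h' => hx' (hU h')⟩

theorem Cs.zero : Cs X U (0 : E → Ext E) := ⟨Sm.zero, fun _ _ _ => Eventually.of_forall fun _ => rfl⟩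

theorem Cs.add (h : Cs X U φ) (h' : Cs X U ψ) : Cs X U (φ + ψ) :=
  ⟨h.sm.add h'.sm, fun x hx hx' => by
    filter_upwards [h.off x hx hx', h'.off x hx hx'] with y h1 h2
    rw [Pi.add_apply, h1, h2, add_zero]⟩

theorem Cs.smul (r : ℝ) (h : Cs X U φ) : Cs X U (r • φ) :=
  ⟨h.sm.smul r, fun x hx hx' => by
    filter_upwards [h.off x hx hx'] with y h1
    rw [Pi.smul_apply, h1, smul_zero]⟩

theorem Cs.neg (h : Cs X U φ) : Cs X U (-φ) := by
  rw [← neg_one_smul ℝ φ]; exact h.smul _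

theorem Cs.sub (h : Cs X U φ) (h' : Cs X U ψ) : Cs X U (φ - ψ) := by
  rw [sub_eq_add_neg]; exact h.add h'.neg

theorem d_ev_zero {x : E} (h : ∀ᶠ y in 𝓝 x, φ y = 0) : ∀ᶠ y in 𝓝 x, d φ y = 0 := by
  have h1 : φ =ᶠ[𝓝 x] fun _ => 0 := h
  filter_upwards [d_congr_nhds h1] with y hy
  rw [hy, d_const]

theorem Cs.d (h : Cs X U φ) : Cs X U (d φ) :=
  ⟨h.sm.d, fun x hx hx' => d_ev_zero (h.off x hx hx')⟩

theorem Cs.dp (j : ℕ) (h : Cs X U φ) : Cs X U (dp j φ) :=
  ⟨h.sm.dp j, fun x hx hx' => (h.off x hx hx').mono fun y hy => by rw [T.dp, hy, map_zero]⟩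

theorem Cs.inv (h : Cs X U φ) : Cs X U (fun x => F.inv (φ x)) :=
  ⟨h.sm.inv, fun x hx hx' => (h.off x hx hx').mono fun y hy => by rw [hy, map_zero]⟩

/-- multiplication by a function -/
def fm (χ : E → ℝ) (a : E → Ext E) : E → Ext E := fun x => χ x • a x

theorem sm_fm (hχ : ContDiff ℝ ∞ χ) (ha : Sm X a) : Sm X (fm χ a) := fun x hx =>
  hχ.contDiffAt.smul (ha x hx)

theorem Cs.fm (hχ : ContDiff ℝ ∞ χ) (ho : Off χ U' U) (h : Cs X U' φ) : Cs X U (fm χ φ) := by
  refine ⟨sm_fm hχ h.sm, fun x hx hx' => ?_⟩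
  by_cases h1 : x ∈ U'
  · exact (ho x h1 hx').mono fun y hy => by rw [PD.fm, hy, zero_smul]
  · exact (h.off x hx h1).mono fun y hy => by rw [PD.fm, hy, smul_zero]

theorem sm_fm_off (hχ : ContDiff ℝ ∞ χ) (ho : Off χ U' U) (ha : Sm (X ∩ U) a) :
    Sm (X ∩ U') (fm χ a) := by
  intro x hx
  by_cases h : x ∈ U
  · exact hχ.contDiffAt.smul (ha x ⟨hx.1, h⟩)
  · exact contDiffAt_const.congr_of_eventuallyEq
      ((ho x hx.2 h).mono fun y hy => by rw [fm, hy, zero_smul])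

theorem Cs.mul_left (ha : Sm (X ∩ U) a) (h : Cs X U φ) : Cs X U (a * φ) := by
  have h0 : ∀ x ∈ X, x ∉ U → ∀ᶠ y in 𝓝 x, (a * φ) y = 0 := fun x hx hx' =>
    (h.off x hx hx').mono fun y hy => by rw [Pi.mul_apply, hy, mul_zero]
  refine ⟨fun x hx => ?_, h0⟩
  by_cases h1 : x ∈ U
  · exact contDiffAt_mul (ha x ⟨hx, h1⟩) (h.sm x hx)
  · exact contDiffAt_const.congr_of_eventuallyEq (h0 x hx h1)

theorem Cs.mul_right (ha : Sm (X ∩ U) a) (h : Cs X U φ) : Cs X U (φ * a) := by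
  have h0 : ∀ x ∈ X, x ∉ U → ∀ᶠ y in 𝓝 x, (φ * a) y = 0 := fun x hx hx' =>
    (h.off x hx hx').mono fun y hy => by rw [Pi.mul_apply, hy, zero_mul]
  refine ⟨fun x hx => ?_, h0⟩
  by_cases h1 : x ∈ U
  · exact contDiffAt_mul (h.sm x hx) (ha x ⟨hx, h1⟩)
  · exact contDiffAt_const.congr_of_eventuallyEq (h0 x hx h1)

theorem cont_of_sm (h : Sm X a) : ContinuousOn a X := fun x hx =>
  (h x hx).continuousAt.continuousWithinAt

theorem eqv_mul_cs (hU : IsOpen U) (h : Eqv (X ∩ U) a b) (hφ : Cs X U φ) :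
    Eqv X (a * φ) (b * φ) := by
  refine eqv_iff.2 fun x hx => ?_
  by_cases h1 : x ∈ U
  · rw [Pi.mul_apply, Pi.mul_apply, map_mul, map_mul, eqv_of_open hU h hx h1]
  · rw [Pi.mul_apply, Pi.mul_apply, (hφ.off x hx h1).self_of_nhds, mul_zero, mul_zero]

theorem J_eqv (hX : Clo n X) (h : Eqv X a b) : J n X o a = J n X o b := by
  refine J_congr hX fun x hx w hw => ?_
  have := ResZero.evA h hx hw
  rwa [Pi.sub_apply, map_sub, AlternatingMap.sub_apply, sub_eq_zero] at this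

theorem J_add' (hX : Clo n X) (ho : Ori n X o) (ha : Sm X a) (hb : Sm X b) :
    J n X o (a + b) = J n X o a + J n X o b := J_add hX ho (cont_of_sm ha) (cont_of_sm hb)

theorem J_sub' (hX : Clo n X) (ho : Ori n X o) (ha : Sm X a) (hb : Sm X b) :
    J n X o (a - b) = J n X o a - J n X o b := J_sub hX ho (cont_of_sm ha) (cont_of_sm hb)

theorem J_smul' (r : ℝ) : J n X o (r • a) = r * J n X o a := J_smul r

theorem J_neg' : J n X o (-a) = - J n X o a := J_neg

theorem J_zero' : J n X o (0 : E → Ext E) = 0 := J_zero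

theorem J_sum' (hX : Clo n X) (ho : Ori n X o) {ι : Type*} (s : Finset ι) {w : ι → E → Ext E}
    (h : ∀ i ∈ s, Sm X (w i)) : J n X o (∑ i ∈ s, w i) = ∑ i ∈ s, J n X o (w i) := by
  rw [← J_sum hX ho s fun i hi => cont_of_sm (h i hi)]
  congr 1
  funext x
  rw [Finset.sum_apply]

theorem J_d' (hX : Clo n X) (ho : Ori n X o) (ha : Sm X a) : J n X o (d a) = 0 :=
  J_d hX ho fun x hx => (ha x hx).of_le (by exact_mod_cast le_top)

theorem J_coh (hX : Clo n X) (ho : Ori n X o) (ha : Sm X a) (hb : Sm X b) (h : Coh X a b) :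
    J n X o a = J n X o b := by
  obtain ⟨ξ, h1, h2⟩ := h
  rw [← sub_eq_zero, ← J_sub' hX ho ha hb, J_eqv hX h2, J_d' hX ho h1]

/-- forms of the wrong degree have integral zero -/
theorem J_hom_ne (hX : Clo n X) {j : ℕ} (h : Hom j a) (hj : n ≠ j) : J n X o a = 0 :=
  J_eq_zero hX fun x _ w _ => by rw [h x n hj]; rfl

theorem J_dp (hX : Clo n X) : J n X o (dp n a) = J n X o a :=
  J_congr hX fun x _ w _ => by rw [T.dp, evA_dpl, if_pos rfl]

/-- **integration by parts** -/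
theorem J_parts (hX : Clo n X) (ho : Ori n X o) (ha : Sm (X ∩ U) a) (hφ : Cs X U φ) :
    J n X o (a * d φ) = J n X o ((fun x => F.inv (d a x)) * φ) := by
  have h1 := J_d' hX ho (hφ.mul_left ha.inv).sm
  have h2 : ∀ x ∈ X, d ((fun x => F.inv (a x)) * φ) x =
      (a * d φ - (fun x => F.inv (d a x)) * φ) x := by
    intro x hx
    by_cases h : x ∈ U
    · have := d_mul (ha.inv.diff ⟨hx, h⟩) (hφ.sm.diff hx)
      rw [F.inv_inv, CW.d_inv (ha.diff ⟨hx, h⟩)] at this
      refine this.trans ?_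
      simp only [Pi.sub_apply, Pi.mul_apply, neg_mul]
      abel
    · rw [(d_ev_zero ((hφ.mul_left ha.inv).off x hx h)).self_of_nhds]
      simp only [Pi.sub_apply, Pi.mul_apply]
      rw [(hφ.off x hx h).self_of_nhds, (hφ.d.off x hx h).self_of_nhds, mul_zero, mul_zero,
        sub_zero]
  rw [J_congr' hX h2, J_sub' hX ho (hφ.d.mul_left ha).sm (hφ.mul_left ha.d.inv).sm,
    sub_eq_zero] at h1
  exact h1

theorem exists_bump {x : E} {N : Set E} (hN : N ∈ 𝓝 x) :
    ∃ ρ : E → ℝ, ContDiff ℝ ∞ ρ ∧ tsupport ρ ⊆ N ∧ ρ x = 1 ∧ ∀ y, 0 ≤ ρ y := by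
  obtain ⟨ρ, h1, -, h2, h3, h4⟩ := exists_contDiff_tsupport_subset (n := ⊤) hN
  exact ⟨ρ, h2, h1, h4, fun y => (h3 ⟨y, rfl⟩).1⟩

theorem off_of_tsupport (h : tsupport χ ⊆ U) (V : Set E) : Off χ V U := fun _ _ hx =>
  notMem_tsupport_iff_eventuallyEq.1 fun h' => hx (h h')

/-- **the fundamental lemma** -/
theorem resZero_of_test (hX : Clo n X) (ho : Ori n X o) (hU : IsOpen U) (ha : Sm (X ∩ U) a)
    (h : ∀ φ, Cs X U φ → J n X o (a * φ) = 0) : ResZero (X ∩ U) a := by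
  intro x hx
  rw [Tan_inter_open hU hx.2]
  by_contra hne
  obtain ⟨c, w, hc⟩ := exists_wedge (hX.finrank_Tan hx.1) hne
  obtain ⟨π, hπ⟩ := (Tan X x).subtype.exists_leftInverse_of_injective (Submodule.ker_subtype _)
  have e1 : evA E n (a x * pb π c) (fun i => (w i : E)) ≠ 0 := by
    have := evA_pb n (Tan X x).subtype (a x * pb π c) w
    rw [map_mul, pb_comp, hπ, pb_id] at this
    exact fun h0 => hc (this.trans h0)
  obtain ⟨δ, hδ, -⟩ := hX.exists_det hx.1 (w := fun i => (w i : E)) fun i => (w i).2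
  have e2 : evA E n (a x * pb π c) (frame n X x) ≠ 0 := fun h0 => e1 (by rw [hδ, h0, mul_zero])
  obtain ⟨ρ, r1, r2, r3, -⟩ := exists_bump (hU.mem_nhds hx.2)
  have c1 : Cs X U (fm ρ fun _ => pb π c) :=
    (Cs.univ fun _ _ => contDiffAt_const).fm r1 (off_of_tsupport r2 _)
  set g := dens n X o (a * fm ρ fun _ => pb π c) with hg
  have gc : ContinuousOn g X := continuousOn_dens hX ho (cont_of_sm (c1.mul_left ha).sm)
  have g0 : g x ≠ 0 := by
    rw [hg, dens, Pi.mul_apply, fm, r3, one_smul]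
    exact mul_ne_zero e2 fun h0 => ho.ne x hx.1 (Real.sign_eq_zero_iff.1 h0)
  have g1 : ∀ᶠ y in 𝓝[X] x, 0 < g x * g y :=
    (continuousWithinAt_const.mul (gc x hx.1)).eventually (lt_mem_nhds (mul_self_pos.2 g0))
  obtain ⟨N, hN, hN'⟩ := mem_nhdsWithin_iff_exists_mem_nhds_inter.1 g1
  obtain ⟨σ, s1, s2, s3, s4⟩ := exists_bump hN
  have c2 : Cs X U (fm (fun y => g x * σ y) (fm ρ fun _ => pb π c)) :=
    c1.fm (contDiff_const.mul s1) (Fine.off_self _ subset_rfl)
  have e3 : ∀ y, dens n X o (a * fm (fun y => g x * σ y) (fm ρ fun _ => pb π c)) y =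
      σ y * (g x * g y) := by
    intro y
    have : (a * fm (fun y => g x * σ y) (fm ρ fun _ => pb π c)) =
        fun y => (g x * σ y) • (a * fm ρ fun _ => pb π c) y := by
      funext y
      simp only [Pi.mul_apply, fm, mul_smul_comm]
    rw [this, dens_fun_smul, ← hg]
    ring
  refine (J_pos_of hX ho (cont_of_sm (c2.mul_left ha).sm) (fun y hy => ?_) hx.1 ?_).ne' (h _ c2)
  · rw [e3]
    by_cases h1 : y ∈ N
    · exact mul_nonneg (s4 y) (hN' ⟨h1, hy⟩).le
    · rw [image_eq_zero_of_notMem_tsupport fun h2 => h1 (s2 h2), zero_mul]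
  · rw [e3, s3, one_mul]
    exact mul_self_pos.2 g0

theorem eqv_of_test (hX : Clo n X) (ho : Ori n X o) (hU : IsOpen U) (ha : Sm (X ∩ U) a)
    (hb : Sm (X ∩ U) b) (h : ∀ φ, Cs X U φ → J n X o (a * φ) = J n X o (b * φ)) :
    Eqv (X ∩ U) a b :=
  resZero_of_test hX ho hU (ha.sub hb) fun φ hφ => by
    rw [sub_mul, J_sub' hX ho (hφ.mul_left ha).sm (hφ.mul_left hb).sm, h φ hφ, sub_self]

end Crest.Agent.X262.PD
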