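import Crest.Agent.X262.PD.Hol
import Crest.Agent.X262.Man.Th
import Crest.Agent.X262.Coh.Basic
import Crest.Agent.X277.Cns.Jac

/-!
# Row 262, PD (helper97): `PD`, `FUB`, `DIAG`, `KUN` for the de Rham theory

* `Hz X j` (closed forms of degree `j` are exact), `Hodd X`; `Hz.dual`, `hodd_of`;
* `isProdP`, `th_pd`, `th_fub`, `th_diag`, `span_left`, `span_right`, `th_kun`.
-/

set_option autoImplicit false
set_option linter.unusedSectionVars false
set_option linter.style.haveILetI false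

open Set Module
open Crest.Agent.R208 Crest.Agent.R208.F Crest.Agent.R208.FI Crest.Agent.R208.T
open Crest.Agent.R208.CW (SMap integ)
open Crest.Agent.X277 Crest.Agent.X277.Lef Crest.Agent.X277.AN.G1 Crest.Agent.X277.BD
open Crest.Agent.X262.Man

noncomputable section

namespace Crest.Agent.X262.PD

section odd

variable {E : Type} [NormedAddCommGroup E] [NormedSpace ℝ E] [FiniteDimensional ℝ E]
  {n : ℕ} {X : Set E} {o : E → Ext E}

/-- closed forms of degree `j` are exact -/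
def Hz (X : Set E) (j : ℕ) : Prop := ∀ u, Sm X u → Cl X u → Hom j u → Coh X u 0

/-- closed odd forms are exact -/
def Hodd (X : Set E) : Prop := ∀ u, OC X u → Coh X u 0

theorem Hz.dual (hX : Clo n X) (ho : Ori n X o) {i j : ℕ} (hij : i + j = n) (h : Hz X i) :
    Hz X j := fun u su cu hu => by
  obtain ⟨N, deg, e, f, hb⟩ := exists_pdb hX ho
  refine (hb.span u su cu).trans (Coh.of_eqv ?_)
  rw [Finset.sum_eq_zero fun k _ => ?_]
  · exact Eqv.refl _
  rw [← J_dp_mul hX ho (hb.sf k) su hu (by omega), show n - j = i by omega,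
    J_mul_coh_left hX ho ((hb.sf k).dp i) Sm.zero
      (h _ ((hb.sf k).dp i) ((hb.cf k).dp i (hb.sf k)) (hom_dp _ _)) su cu, zero_mul, J_zero',
    zero_smul]

theorem hodd_of (hX : Sub n X) (h : ∀ j, Odd j → j ≤ n → Hz X j) : Hodd X := fun u hu => by
  refine (Coh.of_eqv (eqv_sum_dp hX u)).symm.trans ?_
  suffices h1 : Coh X (∑ j ∈ Finset.range (n + 1), dp j u) (∑ _j ∈ Finset.range (n + 1), 0) by
    rwa [Finset.sum_const_zero] at h1
  refine coh_sum _ fun j hj => ?_
  rcases Nat.even_or_odd j with he | ho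
  · have h1 : dp j u = 0 := funext fun x => by
      have h2 := dpl_inv j (u x)
      rw [hu.inv, he.neg_one_pow, one_smul, map_neg] at h2
      refine (smul_eq_zero_iff_right (two_ne_zero' ℝ)).1 ?_
      rw [two_smul]
      exact add_eq_zero_iff_neg_eq.2 h2
    rw [h1]
    exact Coh.refl _
  · exact h j ho (Nat.lt_succ_iff.1 (Finset.mem_range.1 hj)) _ (hu.sm.dp j) (hu.cl.dp j hu.sm)
      (hom_dp _ _)

theorem Hodd.hz (h : Hodd X) {j : ℕ} (hj : Odd j) : Hz X j := fun u su cu hu =>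
  h u ⟨fun x => inv_of_odd hj (hu x), su, cu⟩

/-- a four-manifold with `b₁ = 0` has no odd cohomology -/
theorem hodd_four (hX : Clo 4 X) (ho : Ori 4 X o) (h : Hz X 1) : Hodd X :=
  hodd_of hX.sub fun j hj h4 => by
    obtain rfl | rfl : j = 1 ∨ j = 3 := by obtain ⟨k, rfl⟩ := hj; omega
    exacts [h, h.dual hX ho rfl]

variable {G : Type} [NormedAddCommGroup G] [NormedSpace ℝ G] [FiniteDimensional ℝ G]
  {H : Type} [NormedAddCommGroup H] [NormedSpace ℝ H] [FiniteDimensional ℝ H]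
  {k m : ℕ} {Z : Set H} {Y : Set G} {oZ : H → Ext H} {oY : G → Ext G} {p : H → E} {q : H → G}

/-- **Kuenneth** if one factor has no odd cohomology -/
theorem IsProd.span (h : IsProd k Z oZ n X o m Y oY p q) (h0 : Hodd X ∨ Hodd Y) (z : CW.H Z) :
    z ∈ Submodule.span ℂ {z | ∃ a b, z = CW.H.map h.sp a * CW.H.map h.sq b} := by
  refine h.ind (P := fun z => z ∈ Submodule.span ℂ
    {z | ∃ a b, z = CW.H.map h.sp a * CW.H.map h.sq b}) (zero_mem _)
    (fun a b => Submodule.subset_span (by exact ⟨a, b, rfl⟩))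
    (fun u u' hu hu' => ?_)
    (fun _ _ => add_mem) (fun c _ => Submodule.smul_mem _ c) z
  rw [(rcl_eq_zero_iff _).2]
  · exact zero_mem _
  rcases h0 with h0 | h0
  · have h1 := ((h0 u hu).pull h.sp).mul_right (hu'.pull h.sq).sm (hu'.pull h.sq).cl
    rwa [pull_zero', zero_mul] at h1
  · have h1 := coh_mul_left (hu.pull h.sp).sm (hu.pull h.sp).cl ((h0 u' hu').pull h.sq)
    rwa [pull_zero', mul_zero] at h1

end odd

section th

open Crest.Agent.X262.Coh

theorem dim_prod (X Y : SV) : (X.prod Y).dim = X.dim + Y.dim := by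
  haveI := finite_kaehler X.P
  haveI := finite_kaehler Y.P
  exact (Cns.finrank_pf (R274.Prod1_134.isPF ℂ X.F Y.F)).2

/-- the product of two varieties is the product of the manifolds -/
theorem isProdP (X Y : SV) :
    IsProd (2 * (X.prod Y).dim) (XP (X.prod Y).P) (em (X.prod Y).P).ori (2 * X.dim) (XP X.P)
      (em X.P).ori (2 * Y.dim) (XP Y.P) (em Y.P).ori (ambM (fst X Y)) (ambM (snd X Y)) :=
  isProd_emb (dim_prod X Y) (em (X.prod Y).P) (em X.P) (em Y.P)
    ((fst X Y).holMap (an _) (an _)) ((snd X Y).holMap (an _) (an _))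
    (Cns.ptsEquiv X.P Y.P _).bijective
    (fun x => ⟨_, (Coh.pair (idH X) (Cns.cst X.P ((snd X Y).map x))).holMap (an _) (an _),
      fun u => by simp [Cns.pair_map]⟩)
    (fun x => ⟨_, (Coh.pair (Cns.cst Y.P ((fst X Y).map x)) (idH Y)).holMap (an _) (an _),
      fun u => by simp [Cns.pair_map]⟩)
    (smapM _) (smapM _) (ambM_j _) (ambM_j _)

variable (typ : ∀ X : SV, ℕ → ℕ → Submodule ℂ (HP X.P)) (c1 : ∀ X : SV, BD ℂ X.F → HP X.P)
  (Lam : ∀ X : SV, AddSubgroup (HP X.P))

theorem th_pd : (thOf typ c1 Lam).PD := fun X =>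
  ⟨finite_H (cloP X.P) (oriP X.P), fun _ h => nondeg_H (cloP X.P) (oriP X.P) (even_two_mul _) h⟩

theorem th_fub : (thOf typ c1 Lam).FUB := fun X Y a b => (isProdP X Y).integ_mul a b

theorem th_diag : (thOf typ c1 Lam).DIAG := fun {X X' Y} μ ν a b =>
  (isProdP Y Y).diag (isProdP X X') (even_two_mul _) (even_two_mul _) (smapM μ) (smapM ν)
    (smapM (pmap μ ν))
    (by rintro _ ⟨x, rfl⟩; simp [ambM_j, Cns.pair_map, Mor.comp_map])
    (by rintro _ ⟨x, rfl⟩; simp [ambM_j, Cns.pair_map, Mor.comp_map])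
    (smapM (dia Y))
    (by rintro _ ⟨x, rfl⟩; simp [ambM_j, Cns.pair_map])
    (by rintro _ ⟨x, rfl⟩; simp [ambM_j, Cns.pair_map])
    ((th_pd typ c1 Lam).push_spec μ a) ((th_pd typ c1 Lam).push_spec ν b)
    fun z => ((th_pd typ c1 Lam).push_spec (dia Y) 1 z).trans (by rw [one_mul]; rfl)

/-- **Kuenneth** if one factor has no odd cohomology -/
theorem th_span {X Y : SV} (h : Hodd (XP X.P) ∨ Hodd (XP Y.P)) (z : HP (X.prod Y).P) :
    z ∈ Submodule.span ℂ {z | ∃ a b, z = pullH (fst X Y) a * pullH (snd X Y) b} :=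
  (isProdP X Y).span h z

theorem th_kun (h : ∀ X : SV, X.dim = 2 → X.R1 = ⊥ → Hz (XP X.P) 1) : (thOf typ c1 Lam).KUN :=
  fun X _ h2 h1 z => th_span (Or.inl (hodd_four (o := (em X.P).ori) (by simpa [h2] using cloP X.P)
    (by simpa [h2] using oriP X.P) (h X h2 h1))) z

end th

end Crest.Agent.X262.PD
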